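import Vale.Agent.P188.M.Fil2

/-! P188 part M, file Act: the action of `Γ` on the model group.

PLAN. `Rz.ext`: cancel the invertible diagonal matrix, `exp_inj_Fl`, norm formula for `z - z'`.
`exists_act`: `α γ` from `D.dec` and `R.surj`; `κ γ z` = the element with `pr = hd (κ a / κ b) (pr z)` and the
same `a0` (`D.W_κ`, `R.surj`). With `d = diagonal (D.κ γ)`, `d'` its inverse,
`psi (hd .. x) v = d * psi x v * d'` (`diag_conj`, `Sp.hd_eq` with `D.y_κ`, `exp_conj_mat`, diagonal matrices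
commute). Multiplicativity and the cocycle identity by `Rz.ext`; the inverse is `κ γ⁻¹` (`D.κ 1 a = 1`), or use
`MulEquiv.ofBijective`. -/

namespace Vale.Agent.P188.PM

open IsNilpotent (exp)
open scoped InnerProductSpace

universe u

variable {Γ : Type u} [Group Γ] {D : Mod Γ} {M : Geo}

theorem Rz.ext (R : Rz D M) {z z' : M.G} (h1 : R.a0 z = R.a0 z')
    (h2 : psi D.μ D.y (R.pr z) (R.a0 z) = psi D.μ D.y (R.pr z') (R.a0 z')) : z = z' := by
  have hm : ∀ z, R.pr z + D.y (R.a0 z) ∈ Fl D.n 1 := fun z =>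
    Submodule.add_mem _ (D.W_le (R.pr_mem z)) (D.y_mem _)
  have hu : IsUnit (Matrix.diagonal fun a => ((Real.exp ⟪D.μ a, R.a0 z'⟫_ℝ : ℝ) : ℂ)) := by
    rw [Matrix.isUnit_diagonal, Pi.isUnit_iff]
    exact fun a => (Complex.ofReal_ne_zero.2 (Real.exp_pos _).ne').isUnit
  have h3 := hm z
  unfold psi at h2
  rw [h1] at h2 h3
  have h4 := add_right_cancel (exp_inj_Fl h3 (hm z') (hu.mul_right_cancel h2))
  have h5 := R.norm (z - z')
  rw [map_sub, map_sub, h1, h4, sub_self, sub_self] at h5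
  simpa [sub_eq_zero] using h5

theorem ne_Act (D : Mod Γ) (γ : Γ) (a : Fin D.n) : D.κ γ a ≠ 0 := fun h => by
  simpa [h] using D.κ_norm γ a

theorem inv_Act (D : Mod Γ) (γ : Γ) (a : Fin D.n) : D.κ γ⁻¹ a = (D.κ γ a)⁻¹ := by
  have h1 : D.κ 1 a = 1 := mul_left_cancel₀ (ne_Act D 1 a) (by rw [← D.κ_mul, mul_one, mul_one])
  exact eq_inv_of_mul_eq_one_left (by rw [← D.κ_mul, inv_mul_cancel, h1])

theorem dd_Act (D : Mod Γ) (γ : Γ) :
    Matrix.diagonal (D.κ γ) * Matrix.diagonal (fun a => (D.κ γ a)⁻¹) = 1 ∧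
      Matrix.diagonal (fun a => (D.κ γ a)⁻¹) * Matrix.diagonal (D.κ γ) = 1 := by
  simp [Matrix.diagonal_mul_diagonal, ne_Act]

theorem psi_Act (D : Mod Γ) (γ : Γ) {x : Mat D.n} (hx : x ∈ D.W) (v : Eu D.k) :
    psi D.μ D.y (hd (fun a b => D.κ γ a / D.κ γ b) x) v =
      Matrix.diagonal (D.κ γ) * psi D.μ D.y x v * Matrix.diagonal fun a => (D.κ γ a)⁻¹ := by
  have h1 : hd (fun a b => D.κ γ a / D.κ γ b) (D.y v) = D.y v :=
    (D.y_κ γ v).hd_eq fun a b h => by rw [h, div_self (ne_Act D γ b)]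
  have h2 : hd (fun a b => D.κ γ a / D.κ γ b) x + D.y v =
      Matrix.diagonal (D.κ γ) * (x + D.y v) * Matrix.diagonal fun a => (D.κ γ a)⁻¹ := by
    rw [diag_conj, map_add]
    simp only [← div_eq_mul_inv, h1]
  unfold psi
  rw [h2, exp_conj_mat (dd_Act D γ).1 (Submodule.add_mem _ (D.W_le hx) (D.y_mem v))]
  simp only [mul_assoc, Matrix.diagonal_mul_diagonal, mul_comm]

theorem Rz.exists_act (R : Rz D M) : Nonempty (Act R) := by
  have h1 : ∀ γ, ∃ z, R.a0 z = D.ht γ ∧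
      D.ϱ γ = psi D.μ D.y (R.pr z) (D.ht γ) * Matrix.diagonal (D.κ γ) := fun γ => by
    obtain ⟨x, hx, e⟩ := D.dec γ
    obtain ⟨z, rfl, hz⟩ := R.surj x hx (D.ht γ)
    exact ⟨z, hz, e⟩
  choose α ha hα using h1
  choose k hk hk0 using fun γ z => R.surj _ (D.W_κ γ _ (R.pr_mem z)) (R.a0 z)
  have hp : ∀ γ z, psi D.μ D.y (R.pr (k γ z)) (R.a0 (k γ z)) = Matrix.diagonal (D.κ γ) *
      psi D.μ D.y (R.pr z) (R.a0 z) * Matrix.diagonal fun a => (D.κ γ a)⁻¹ := fun γ z => by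
    rw [hk, hk0, psi_Act D γ (R.pr_mem z)]
  have hinv : ∀ γ z, k γ⁻¹ (k γ z) = z := fun γ z => by
    refine R.ext (by rw [hk0, hk0]) ?_
    rw [hp, hp, show D.κ γ⁻¹ = fun a => (D.κ γ a)⁻¹ from funext (inv_Act D γ)]
    simp only [inv_inv]
    rw [← mul_assoc, ← mul_assoc, (dd_Act D γ).2, one_mul, mul_assoc, (dd_Act D γ).2, mul_one]
  have hmul : ∀ γ z z', k γ (z * z') = k γ z * k γ z' := fun γ z z' => by
    refine R.ext (by rw [R.a0_mul, hk0, hk0, hk0, R.a0_mul]) ?_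
    rw [R.psi_mul, hp, hp, hp, R.psi_mul]
    simp only [mul_assoc]
    rw [← mul_assoc (Matrix.diagonal fun a => (D.κ γ a)⁻¹), (dd_Act D γ).2, one_mul]
  refine ⟨⟨α, fun γ => ⟨⟨k γ, k γ⁻¹, hinv γ, fun z => ?_⟩, hmul γ⟩, fun γ z => ?_, hk0,
    fun γ γ' => ?_, ha, hα⟩⟩
  · simpa using hinv γ⁻¹ z
  · refine (sq_eq_sq₀ (norm_nonneg _) (norm_nonneg _)).1 ?_
    change ‖k γ z‖ ^ 2 = _
    rw [R.norm, R.norm, hk, hk0]
    simp only [hd_apply, norm_mul, norm_div, D.κ_norm, div_one, one_mul]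
  · change α (γ * γ') = α γ * k γ (α γ')
    refine R.ext (by rw [R.a0_mul, hk0, ha, ha, ha, D.ht_mul]) ?_
    have h2 := hα (γ * γ')
    rw [map_mul, hα γ, hα γ'] at h2
    have h3 : Matrix.diagonal (D.κ (γ * γ')) = Matrix.diagonal (D.κ γ) * Matrix.diagonal (D.κ γ') := by
      rw [Matrix.diagonal_mul_diagonal]
      exact congrArg _ (funext (D.κ_mul γ γ'))
    have hu : IsUnit (Matrix.diagonal (D.κ (γ * γ'))) := IsUnit.of_mul_eq_one _ (dd_Act D _).1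
    refine hu.mul_right_cancel ?_
    rw [R.psi_mul, hp, ha, ha, ha, ← h2, h3]
    simp only [mul_assoc]
    rw [← mul_assoc (Matrix.diagonal fun a => (D.κ γ a)⁻¹), (dd_Act D γ).2, one_mul]

end Vale.Agent.P188.PM
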