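import Vale.Agent.P188.M.Exp

/-! P188 part M, file BCH: `exp` of a nilpotent Lie subalgebra is closed under products.

PLAN. `dexp`: apply `exp_conj` in the ring `Module.End ℚ B` to `x = -(mulLeft Z)` and `y = δ`, and evaluate
at `1` (`δ 1 = 0`): `ad x δ = mulLeft (δ Z)` and `ad x (mulLeft a) = mulLeft (-(Z * a - a * Z))`, so
`exp (-Z) * δ (exp Z) = ∑ j ≥ 1, (1 / j!) a (j - 1)` with `a 0 = δ Z`, `a (i + 1) = -(Z * a i - a i * Z) ∈ 𝔤'`.
`bch_weak`: work in `B = A[X]` with `δ = derivative`, `G j`, `𝔤`, `𝔤'` = polynomials with all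
coefficients in `F j`, `𝔥`, `𝔥'` (`Polynomial.coeff_mul`; `Filt G c`). `E = exp (C x) * exp (C y * X)`
has `δ E = E * C y` (`dexp` with `𝔤 = ⊤`-free argument: `δ (exp (C y * X)) = exp (C y * X) * C y` and
`δ (exp (C x)) = 0` from the sums; `map_exp` for `C`). Claim for all `j`: there is `U ∈ 𝔤'` with
`U.coeff 0 = 0` and `E - exp Z ∈ G (j + 1)`, `Z = C x + C y * X + U`. Step: `W = E - exp Z`,
`ω = exp (-Z) * δ (exp Z)`, `η = C y - ω ∈ 𝔤'` (`dexp`), `δ W = W * C y + exp Z * η`; so `exp Z * η ∈ G (j + 1)`,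
`η ∈ G (j + 1)`, `δ W - η ∈ G (j + 2)`. `V` = the primitive of `η` with zero constant term
(`η.sum fun i a => monomial (i + 1) ((i + 1 : ℚ)⁻¹ • a)`); `W.coeff 0 = 0` (apply the ring map
`constantCoeff`, `map_exp`), so `W - V ∈ G (j + 2)`; `exp_add_sub`. For `j + 1 ≥ c` apply the ring map
`Polynomial.eval₂RingHom' (RingHom.id A) 1 _` (sum of the coefficients). -/

namespace Vale.Agent.P188.PM

open IsNilpotent (exp)
open Polynomial Finset

theorem dexp {B : Type*} [Ring B] [Algebra ℚ B] (δ : B →ₗ[ℚ] B)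
    (hδ : ∀ x y, δ (x * y) = δ x * y + x * δ y) (𝔤 𝔤' : Submodule ℚ B) (hle : 𝔤' ≤ 𝔤)
    (hlie : ∀ x ∈ 𝔤, ∀ y ∈ 𝔤, x * y - y * x ∈ 𝔤') {Z : B} (hZ : Z ∈ 𝔤) (hn : IsNilpotent Z)
    (hδZ : δ Z ∈ 𝔤) : exp (-Z) * δ (exp Z) - δ Z ∈ 𝔤' := by
  let Lm : B →ₐ[ℚ] Module.End ℚ B := Algebra.lmul ℚ B
  have hL : ∀ a b, Lm a b = a * b := fun _ _ => rfl
  have hx : IsNilpotent (Lm (-Z)) := hn.neg.map Lm
  obtain ⟨m, hm⟩ := ad_nilp hx
  have key := exp_conj hx δ (m := m + 2)
    (by rw [pow_eq_zero_of_le (Nat.le_add_right m 2) hm, LinearMap.zero_apply])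
  have h1 : δ 1 = 0 := by
    have := hδ 1 1
    rw [mul_one, mul_one, one_mul] at this
    exact left_eq_add.1 this
  have ha : ∀ j, (ad (Lm (-Z)) ^ (j + 1)) δ = Lm ((ad (-Z) ^ j) (δ Z)) := fun j => by
    induction j with
    | zero =>
      refine LinearMap.ext fun b => ?_
      simp only [zero_add, pow_one, pow_zero, ad_apply, LinearMap.sub_apply, Module.End.mul_apply,
        Module.End.one_apply, hL, map_neg, hδ, LinearMap.neg_apply]
      abel
    | succ j ih =>
      rw [pow_succ', Module.End.mul_apply, ih, pow_succ', Module.End.mul_apply, ad_apply, ad_apply,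
        map_sub, map_mul, map_mul]
  have hg : ∀ j, (ad (-Z) ^ j) (δ Z) ∈ 𝔤 := fun j => by
    induction j with
    | zero => exact hδZ
    | succ j ih =>
      rw [pow_succ', Module.End.mul_apply]
      exact hle (hlie _ (𝔤.neg_mem hZ) _ ih)
  rw [← map_neg, neg_neg, ← IsNilpotent.map_exp hn.neg, ← IsNilpotent.map_exp hn, sum_range_succ',
    sum_range_succ'] at key
  have k1 := LinearMap.congr_fun key 1
  simp only [ha, Module.End.mul_apply, hL, mul_one, LinearMap.add_apply, LinearMap.sum_apply,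
    LinearMap.smul_apply, pow_zero, Module.End.one_apply, h1, smul_zero, add_zero, zero_add,
    Nat.factorial_one, Nat.cast_one, inv_one, one_smul] at k1
  rw [k1, add_sub_cancel_right]
  refine 𝔤'.sum_mem fun j _ => 𝔤'.smul_mem _ ?_
  rw [pow_succ', Module.End.mul_apply]
  exact hlie _ (𝔤.neg_mem hZ) _ (hg j)

theorem dexp_comm_BCH {B : Type*} [Ring B] [Algebra ℚ B] (δ : B →ₗ[ℚ] B)
    (hδ : ∀ x y, δ (x * y) = δ x * y + x * δ y) {Z : B} (hn : IsNilpotent Z)
    (hc : Commute Z (δ Z)) : δ (exp Z) = exp Z * δ Z := by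
  have h := dexp δ hδ (Submodule.span ℚ {Z, δ Z}) ⊥ bot_le (fun x hx y hy => ?_)
    (Submodule.subset_span (by simp)) hn (Submodule.subset_span (by simp))
  · rw [Submodule.mem_bot, sub_eq_zero] at h
    rw [← h, ← mul_assoc, IsNilpotent.exp_mul_exp_neg_self hn, one_mul]
  · obtain ⟨a, b, rfl⟩ := Submodule.mem_span_pair.1 hx
    obtain ⟨a', b', rfl⟩ := Submodule.mem_span_pair.1 hy
    rw [Submodule.mem_bot, sub_eq_zero]
    exact ((((Commute.refl Z).smul_right a').add_right (hc.smul_right b')).smul_left a).add_left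
      (((hc.symm.smul_right a').add_right ((Commute.refl _).smul_right b')).smul_left b)

section poly

variable {A : Type*} [Ring A] [Algebra ℚ A]

/-- polynomials with coefficients in `S` -/
def PF_BCH (S : Submodule ℚ A) : Submodule ℚ A[X] where
  carrier := {p | ∀ i, p.coeff i ∈ S}
  add_mem' := fun {p q} hp hq i => by rw [coeff_add]; exact S.add_mem (hp i) (hq i)
  zero_mem' := fun i => by rw [coeff_zero]; exact S.zero_mem
  smul_mem' := fun c p hp i => by rw [coeff_smul]; exact S.smul_mem c (hp i)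

theorem C_BCH {S : Submodule ℚ A} {a : A} (h : a ∈ S) : C a ∈ PF_BCH S := fun i => by
  rw [coeff_C]
  split_ifs
  exacts [h, S.zero_mem]

theorem CX_BCH {S : Submodule ℚ A} {a : A} (h : a ∈ S) : C a * X ∈ PF_BCH S := fun i => by
  rw [coeff_C_mul_X]
  split_ifs
  exacts [h, S.zero_mem]

theorem filt_BCH {F : ℕ → Submodule ℚ A} {c : ℕ} (h : Filt F c) :
    Filt (fun j => PF_BCH (F j)) c where
  one := C_BCH h.one
  mul := fun hp hq i => by
    rw [coeff_mul]
    exact Submodule.sum_mem _ fun k _ => h.mul (hp _) (hq _)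
  anti := fun j p hp i => h.anti j (hp i)
  bot := fun p hp => Polynomial.ext fun i => h.bot _ (hp i)

theorem lie_BCH {S S' : Submodule ℚ A} (h : ∀ x ∈ S, ∀ y ∈ S, x * y - y * x ∈ S') :
    ∀ p ∈ PF_BCH S, ∀ q ∈ PF_BCH S, p * q - q * p ∈ PF_BCH S' := fun p hp q hq i => by
  rw [coeff_sub, coeff_mul, coeff_mul, ← Finset.Nat.sum_antidiagonal_swap (f := fun k =>
    q.coeff k.1 * p.coeff k.2), ← sum_sub_distrib]
  exact Submodule.sum_mem _ fun k _ => h _ (hp _) _ (hq _)

theorem coeff_der_BCH (p : A[X]) (i : ℕ) :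
    (derivative p).coeff i = ((i : ℚ) + 1) • p.coeff (i + 1) := by
  rw [coeff_derivative, add_smul, one_smul, mul_add, mul_one, Nat.cast_smul_eq_nsmul,
    nsmul_eq_mul']

theorem der_BCH {S : Submodule ℚ A} {p : A[X]} (h : p ∈ PF_BCH S) : derivative p ∈ PF_BCH S :=
  fun i => by
    rw [coeff_der_BCH]
    exact S.smul_mem _ (h _)

theorem of_der_BCH {S : Submodule ℚ A} {p : A[X]} (h0 : p.coeff 0 = 0)
    (h : derivative p ∈ PF_BCH S) : p ∈ PF_BCH S := fun i => by
  rcases i with _ | i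
  · rw [h0]
    exact S.zero_mem
  · have := h i
    rw [coeff_der_BCH] at this
    exact (S.smul_mem_iff (by positivity)).1 this

theorem prim_BCH (η : A[X]) : ∃ V : A[X], V.coeff 0 = 0 ∧ derivative V = η := by
  induction η using Polynomial.induction_on' with
  | add p q hp hq =>
    obtain ⟨V, h1, h2⟩ := hp
    obtain ⟨V', h1', h2'⟩ := hq
    exact ⟨V + V', by rw [coeff_add, h1, h1', add_zero], by rw [derivative_add, h2, h2']⟩
  | monomial i a =>
    refine ⟨monomial (i + 1) (((i : ℚ) + 1)⁻¹ • a), by rw [coeff_monomial, if_neg i.succ_ne_zero],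
      Polynomial.ext fun k => ?_⟩
    rw [coeff_der_BCH, coeff_monomial, coeff_monomial]
    by_cases h : i = k
    · subst h
      rw [if_pos rfl, if_pos rfl, smul_inv_smul₀ (by positivity)]
    · rw [if_neg h, if_neg fun e => h (Nat.succ_injective e), smul_zero]

theorem approx_BCH {F : ℕ → Submodule ℚ A} {c : ℕ}
    (h : Filt F c) (𝔥 𝔥' : Submodule ℚ A) (h1 : 𝔥 ≤ F 1) (hle : 𝔥' ≤ 𝔥)
    (hlie : ∀ x ∈ 𝔥, ∀ y ∈ 𝔥, x * y - y * x ∈ 𝔥') {x y : A} (hx : x ∈ 𝔥) (hy : y ∈ 𝔥) (j : ℕ) :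
    ∃ U ∈ PF_BCH 𝔥', U.coeff 0 = 0 ∧
      exp (C x) * exp (C y * X) - exp (C x + C y * X + U) ∈ PF_BCH (F (j + 1)) := by
  have hG := filt_BCH h
  have nil : ∀ p ∈ PF_BCH (F 1), IsNilpotent p := fun p hp => ⟨c, hG.pow_eq hp⟩
  have hx1 := C_BCH (h1 hx)
  have hy1 := C_BCH (h1 hy)
  have hy2 := CX_BCH (h1 hy)
  have hle' : PF_BCH 𝔥' ≤ PF_BCH 𝔥 := fun p hp i => hle (hp i)
  have h1' : PF_BCH 𝔥 ≤ PF_BCH (F 1) := fun p hp i => h1 (hp i)
  let δ : A[X] →ₗ[ℚ] A[X] := (derivative : A[X] →ₗ[A] A[X]).restrictScalars ℚ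
  have hδ : ∀ p q, δ (p * q) = δ p * q + p * δ q := fun p q => derivative_mul
  have d1 : derivative (exp (C x)) = 0 := by
    rw [← IsNilpotent.map_exp ⟨c, h.pow_eq (h1 hx)⟩, derivative_C]
  have d0 : derivative (C y * X) = C y := derivative_C_mul_X y
  have d2 : derivative (exp (C y * X)) = exp (C y * X) * C y := by
    have := dexp_comm_BCH δ hδ (nil _ hy2) (by
      change Commute _ (derivative _)
      rw [d0]
      exact (Commute.refl _).mul_left (commute_X _))
    exact this.trans (congrArg _ d0)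
  induction j with
  | zero =>
    refine ⟨0, Submodule.zero_mem _, rfl, ?_⟩
    have e : ∀ a b d : A[X], a * b - d = (a - 1) * b + (b - 1) - (d - 1) := fun a b d => by
      rw [sub_mul, one_mul]
      abel
    rw [e, add_zero]
    exact Submodule.sub_mem _ (Submodule.add_mem _ (hG.mul (i := 1) (j := 0) (hG.exp_sub_one hx1)
      (hG.exp_mem hy2))
      (hG.exp_sub_one hy2)) (hG.exp_sub_one (Submodule.add_mem _ hx1 hy2))
  | succ j ih =>
    obtain ⟨U, hU, hU0, hW⟩ := ih
    set Z := C x + C y * X + U with hZd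
    have hZ : Z ∈ PF_BCH 𝔥 :=
      Submodule.add_mem _ (Submodule.add_mem _ (C_BCH hx) (CX_BCH hy)) (hle' hU)
    have hZ1 := h1' hZ
    have dZ : derivative Z = C y + derivative U := by
      rw [hZd, derivative_add, derivative_add, derivative_C, d0, zero_add]
    have hω : exp (-Z) * derivative (exp Z) - derivative Z ∈ PF_BCH 𝔥' :=
      dexp δ hδ _ _ hle' (lie_BCH hlie) hZ (nil _ hZ1) (der_BCH hZ)
    set W := exp (C x) * exp (C y * X) - exp Z with hWd
    set η := C y - exp (-Z) * derivative (exp Z) with hηd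
    have hη : η ∈ PF_BCH 𝔥' := by
      have : η = -(exp (-Z) * derivative (exp Z) - derivative Z) - derivative U := by
        rw [hηd, dZ]
        abel
      rw [this]
      exact Submodule.sub_mem _ (Submodule.neg_mem _ hω) (der_BCH hU)
    have dW : derivative W = W * C y + exp Z * η := by
      rw [hWd, hηd, derivative_sub, derivative_mul, d1, d2, zero_mul, zero_add, mul_sub (exp Z),
        ← mul_assoc (exp Z), IsNilpotent.exp_mul_exp_neg_self (nil _ hZ1), one_mul, sub_mul,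
        mul_assoc]
      abel
    have hWy : W * C y ∈ PF_BCH (F (j + 1 + 1)) := hG.mul hW hy1
    have hη1 : η ∈ PF_BCH (F (j + 1)) := by
      have e : η = exp (-Z) * (derivative W - W * C y) := by
        rw [dW, add_sub_cancel_left, ← mul_assoc, IsNilpotent.exp_neg_mul_exp_self (nil _ hZ1),
          one_mul]
      have := hG.mul (hG.exp_mem (Submodule.neg_mem _ hZ1))
        (Submodule.sub_mem _ (der_BCH hW) (hG.anti _ hWy))
      rwa [zero_add, ← e] at this
    obtain ⟨V, hV0, hV⟩ := prim_BCH η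
    have hW0 : W.coeff 0 = 0 := by
      have e : constantCoeff Z = x := by
        rw [constantCoeff_apply, hZd, coeff_add, coeff_add, hU0, coeff_C_zero, coeff_C_mul_X,
          if_neg zero_ne_one, add_zero, add_zero]
      have e' : constantCoeff (C y * X) = 0 := by
        rw [constantCoeff_apply, coeff_C_mul_X, if_neg zero_ne_one]
      rw [← constantCoeff_apply, hWd, map_sub, map_mul, IsNilpotent.map_exp (nil _ hx1),
        IsNilpotent.map_exp (nil _ hy2), IsNilpotent.map_exp (nil _ hZ1), e, e',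
        IsNilpotent.exp_zero, mul_one, constantCoeff_apply, coeff_C_zero, sub_self]
    have hWV : W - V ∈ PF_BCH (F (j + 1 + 1)) := by
      refine of_der_BCH (by rw [coeff_sub, hW0, hV0, sub_zero]) ?_
      have e : derivative (W - V) = W * C y + (exp Z - 1) * η := by
        rw [derivative_sub, dW, hV, sub_mul (exp Z), one_mul]
        abel
      have := hG.mul (hG.exp_sub_one hZ1) hη1
      rw [add_comm 1] at this
      rw [e]
      exact Submodule.add_mem _ hWy this
    refine ⟨U + V, Submodule.add_mem _ hU (of_der_BCH hV0 (hV ▸ hη)),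
      by rw [coeff_add, hU0, hV0, add_zero], ?_⟩
    have e : exp (C x) * exp (C y * X) - exp (C x + C y * X + (U + V)) =
        (W - V) - (exp (Z + V) - exp Z - V) := by
      rw [← add_assoc, hWd]
      abel
    rw [e]
    exact Submodule.sub_mem _ hWV (hG.exp_add_sub hZ1 (of_der_BCH hV0 (hV ▸ hη1)))

end poly

theorem bch_weak {A : Type*} [Ring A] [Algebra ℚ A] {F : ℕ → Submodule ℚ A} {c : ℕ}
    (h : Filt F c) (𝔥 𝔥' : Submodule ℚ A) (h1 : 𝔥 ≤ F 1) (hle : 𝔥' ≤ 𝔥)
    (hlie : ∀ x ∈ 𝔥, ∀ y ∈ 𝔥, x * y - y * x ∈ 𝔥') {x y : A} (hx : x ∈ 𝔥) (hy : y ∈ 𝔥) :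
    ∃ z ∈ 𝔥', exp (x + y + z) = exp x * exp y := by
  obtain ⟨U, hU, -, hW⟩ := approx_BCH h 𝔥 𝔥' h1 hle hlie hx hy c
  have hG := filt_BCH h
  have nil : ∀ p ∈ PF_BCH (F 1), IsNilpotent p := fun p hp => ⟨c, hG.pow_eq hp⟩
  have hx1 := C_BCH (h1 hx)
  have hy2 := CX_BCH (h1 hy)
  have hU1 : U ∈ PF_BCH (F 1) := fun i => h1 (hle (hU i))
  let ev : A[X] →+* A := eval₂RingHom' (RingHom.id A) 1 fun a => Commute.one_right a
  have evC : ∀ a, ev (C a) = a := fun a => eval₂_C _ _
  have evX : ev X = 1 := eval₂_X _ _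
  have e := congrArg ev (sub_eq_zero.1 (hG.bot _ (hG.anti c hW)))
  rw [map_mul, IsNilpotent.map_exp (nil _ hx1), IsNilpotent.map_exp (nil _ hy2),
    IsNilpotent.map_exp (nil _ (Submodule.add_mem _ (Submodule.add_mem _ hx1 hy2) hU1)), map_add,
    map_add, map_mul, evC, evC, evX, mul_one] at e
  refine ⟨ev U, ?_, e.symm⟩
  change eval₂ (RingHom.id A) 1 U ∈ 𝔥'
  rw [eval₂_eq_sum, sum_def]
  refine Submodule.sum_mem _ fun i _ => ?_
  rw [one_pow, mul_one]
  exact hU i

end Vale.Agent.P188.PM
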