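import Vale.Agent.P188.M.Fil2
import Vale.Agent.P188.M.BCH

/-! P188 part M, file Bch2: the Baker-Campbell-Hausdorff product of matrices.

PLAN. `exists_bch`: `bch_weak` in the ring of functions `A = Fl n 1 × Fl n 1 → Mat n`, `F j` = functions
with values in `Fl n j`, `𝔥` (`𝔥'`) = restrictions of the `LiePoly` (`LieBr`) functions, `x = fst`,
`y = snd`; evaluate with `IsNilpotent.map_exp` and `Pi.evalRingHom`. The rest: `LieBr.mem`
(`st_sub_Fl`: take `W = span {x} ⊔ Fl n (j + 1)`, `W' = Fl n (j + 2)`), inductions on `LiePoly`, `LieBr`. -/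

namespace Vale.Agent.P188.PM

open IsNilpotent (exp)

theorem exists_bch (n : ℕ) : ∃ f : Mat n → Mat n → Mat n, LieBr (cm n) f ∧
    ∀ x ∈ Fl n 1, ∀ y ∈ Fl n 1, exp (x + y + f x y) = exp x * exp y := by
  let F : ℕ → Submodule ℚ (Fl n 1 × Fl n 1 → Mat n) := fun j =>
    Submodule.pi Set.univ fun _ => (Fl n j).restrictScalars ℚ
  have hF : Filt F n :=
    { one := fun _ _ => one_mem_Fl
      mul := fun ha hb p hp => Fl_mul (ha p hp) (hb p hp)
      anti := fun j a ha p hp => Fl_le (Nat.le_succ j) (ha p hp)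
      bot := fun a ha => funext fun p => Fl_bot (ha p trivial) }
  let H : Submodule ℚ (Fl n 1 × Fl n 1 → Mat n) :=
    { carrier := {φ | ∃ f, LiePoly (cm n) f ∧ ∀ p, φ p = f p.1 p.2}
      add_mem' := by
        rintro a b ⟨f, hf, ha⟩ ⟨g, hg, hb⟩
        exact ⟨_, hf.add hg, fun p => by rw [Pi.add_apply, ha, hb]⟩
      zero_mem' := ⟨_, LieBr.zero.liePoly, fun _ => rfl⟩
      smul_mem' := by
        rintro c a ⟨f, hf, ha⟩
        exact ⟨_, hf.smul (c : ℝ), fun p => by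
          rw [Pi.smul_apply, ha, Rat.cast_smul_eq_qsmul]⟩ }
  let H' : Submodule ℚ (Fl n 1 × Fl n 1 → Mat n) :=
    { carrier := {φ | ∃ f, LieBr (cm n) f ∧ ∀ p, φ p = f p.1 p.2}
      add_mem' := by
        rintro a b ⟨f, hf, ha⟩ ⟨g, hg, hb⟩
        exact ⟨_, hf.add hg, fun p => by rw [Pi.add_apply, ha, hb]⟩
      zero_mem' := ⟨_, LieBr.zero, fun _ => rfl⟩
      smul_mem' := by
        rintro c a ⟨f, hf, ha⟩
        exact ⟨_, hf.smul (c : ℝ), fun p => by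
          rw [Pi.smul_apply, ha, Rat.cast_smul_eq_qsmul]⟩ }
  have h1 : H ≤ F 1 := by
    rintro a ⟨f, hf, ha⟩ p -
    rw [ha]
    exact hf.mem (Fl n 1) (fun x hx y hy => Fl_le (by norm_num) (cm_mem_Fl hx hy)) p.1.2 p.2.2
  have hle : H' ≤ H := by
    rintro a ⟨f, hf, ha⟩
    exact ⟨f, hf.liePoly, ha⟩
  have hlie : ∀ a ∈ H, ∀ b ∈ H, a * b - b * a ∈ H' := by
    rintro a ⟨f, hf, ha⟩ b ⟨g, hg, hb⟩
    exact ⟨_, LieBr.lie hf hg, fun p => by
      rw [Pi.sub_apply, Pi.mul_apply, Pi.mul_apply, ha, hb, cm_apply]⟩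
  have hx : (fun p : Fl n 1 × Fl n 1 => (p.1 : Mat n)) ∈ H := ⟨_, LiePoly.fst, fun _ => rfl⟩
  have hy : (fun p : Fl n 1 × Fl n 1 => (p.2 : Mat n)) ∈ H := ⟨_, LiePoly.snd, fun _ => rfl⟩
  obtain ⟨z, hz, he⟩ := bch_weak hF H H' h1 hle hlie hx hy
  have ev : ∀ a ∈ H, ∀ p, exp a p = exp (a p) := fun a ha p =>
    IsNilpotent.map_exp ⟨n, hF.pow_eq (h1 ha)⟩ (Pi.evalRingHom (fun _ => Mat n) p)
  have hs := H.add_mem (H.add_mem hx hy) (hle hz)
  obtain ⟨f, hf, hz⟩ := hz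
  refine ⟨f, hf, fun x hx' y hy' => ?_⟩
  have h2 := congrFun he (⟨x, hx'⟩, ⟨y, hy'⟩)
  rw [Pi.mul_apply, ev _ hs, ev _ hx, ev _ hy, Pi.add_apply, Pi.add_apply, hz] at h2
  exact h2

/-- the nonlinear part of the product -/
noncomputable def bf (n : ℕ) : Mat n → Mat n → Mat n := (exists_bch n).choose

/-- the Baker-Campbell-Hausdorff product -/
noncomputable def st {n : ℕ} (x y : Mat n) : Mat n := x + y + bf n x y

variable {n : ℕ} {x y : Mat n}

theorem bf_lie (n : ℕ) : LieBr (cm n) (bf n) := (exists_bch n).choose_spec.1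

theorem exp_st (hx : x ∈ Fl n 1) (hy : y ∈ Fl n 1) : exp (st x y) = exp x * exp y :=
  (exists_bch n).choose_spec.2 x hx y hy

theorem st_sub_mem (W W' : Submodule ℝ (Mat n)) (hW : ∀ x ∈ W, ∀ y ∈ W, cm n x y ∈ W)
    (hW' : ∀ x ∈ W, ∀ y ∈ W, cm n x y ∈ W') (hx : x ∈ W) (hy : y ∈ W) : st x y - x - y ∈ W' := by
  have h : st x y - x - y = bf n x y := by
    unfold st
    abel
  rw [h]
  exact (bf_lie n).mem W W' hW hW' hx hy

theorem st_mem (W : Submodule ℝ (Mat n)) (hW : ∀ x ∈ W, ∀ y ∈ W, cm n x y ∈ W) (hx : x ∈ W)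
    (hy : y ∈ W) : st x y ∈ W := by
  exact W.add_mem (W.add_mem hx hy) ((bf_lie n).mem W W hW hW hx hy)

theorem st_mem_Fl (hx : x ∈ Fl n 1) (hy : y ∈ Fl n 1) : st x y ∈ Fl n 1 := by
  exact st_mem _ (fun _ ha _ hb => Fl_le (by norm_num) (cm_mem_Fl ha hb)) hx hy

theorem line_Bch2 (W W' : Submodule ℝ (Mat n)) (hW : ∀ x ∈ W, ∀ y ∈ W, cm n x y ∈ W') {u : Mat n}
    (hu : ∀ x ∈ W, cm n u x ∈ W') :
    ∀ a ∈ Submodule.span ℝ {u} ⊔ W, ∀ b ∈ Submodule.span ℝ {u} ⊔ W, cm n a b ∈ W' := by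
  intro a ha b hb
  obtain ⟨a1, ha1, v, hv, rfl⟩ := Submodule.mem_sup.1 ha
  obtain ⟨b1, hb1, w, hw, rfl⟩ := Submodule.mem_sup.1 hb
  obtain ⟨s, rfl⟩ := Submodule.mem_span_singleton.1 ha1
  obtain ⟨t, rfl⟩ := Submodule.mem_span_singleton.1 hb1
  have h1 : cm n u u = 0 := by rw [cm_apply, sub_self]
  have h2 : cm n v u = -cm n u v := by rw [cm_apply, cm_apply, neg_sub]
  have h3 : cm n (s • u + v) (t • u + w) = s • cm n u w - t • cm n u v + cm n v w := by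
    simp only [map_add, map_smul, LinearMap.add_apply, LinearMap.smul_apply, h1, h2]
    module
  rw [h3]
  exact W'.add_mem (W'.sub_mem (W'.smul_mem _ (hu w hw)) (W'.smul_mem _ (hu v hv))) (hW v hv w hw)

theorem st_sub_Fl {j : ℕ} (hx : x ∈ Fl n 1) (hy : y ∈ Fl n (j + 1)) :
    st x y - x - y ∈ Fl n (j + 2) ∧ st y x - y - x ∈ Fl n (j + 2) := by
  have k := line_Bch2 (Fl n (j + 1)) (Fl n (j + 2))
    (fun _ ha _ hb => Fl_le (by omega) (cm_mem_Fl ha hb))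
    (u := x) fun _ ha => Fl_le (by omega) (cm_mem_Fl hx ha)
  have k' : ∀ a ∈ Submodule.span ℝ {x} ⊔ Fl n (j + 1), ∀ b ∈ Submodule.span ℝ {x} ⊔ Fl n (j + 1),
      cm n a b ∈ Submodule.span ℝ {x} ⊔ Fl n (j + 1) := fun a ha b hb =>
    Submodule.mem_sup_right (Fl_le (by omega) (k a ha b hb))
  have hx' : x ∈ Submodule.span ℝ {x} ⊔ Fl n (j + 1) :=
    Submodule.mem_sup_left (Submodule.mem_span_singleton_self x)
  exact ⟨st_sub_mem _ _ k' k hx' (Submodule.mem_sup_right hy),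
    st_sub_mem _ _ k' k (Submodule.mem_sup_right hy) hx'⟩

/-- the product modulo an ideal `W` normalised by one more element `u` -/
theorem st_sub_line (W : Submodule ℝ (Mat n)) (hW : ∀ x ∈ W, ∀ y ∈ W, cm n x y ∈ W) {u : Mat n}
    (hu : ∀ x ∈ W, cm n u x ∈ W) (hx : x ∈ W) (hy : y ∈ W) (s t : ℝ) :
    st (x + s • u) (y + t • u) - (s + t) • u ∈ W := by
  have k := line_Bch2 W W hW hu
  have m : ∀ a ∈ W, ∀ r : ℝ, a + r • u ∈ Submodule.span ℝ {u} ⊔ W := fun a ha r =>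
    Submodule.add_mem _ (Submodule.mem_sup_right ha)
      (Submodule.mem_sup_left (Submodule.smul_mem _ _ (Submodule.mem_span_singleton_self u)))
  have h := st_sub_mem _ W (fun a ha b hb => Submodule.mem_sup_right (k a ha b hb)) k
    (m x hx s) (m y hy t)
  have e : st (x + s • u) (y + t • u) - (s + t) • u =
      st (x + s • u) (y + t • u) - (x + s • u) - (y + t • u) + x + y := by
    module
  rw [e]
  exact W.add_mem (W.add_mem h hx) hy

theorem cont_Bch2 {f : Mat n → Mat n → Mat n} (h : LiePoly (cm n) f) :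
    Continuous fun p : Mat n × Mat n => f p.1 p.2 := by
  induction h with
  | fst => exact continuous_fst
  | snd => exact continuous_snd
  | add _ _ h1 h2 => exact h1.add h2
  | smul t _ h => exact h.const_smul t
  | lie _ _ h1 h2 => exact (h1.mul h2).sub (h2.mul h1)

theorem continuous_st : Continuous fun p : Mat n × Mat n => st p.1 p.2 := by
  exact (continuous_fst.add continuous_snd).add (cont_Bch2 (bf_lie n).liePoly)

theorem LieBr_pull {X Y : Type} [AddCommGroup X] [Module ℝ X] [AddCommGroup Y] [Module ℝ Y]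
    (br : X →ₗ[ℝ] X →ₗ[ℝ] X) (br0 : Y →ₗ[ℝ] Y →ₗ[ℝ] Y) (j : X →ₗ[ℝ] Y)
    (hj : ∀ x y, j (br x y) = br0 (j x) (j y)) {f0 : Y → Y → Y} (h : LieBr br0 f0) :
    ∃ f, LieBr br f ∧ ∀ x y, j (f x y) = f0 (j x) (j y) := by
  have key : ∀ {g0 : Y → Y → Y}, LiePoly br0 g0 →
      ∃ g, LiePoly br g ∧ ∀ x y, j (g x y) = g0 (j x) (j y) := by
    intro g0 hg
    induction hg with
    | fst => exact ⟨_, LiePoly.fst, fun _ _ => rfl⟩
    | snd => exact ⟨_, LiePoly.snd, fun _ _ => rfl⟩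
    | add _ _ h1 h2 =>
      obtain ⟨a, ha, ea⟩ := h1
      obtain ⟨b, hb, eb⟩ := h2
      exact ⟨_, ha.add hb, fun x y => by rw [map_add, ea, eb]⟩
    | smul t _ h1 =>
      obtain ⟨a, ha, ea⟩ := h1
      exact ⟨_, ha.smul t, fun x y => by rw [map_smul, ea]⟩
    | lie _ _ h1 h2 =>
      obtain ⟨a, ha, ea⟩ := h1
      obtain ⟨b, hb, eb⟩ := h2
      exact ⟨_, ha.lie hb, fun x y => by rw [hj, ea, eb]⟩
  induction h with
  | zero => exact ⟨_, LieBr.zero, fun _ _ => map_zero j⟩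
  | lie h1 h2 =>
    obtain ⟨a, ha, ea⟩ := key h1
    obtain ⟨b, hb, eb⟩ := key h2
    exact ⟨_, LieBr.lie ha hb, fun x y => by rw [hj, ea, eb]⟩
  | add _ _ h1 h2 =>
    obtain ⟨a, ha, ea⟩ := h1
    obtain ⟨b, hb, eb⟩ := h2
    exact ⟨_, ha.add hb, fun x y => by rw [map_add, ea, eb]⟩
  | smul t _ h1 =>
    obtain ⟨a, ha, ea⟩ := h1
    exact ⟨_, ha.smul t, fun x y => by rw [map_smul, ea]⟩

end Vale.Agent.P188.PM
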