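import Vale.Agent.P188.M.Quot

/-! P188 part M, file Build: the representation of `G = H ⋊ <t>` on a quotient of `ℤ[H]`.

PLAN. Put `j g = (e g).toAdd`, `h g = g * (t ^ j g)⁻¹ ∈ e.ker`. `G` acts on `M = ℤ[H] × (ℤ × ℤ)` by
`A g (x, a, b) = (of (h g) * cj (t ^ j g) x, a + j g * b, b)`; this is multiplicative because
`h (g g') = h g * (t ^ j g) (h g') (t ^ j g)⁻¹` and `cj (s s') = cj s ∘ cj s'` (check on `of h`:
`MonoidAlgebra.algHom_ext`, `cj_of`). Filtration `F' w = (F w).prod (Z w)` with `Z 0 = ⊤`,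
`Z 1 = ⊤.prod ⊥`, `Z w = ⊥` for `w ≥ 2`; apply `lin_of_fil` with `c + 2` (for cofiniteness of `F' (c + 2)`
use `hB`). Faithful: `x = (0, 0, 1)` gives `j g = 0`; `x = (1, 0, 0)` gives `k • (ρ h - 1) = 0`. -/

namespace Vale.Agent.P188.PM

theorem cj_mul_Build {G : Type*} [Group G] (H : Subgroup G) [H.Normal] (s s' : G)
    (x : MonoidAlgebra ℤ H) : cj H (s * s') x = cj H s (cj H s' x) := by
  have : cj H (s * s') = (cj H s).comp (cj H s') := by
    refine MonoidAlgebra.algHom_ext (fun h => ?_) (Subsingleton.elim _ _)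
    change cj H (s * s') (MonoidAlgebra.of ℤ H h) = cj H s (cj H s' (MonoidAlgebra.of ℤ H h))
    rw [cj_of, cj_of, cj_of, map_mul, MulAut.mul_apply]
  rw [this, AlgHom.comp_apply]

theorem cj_one_Build {G : Type*} [Group G] (H : Subgroup G) [H.Normal]
    (x : MonoidAlgebra ℤ H) : cj H 1 x = x := by
  have : cj H 1 = AlgHom.id ℤ _ := by
    refine MonoidAlgebra.algHom_ext (fun h => ?_) (Subsingleton.elim _ _)
    change cj H 1 (MonoidAlgebra.of ℤ H h) = MonoidAlgebra.of ℤ H h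
    rw [cj_of, map_one, MulAut.one_apply]
  rw [this, AlgHom.id_apply]

/-- the kernel component of `g` -/
def hh_Build {G : Type*} [Group G] (e : G →* Multiplicative ℤ) (t : G)
    (ht : e t = Multiplicative.ofAdd 1) (g : G) : e.ker :=
  ⟨g * (t ^ (e g).toAdd)⁻¹, MonoidHom.mem_ker.2 (Multiplicative.toAdd.injective (by
    rw [map_mul, map_inv, map_zpow, ht, toAdd_mul, toAdd_inv, toAdd_zpow, toAdd_ofAdd, smul_eq_mul,
      mul_one, toAdd_one, add_neg_cancel]))⟩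

theorem exists_act_Build {G : Type*} [Group G] (e : G →* Multiplicative ℤ) (t : G)
    (ht : e t = Multiplicative.ofAdd 1) :
    ∃ A : G →* Module.End ℤ (MonoidAlgebra ℤ e.ker × (ℤ × ℤ)), ∀ g x z, A g (x, z) =
      (MonoidAlgebra.of ℤ e.ker (hh_Build e t ht g) * cj e.ker (t ^ (e g).toAdd) x,
        (z.1 + (e g).toAdd * z.2, z.2)) := by
  let A : G → Module.End ℤ (MonoidAlgebra ℤ e.ker × (ℤ × ℤ)) := fun g => LinearMap.prodMap
    (LinearMap.mulLeft ℤ (MonoidAlgebra.of ℤ e.ker (hh_Build e t ht g)) ∘ₗ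
      (cj e.ker (t ^ (e g).toAdd)).toLinearMap)
    (LinearMap.prod (LinearMap.fst ℤ ℤ ℤ + (e g).toAdd • LinearMap.snd ℤ ℤ ℤ) (LinearMap.snd ℤ ℤ ℤ))
  have hA : ∀ g x z, A g (x, z) =
      (MonoidAlgebra.of ℤ e.ker (hh_Build e t ht g) * cj e.ker (t ^ (e g).toAdd) x,
        (z.1 + (e g).toAdd * z.2, z.2)) := fun g x z => rfl
  refine ⟨⟨⟨A, ?_⟩, ?_⟩, hA⟩
  · refine LinearMap.ext fun p => ?_
    obtain ⟨x, z⟩ := p
    have h1 : hh_Build e t ht 1 = 1 := Subtype.ext (by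
      change 1 * (t ^ (e 1).toAdd)⁻¹ = 1
      rw [map_one, toAdd_one, zpow_zero, inv_one, mul_one])
    rw [hA, h1, map_one, map_one, toAdd_one, zpow_zero, cj_one_Build, one_mul, zero_mul, add_zero]
    rfl
  · intro g g'
    refine LinearMap.ext fun p => ?_
    obtain ⟨x, z⟩ := p
    have h1 : hh_Build e t ht (g * g') =
        hh_Build e t ht g * MulAut.conjNormal (t ^ (e g).toAdd) (hh_Build e t ht g') :=
      Subtype.ext (by
        rw [Subgroup.coe_mul, MulAut.conjNormal_apply]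
        change g * g' * (t ^ (e (g * g')).toAdd)⁻¹ = g * (t ^ (e g).toAdd)⁻¹ *
          (t ^ (e g).toAdd * (g' * (t ^ (e g').toAdd)⁻¹) * (t ^ (e g).toAdd)⁻¹)
        rw [map_mul, toAdd_mul, zpow_add]
        group)
    change A (g * g') (x, z) = A g (A g' (x, z))
    rw [hA g', hA g, hA, h1, map_mul e, map_mul (MonoidAlgebra.of ℤ e.ker), map_mul (cj _ _), cj_of,
      toAdd_mul, zpow_add, cj_mul_Build, mul_assoc]
    refine Prod.ext rfl (Prod.ext ?_ rfl)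
    change z.1 + ((e g).toAdd + (e g').toAdd) * z.2 = z.1 + (e g').toAdd * z.2 + (e g).toAdd * z.2
    ring

/-- the filtration on the plane -/
def Z_Build : ℕ → Submodule ℤ (ℤ × ℤ)
  | 0 => ⊤
  | 1 => Submodule.prod ⊤ ⊥
  | _ + 2 => ⊥

theorem Z_anti_Build : ∀ w, Z_Build (w + 1) ≤ Z_Build w
  | 0 => le_top
  | 1 => bot_le
  | _ + 2 => le_rfl

theorem Z_step_Build : ∀ (w : ℕ) (j : ℤ), ∀ z ∈ Z_Build w,
    (z.1 + j * z.2, z.2) - z ∈ Z_Build (w + 1)
  | 0, _, z, _ => ⟨trivial, sub_self z.2⟩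
  | 1, j, z, hz => by
    have h : z.2 = 0 := hz.2
    change (z.1 + j * z.2, z.2) - z = 0
    refine Prod.ext ?_ (sub_self z.2)
    change z.1 + j * z.2 - z.1 = 0
    rw [h]
    ring
  | _ + 2, j, z, hz => by
    have h : z = 0 := hz
    subst h
    change ((0 : ℤ) + j * 0, (0 : ℤ)) - 0 = (0 : ℤ × ℤ)
    rw [mul_zero, add_zero, sub_zero]
    rfl

theorem swan_build {G : Type*} [Group G] (e : G →* Multiplicative ℤ) (t : G)
    (ht : e t = Multiplicative.ofAdd 1) {n : ℕ} (ρ : e.ker →* Matrix (Fin n) (Fin n) ℤ)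
    (hρ : Function.Injective ρ) (F : ℕ → Submodule ℤ (MonoidAlgebra ℤ e.ker)) (c : ℕ)
    (h0 : F 0 = ⊤) (anti : ∀ w, F (w + 1) ≤ F w)
    (hl : ∀ w (h : e.ker), ∀ x ∈ F w, MonoidAlgebra.of ℤ e.ker h * x ∈ F w)
    (hτ : ∀ w (g : G), ∀ x ∈ F w, cj e.ker g x ∈ F w) (hB : ∀ w, Cof (F w))
    (hJ : ∀ x ∈ F c, MonoidAlgebra.lift ℤ (Matrix (Fin n) (Fin n) ℤ) e.ker ρ x = 0)
    (N : Subgroup G)
    (hN : ∀ (h : e.ker) (j : ℤ), (h : G) * t ^ j ∈ N → ∀ w, ∀ x ∈ F w,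
      MonoidAlgebra.of ℤ e.ker h * cj e.ker (t ^ j) x - x ∈ F (w + 1)) : Lin G N := by
  obtain ⟨A, hA⟩ := exists_act_Build e t ht
  have hant : Antitone F := antitone_nat_of_succ_le anti
  refine lin_of_fil A (fun w => (F w).prod (Z_Build w)) (c + 2) ?_ ?_ ?_ ?_ N ?_ ?_
  · change (F 0).prod ⊤ = ⊤
    rw [h0, Submodule.prod_top]
  · exact fun w => Submodule.prod_mono (anti w) (Z_anti_Build w)
  · rintro g ⟨x, z⟩ ⟨hx, hz⟩
    rw [hA]
    refine ⟨hl _ _ _ (hτ _ _ _ hx), ?_⟩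
    have hz' : z = 0 := hz
    subst hz'
    change ((0 : ℤ) + (e g).toAdd * 0, (0 : ℤ)) = (0 : ℤ × ℤ)
    rw [mul_zero, add_zero]
    rfl
  · obtain ⟨B, hB1, hB2⟩ := hB (c + 2)
    refine ⟨B.prod ⊤, hB1.prod Module.Finite.fg_top, ?_⟩
    rw [Submodule.prod_sup_prod, hB2, top_sup_eq, Submodule.prod_top]
  · rintro u hu w ⟨x, z⟩ ⟨hx, hz⟩
    rw [hA]
    refine ⟨hN _ _ ?_ w x hx, Z_step_Build w _ z hz⟩
    change u * (t ^ (e u).toAdd)⁻¹ * t ^ (e u).toAdd ∈ N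
    rwa [inv_mul_cancel_right]
  · intro g hg
    obtain ⟨k, hk, h1⟩ := hg (0, 0, 1)
    obtain ⟨k', hk', h2⟩ := hg (1, 0, 0)
    rw [hA] at h1 h2
    have hj : (e g).toAdd = 0 := by
      have h3 : k • (((0 : ℤ) + (e g).toAdd * 1, (1 : ℤ)) - ((0 : ℤ), (1 : ℤ))) = 0 := h1.2
      have h4 : k * (0 + (e g).toAdd * 1 - 0) = 0 := congrArg Prod.fst h3
      have h5 := (mul_eq_zero.1 h4).resolve_left hk
      linarith
    have h3 : k' • (MonoidAlgebra.of ℤ e.ker (hh_Build e t ht g) *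
        cj e.ker (t ^ (e g).toAdd) 1 - 1) ∈ F (c + 2) := h2.1
    have h4 := hJ _ (hant (Nat.le_add_right c 2) h3)
    rw [map_one, mul_one, map_zsmul, map_sub, map_one, MonoidAlgebra.lift_of] at h4
    have h5 : ρ (hh_Build e t ht g) = 1 := sub_eq_zero.1 ((smul_eq_zero.1 h4).resolve_left hk')
    have h6 : hh_Build e t ht g = 1 := hρ (h5.trans (map_one ρ).symm)
    have h7 : g * (t ^ (e g).toAdd)⁻¹ = 1 := congrArg Subtype.val h6
    rwa [hj, zpow_zero, inv_one, mul_one] at h7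

end Vale.Agent.P188.PM
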