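import Vale.Agent.P188.M.GDefs
import Vale.Agent.P188.Poly

/-! P188 part M, file PZ: basics on poly-`ℤ` groups.

PLAN. `of_inj`: induction on `m` generalizing both groups; `e.comp f`, and `f` restricts to an
injective map of kernels (`MonoidHom.codRestrict`). `norm_e`: the range of `e` is a subgroup of `ℤ`,
so it is `zpowers` of some `a = e t` (`Int.subgroup_cyclic` or `IsCyclic`); if `a = 0` the kernel is
everything, else `e' g = e g / a`. `fg`: the kernel is generated by a finset, add `t`.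
`exists_norm`: let `n` be the index of `K` in `H`; `K1` = the elements of `H` killed by every
homomorphism `H →* Equiv.Perm (H ⧸ K.subgroupOf H)`; there are finitely many such homomorphisms (they
are determined by the images of the generators), so `Subgroup.finiteIndex_iInf` applies; the set of
homomorphisms is stable under `MulAut.conjNormal g`; `MulAction.toPermHom` gives `K1 ≤ K`.
(If Vale/Agent/P188/Poly.lean is on main you may import it and use its `exists_char`.)
`fi_sup`: if `G = H <t>` then `K1 <t ^ k>` has finite index: cosets `h t ^ j`, `h` from a finite set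
of representatives, `0 ≤ j < k` (`Subgroup.finiteIndex_of_leftCoset_cover_const`, or a surjection
from a finite type onto the quotient). -/

namespace Vale.Agent.P188.PM

universe u v

theorem PolyZ.of_inj {m : ℕ} {G : Type u} [Group G] (h : PolyZ m G) {H : Type v} [Group H]
    (f : H →* G) (hf : Function.Injective f) : PolyZ m H := by
  induction m generalizing G H with
  | zero =>
    have : Subsingleton G := h
    exact polyZ_zero.2 hf.subsingleton
  | succ m ih =>
    obtain ⟨e, he⟩ := polyZ_succ.1 h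
    refine polyZ_succ.2 ⟨e.comp f, ?_⟩
    refine ih he ((f.comp (e.comp f).ker.subtype).codRestrict e.ker fun x => x.2) ?_
    intro x y hxy
    exact Subtype.ext (hf (congrArg Subtype.val hxy))

theorem PolyZ.sub {m : ℕ} {G : Type u} [Group G] (h : PolyZ m G) (K : Subgroup G) : PolyZ m K :=
  h.of_inj K.subtype K.subtype_injective

theorem range_gen_PZ {G : Type*} [Group G] (e : G →* Multiplicative ℤ) :
    ∃ t : G, ∀ g : G, ∃ j : ℤ, (e g).toAdd = j * (e t).toAdd := by
  obtain ⟨a, ha⟩ := Int.subgroup_cyclic (Subgroup.toAddSubgroup' e.range)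
  have hmem : ∀ g : G, (e g).toAdd ∈ AddSubgroup.closure {a} := fun g => by
    rw [← ha]
    exact ⟨g, rfl⟩
  have ha' : a ∈ Subgroup.toAddSubgroup' e.range := by
    rw [ha]
    exact AddSubgroup.subset_closure rfl
  obtain ⟨t, ht⟩ : ∃ t, e t = Multiplicative.ofAdd a := ha'
  refine ⟨t, fun g => ?_⟩
  obtain ⟨j, hj⟩ := AddSubgroup.mem_closure_singleton.1 (hmem g)
  refine ⟨j, ?_⟩
  rw [ht, toAdd_ofAdd, ← hj, smul_eq_mul]

theorem norm_e {G : Type*} [Group G] (e : G →* Multiplicative ℤ) :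
    e.ker = ⊤ ∨ ∃ (e' : G →* Multiplicative ℤ) (t : G),
      e'.ker = e.ker ∧ e' t = Multiplicative.ofAdd 1 := by
  obtain ⟨t, ht⟩ := range_gen_PZ e
  by_cases h0 : (e t).toAdd = 0
  · left
    refine eq_top_iff.2 fun g _ => ?_
    obtain ⟨j, hj⟩ := ht g
    rw [h0, mul_zero] at hj
    exact MonoidHom.mem_ker.2 (Multiplicative.toAdd.injective hj)
  · right
    choose j hj using ht
    have hadd : ∀ x y, j (x * y) = j x + j y := fun x y => by
      have h1 := hj (x * y)
      rw [map_mul, toAdd_mul, hj x, hj y, ← add_mul] at h1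
      exact (mul_right_cancel₀ h0 h1).symm
    refine ⟨MonoidHom.mk' (fun x => Multiplicative.ofAdd (j x))
      (fun x y => by rw [hadd, ofAdd_add]), t, ?_, ?_⟩
    · ext x
      rw [MonoidHom.mem_ker, MonoidHom.mem_ker]
      constructor
      · intro hx
        have h1 : j x = 0 := hx
        have h2 := hj x
        rw [h1, zero_mul] at h2
        exact Multiplicative.toAdd.injective h2
      · intro hx
        have h2 := hj x
        rw [hx, toAdd_one] at h2
        have h1 : j x = 0 := (mul_eq_zero.1 h2.symm).resolve_right h0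
        change Multiplicative.ofAdd (j x) = 1
        rw [h1, ofAdd_zero]
    · have h1 : j t = 1 := by
        have h2 := hj t
        exact (mul_right_cancel₀ h0 (by rw [one_mul]; exact h2)).symm
      change Multiplicative.ofAdd (j t) = _
      rw [h1]

theorem exists_gen {G : Type*} [Group G] (e : G →* Multiplicative ℤ) :
    ∃ t : G, ∀ g : G, ∃ j : ℤ, g * (t ^ j)⁻¹ ∈ e.ker := by
  obtain ⟨t, ht⟩ := range_gen_PZ e
  refine ⟨t, fun g => ?_⟩
  obtain ⟨j, hj⟩ := ht g
  refine ⟨j, MonoidHom.mem_ker.2 (Multiplicative.toAdd.injective ?_)⟩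
  rw [map_mul, map_inv, map_zpow, toAdd_mul, toAdd_inv, toAdd_zpow, hj, smul_eq_mul, toAdd_one,
    add_neg_cancel]

theorem PolyZ.fg {m : ℕ} {G : Type u} [Group G] (h : PolyZ m G) : Group.FG G := by
  induction m generalizing G with
  | zero =>
    have : Subsingleton G := h
    infer_instance
  | succ m ih =>
    obtain ⟨e, he⟩ := polyZ_succ.1 h
    have h1 : e.ker.FG := (Group.fg_iff_subgroup_fg _).1 (ih he)
    obtain ⟨t, ht⟩ := exists_gen e
    obtain ⟨S, hS, hf⟩ := (Subgroup.fg_iff _).1 h1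
    refine Group.fg_iff.2 ⟨insert t S, eq_top_iff.2 fun g _ => ?_, hf.insert t⟩
    obtain ⟨j, hj⟩ := ht g
    have h2 : g * (t ^ j)⁻¹ ∈ Subgroup.closure (insert t S) :=
      Subgroup.closure_mono (Set.subset_insert t S) (hS ▸ hj)
    have h3 : t ^ j ∈ Subgroup.closure (insert t S) :=
      Subgroup.zpow_mem _ (Subgroup.subset_closure (Set.mem_insert t S)) j
    have h4 := Subgroup.mul_mem _ h2 h3
    rwa [inv_mul_cancel_right] at h4

theorem exists_norm {G : Type*} [Group G] (H : Subgroup G) [H.Normal] [Group.FG H]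
    (K : Subgroup H) [K.FiniteIndex] :
    ∃ K1 : Subgroup G, K1.Normal ∧ K1 ≤ H ∧ (K1.subgroupOf H).FiniteIndex ∧
      K1.subgroupOf H ≤ K := by
  obtain ⟨N1, h1, h2, h3⟩ := exists_normal_le H ((Group.fg_iff_subgroup_fg H).1 inferInstance) K
  refine ⟨N1, h1, h2.trans (Subgroup.map_subtype_le K), h3, fun x hx => ?_⟩
  obtain ⟨y, hy, hxy⟩ := h2 hx
  have : y = x := Subtype.ext hxy
  exact this ▸ hy

theorem fi_sup {G : Type*} [Group G] (H K1 : Subgroup G) [K1.Normal] (hK : K1 ≤ H)
    [(K1.subgroupOf H).FiniteIndex] (t : G) (ht : ∀ g : G, ∃ j : ℤ, g * (t ^ j)⁻¹ ∈ H)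
    {k : ℕ} (hk : k ≠ 0) : (K1 ⊔ Subgroup.zpowers (t ^ k)).FiniteIndex := by
  set L : Subgroup G := K1 ⊔ Subgroup.zpowers (t ^ k) with hL
  have hfin : Finite (H ⧸ K1.subgroupOf H) := inferInstance
  let φ : (H ⧸ K1.subgroupOf H) × Fin k → G ⧸ L :=
    fun p => (((p.1.out : H) : G) * t ^ (p.2 : ℕ) : G)
  have hφ : Function.Surjective φ := by
    intro q
    obtain ⟨g, rfl⟩ := QuotientGroup.mk_surjective q
    obtain ⟨j, hj⟩ := ht g
    have hk' : (0 : ℤ) < k := by exact_mod_cast Nat.pos_of_ne_zero hk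
    have hr0 : 0 ≤ j % k := Int.emod_nonneg j hk'.ne'
    have hr1 : j % k < k := Int.emod_lt_of_pos j hk'
    obtain ⟨r, hr⟩ := Int.eq_ofNat_of_zero_le hr0
    have hrk : r < k := by
      rw [hr] at hr1
      exact_mod_cast hr1
    obtain ⟨y, hy⟩ := QuotientGroup.mk_out_eq_mul (K1.subgroupOf H) (⟨_, hj⟩ : H)
    refine ⟨(((⟨_, hj⟩ : H) : H ⧸ K1.subgroupOf H), ⟨r, hrk⟩), ?_⟩
    refine QuotientGroup.eq.2 ?_
    change (((((⟨_, hj⟩ : H) : H ⧸ K1.subgroupOf H).out : H) : G) * t ^ r)⁻¹ * g ∈ L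
    rw [hy]
    have hy1 : ((y : H) : G) ∈ K1 := y.2
    have hj2 : t ^ j = t ^ r * (t ^ k) ^ (j / k) := by
      rw [← zpow_natCast, ← zpow_natCast, ← zpow_mul, ← zpow_add, ← hr, Int.emod_add_mul_ediv]
    have he : (((⟨_, hj⟩ * (y : H) : H) : G) * t ^ r)⁻¹ * g =
        ((t ^ r)⁻¹ * ((y : H) : G)⁻¹ * (t ^ r)⁻¹⁻¹) * (t ^ k) ^ (j / k) := by
      change (g * (t ^ j)⁻¹ * ((y : H) : G) * t ^ r)⁻¹ * g = _
      rw [hj2]
      group
    rw [he]
    exact L.mul_mem (Subgroup.mem_sup_left (Subgroup.Normal.conj_mem ‹_› _ (K1.inv_mem hy1) _))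
      (Subgroup.mem_sup_right (Subgroup.zpow_mem _ (Subgroup.mem_zpowers _) _))
  have : Finite (G ⧸ L) := Finite.of_surjective φ hφ
  exact Subgroup.finiteIndex_of_finite_quotient

end Vale.Agent.P188.PM
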