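import Vale.Agent.P188.M.Bch2
import Vale.Agent.P188.M.PZ

/-! P188 part M, file Span: the span of the logarithms is a Lie algebra, and the group is cocompact.

PLAN. `nl_conj`: span induction, `exp_conj_mat`, `Fl_mul`. `nl_lie`: for generators `x`, `y` with
`exp x = ϱ g`: `exp x ^ s = ϱ (g ^ s)`, `exp (-x) ^ s = ϱ (g ^ s)⁻¹`, `cm_mem_of_conj`; bilinearity.
`nl_cocompact`: induction on `m` generalizing `G`. Trivial group: `nl ϱ = ⊥`, `K = {0}`. Step: `H = e.ker`,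
`t` from `exists_gen`, `W' = nl (ϱ.comp H.subtype)`, `exp u = ϱ t` (`exp_surj`). Conjugation by `ϱ (t ^ j)`
preserves `W'`, so `cm n u` does (`cm_mem_of_conj`). `ϱ (t ^ j) = exp (j • u)` (`exp_smul_add`), every
logarithm is in `W' + ℝ u` (`g = h t ^ j`, `st_sub_line`, `exp_inj_Fl`), so `nl ϱ ≤ W' ⊔ span {u}`. For
`x + s • u` put `j = ⌊s⌋`, `r = s - j`: `exp (-j • u) * exp (x + s • u) * exp (-r • u) = exp x'` with `x' ∈ W'`
(`st_sub_line` twice), `exp x' = ϱ h * exp b`; `K` = image of `K' ×ˢ Icc 0 1` under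
`(b, r) ↦ st b (r • u)`. `nl_cocompact'`: apply this to the subgroup `{g | ∀ a, ϱ g a a = 1}`
(`diag_mul`, `exp_diag`); the two spans agree. -/

namespace Vale.Agent.P188.PM

open IsNilpotent (exp)

universe u

variable {n : ℕ} {G : Type u} [Group G] {ϱ : G →* Mat n}

theorem neg_Span {x : Mat n} (hx : x ∈ Fl n 1) {g : G} (e : exp x = ϱ g) : exp (-x) = ϱ g⁻¹ := by
  rw [← mul_one (exp (-x)), ← map_one ϱ, ← mul_inv_cancel g, map_mul, ← mul_assoc, ← e,
    (exp_mul_neg hx).2, one_mul]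

theorem zpow_Span {x : Mat n} (hx : x ∈ Fl n 1) {g : G} (e : exp x = ϱ g) (j : ℤ) :
    ϱ (g ^ j) = exp ((j : ℝ) • x) := by
  induction j using Int.induction_on with
  | zero => rw [zpow_zero, map_one, Int.cast_zero, zero_smul, IsNilpotent.exp_zero]
  | succ j ih => rw [zpow_add_one, map_mul, ih, Int.cast_add, exp_smul_add hx, Int.cast_one,
      one_smul, e]
  | pred j ih => rw [zpow_sub_one, map_mul, ih, Int.cast_sub, sub_eq_add_neg, exp_smul_add hx,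
      Int.cast_one, neg_smul (1 : ℝ), one_smul, neg_Span hx e]

theorem gen_Span (h : ∀ g, ϱ g ∈ Fl n 0) (g : G) {x : Mat n} (hx : x ∈ Fl n 1) {a : G}
    (e : exp x = ϱ a) : ϱ g * x * ϱ g⁻¹ ∈ Fl n 1 ∧ exp (ϱ g * x * ϱ g⁻¹) = ϱ (g * a * g⁻¹) := by
  refine ⟨Fl_mul (Fl_mul (h g) hx) (h g⁻¹), ?_⟩
  rw [exp_conj_mat (by rw [← map_mul, mul_inv_cancel, map_one]) hx, e, map_mul, map_mul]

theorem span_Span {S : Set (Mat n)} (p q : Mat n) (hS : ∀ x ∈ S, p * x * q ∈ Submodule.span ℝ S) :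
    ∀ x ∈ Submodule.span ℝ S, p * x * q ∈ Submodule.span ℝ S := by
  intro x hx
  induction hx using Submodule.span_induction with
  | mem x hx => exact hS x hx
  | zero => simp
  | add x x' _ _ h1 h2 =>
    rw [mul_add, add_mul]
    exact Submodule.add_mem _ h1 h2
  | smul c x _ h1 =>
    rw [mul_smul_comm, smul_mul_assoc]
    exact Submodule.smul_mem _ c h1

theorem cm_Span (W : Submodule ℝ (Mat n)) (hW : W ≤ Fl n 1) {x : Mat n} (hx : x ∈ Fl n 1) {t : G}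
    (e : exp x = ϱ t) (hc : ∀ g : G, ∀ z ∈ W, ϱ g * z * ϱ g⁻¹ ∈ W) : ∀ z ∈ W, cm n x z ∈ W := by
  intro z hz
  refine cm_mem_of_conj W hx (Fl_le (Nat.zero_le 1) (hW hz)) fun s => W.sub_mem ?_ hz
  rw [neg_Span hx e, e, ← map_pow, ← map_pow, inv_pow]
  exact hc _ z hz

theorem nl_le (ϱ : G →* Mat n) : nl ϱ ≤ Fl n 1 := by
  exact Submodule.span_le.2 fun _ hx => hx.1

theorem nl_conj (h : ∀ g, ϱ g ∈ Fl n 0) (g : G) {x : Mat n} (hx : x ∈ nl ϱ) :
    ϱ g * x * ϱ g⁻¹ ∈ nl ϱ := by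
  refine span_Span _ _ (fun y hy => ?_) x hx
  obtain ⟨hy, a, e⟩ := hy
  exact Submodule.subset_span ⟨(gen_Span h g hy e).1, _, (gen_Span h g hy e).2⟩

theorem nl_lie (h : ∀ g, ϱ g ∈ Fl n 0) : ∀ x ∈ nl ϱ, ∀ y ∈ nl ϱ, cm n x y ∈ nl ϱ := by
  intro x hx y hy
  induction hx using Submodule.span_induction with
  | mem x hx =>
    obtain ⟨hx, a, e⟩ := hx
    exact cm_Span (nl ϱ) (nl_le ϱ) hx e (fun g z hz => nl_conj h g hz) y hy
  | zero => simp
  | add x x' _ _ h1 h2 =>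
    rw [map_add, LinearMap.add_apply]
    exact Submodule.add_mem _ h1 h2
  | smul c x _ h1 =>
    rw [map_smul, LinearMap.smul_apply]
    exact Submodule.smul_mem _ c h1

theorem nl_cocompact {m : ℕ} (hG : PolyZ m G) (h : ∀ g, ϱ g ∈ Fl n 0) (h1 : ∀ g a, ϱ g a a = 1) :
    ∃ K : Set (Mat n), IsCompact K ∧ K ⊆ nl ϱ ∧
      ∀ x ∈ nl ϱ, ∃ g, ∃ b ∈ K, exp x = ϱ g * exp b := by
  induction m generalizing G with
  | zero =>
    have : Subsingleton G := hG
    refine ⟨{0}, isCompact_singleton, Set.singleton_subset_iff.2 (nl ϱ).zero_mem,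
      fun x hx => ⟨1, 0, rfl, ?_⟩⟩
    have h0 : nl ϱ ≤ ⊥ := Submodule.span_le.2 fun y hy => by
      obtain ⟨hy, a, e⟩ := hy
      rw [Subsingleton.elim a 1, map_one, ← IsNilpotent.exp_zero] at e
      exact exp_inj_Fl hy (Fl n 1).zero_mem e
    rw [show x = 0 from h0 hx, map_one, one_mul]
  | succ m ih =>
    obtain ⟨e, he⟩ := polyZ_succ.1 hG
    obtain ⟨K, hK, hKW, hKx⟩ := ih (ϱ := ϱ.comp e.ker.subtype) he (fun g => h g) (fun g => h1 g)
    obtain ⟨t, ht⟩ := exists_gen e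
    obtain ⟨u, hu, eu⟩ := exp_surj (h t) (h1 t)
    have hW := nl_lie (ϱ := ϱ.comp e.ker.subtype) (fun g => h g)
    have hF := nl_le (ϱ.comp e.ker.subtype)
    have hle : nl (ϱ.comp e.ker.subtype) ≤ nl ϱ :=
      Submodule.span_mono fun y hy => ⟨hy.1, hy.2.elim fun a ha => ⟨a, ha⟩⟩
    have hcu : ∀ x ∈ nl (ϱ.comp e.ker.subtype), cm n u x ∈ nl (ϱ.comp e.ker.subtype) := by
      refine cm_Span _ hF hu eu fun g => span_Span _ _ fun y hy => ?_
      obtain ⟨hy, a, ea⟩ := hy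
      exact Submodule.subset_span ⟨(gen_Span h g hy ea).1,
        ⟨g * a * g⁻¹, (MonoidHom.normal_ker e).conj_mem _ a.2 g⟩, (gen_Span h g hy ea).2⟩
    have hs : ∀ s : ℝ, s • u ∈ Fl n 1 := fun s => (Fl n 1).smul_mem s hu
    have key : ∀ x ∈ nl ϱ, ∃ s : ℝ, x - s • u ∈ nl (ϱ.comp e.ker.subtype) := by
      intro x hx
      induction hx using Submodule.span_induction with
      | mem x hx =>
        obtain ⟨hx, g, eg⟩ := hx
        obtain ⟨j, hj⟩ := ht g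
        obtain ⟨y, hy, ey⟩ := exp_surj (h (g * (t ^ j)⁻¹)) (h1 _)
        have h2 : x = st y ((j : ℝ) • u) := by
          refine exp_inj_Fl hx (st_mem_Fl hy (hs _)) ?_
          rw [exp_st hy (hs _), ey, ← zpow_Span hu eu, ← map_mul, inv_mul_cancel_right, eg]
        have h3 := st_sub_line _ hW hcu (Submodule.subset_span ⟨hy, ⟨_, hj⟩, ey⟩)
          (Submodule.zero_mem _) 0 (j : ℝ)
        rw [zero_smul, add_zero, zero_add, zero_add, ← h2] at h3
        exact ⟨_, h3⟩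
      | zero => exact ⟨0, by simp⟩
      | add x x' _ _ h2 h3 =>
        obtain ⟨s, h2⟩ := h2
        obtain ⟨s', h3⟩ := h3
        refine ⟨s + s', ?_⟩
        rw [add_smul, add_sub_add_comm]
        exact Submodule.add_mem _ h2 h3
      | smul c x _ h2 =>
        obtain ⟨s, h2⟩ := h2
        refine ⟨c * s, ?_⟩
        rw [mul_smul, ← smul_sub]
        exact Submodule.smul_mem _ c h2
    refine ⟨(fun p : Mat n × ℝ => st p.1 (p.2 • u)) '' (K ×ˢ Set.Icc 0 1),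
      (hK.prod isCompact_Icc).image (continuous_st.comp
        (continuous_fst.prodMk (continuous_snd.smul continuous_const))), ?_, fun x hx => ?_⟩
    · rintro _ ⟨p, hp, rfl⟩
      exact st_mem _ (nl_lie h) (hle (hKW hp.1))
        (Submodule.smul_mem _ _ (Submodule.subset_span ⟨hu, t, eu⟩))
    · obtain ⟨s, h2⟩ := key x hx
      have hx1 := nl_le ϱ hx
      have h3 := st_sub_line _ hW hcu (Submodule.zero_mem _) h2 (-(⌊s⌋ : ℝ)) s
      have h4 := st_sub_line _ hW hcu h3 (Submodule.zero_mem _) (-(⌊s⌋ : ℝ) + s)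
        (-(-(⌊s⌋ : ℝ) + s))
      rw [zero_add, zero_add, sub_add_cancel, sub_add_cancel, add_neg_cancel, zero_smul,
        sub_zero] at h4
      obtain ⟨g, b, hb, eb⟩ := hKx _ h4
      rw [exp_st (st_mem_Fl (hs _) hx1) (hs _), exp_st (hs _) hx1] at eb
      refine ⟨t ^ ⌊s⌋ * g, _, ⟨(b, -(⌊s⌋ : ℝ) + s), ⟨hb, ?_, ?_⟩, rfl⟩, ?_⟩
      · linarith [Int.floor_le s]
      · linarith [Int.lt_floor_add_one s]
      · have h5 : ϱ (g : G) * exp b = _ := eb.symm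
        have h6 := exp_smul_add hu (⌊s⌋ : ℝ) (-(⌊s⌋ : ℝ))
        have h7 := exp_smul_add hu (-(-(⌊s⌋ : ℝ) + s)) (-(⌊s⌋ : ℝ) + s)
        rw [add_neg_cancel, zero_smul, IsNilpotent.exp_zero] at h6
        rw [neg_add_cancel, zero_smul, IsNilpotent.exp_zero] at h7
        simp only
        rw [exp_st (hF (hKW hb)) (hs _), map_mul, zpow_Span hu eu, mul_assoc, ← mul_assoc (ϱ _), h5,
          mul_assoc _ _ (exp ((-(⌊s⌋ : ℝ) + s) • u)), ← h7, mul_one, ← mul_assoc, ← h6, one_mul]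

theorem nl_cocompact' {m : ℕ} (hG : PolyZ m G) (h : ∀ g, ϱ g ∈ Fl n 0) :
    ∃ K : Set (Mat n), IsCompact K ∧ K ⊆ nl ϱ ∧
      ∀ x ∈ nl ϱ, ∃ g, (∀ a, ϱ g a a = 1) ∧ ∃ b ∈ K, exp x = ϱ g * exp b := by
  let U : Subgroup G :=
    { carrier := {g | ∀ a, ϱ g a a = 1}
      mul_mem' := fun {g g'} hg hg' a => by rw [map_mul, diag_mul (h g) (h g'), hg a, hg' a, mul_one]
      one_mem' := fun a => by rw [map_one, Matrix.one_apply_eq]
      inv_mem' := fun {g} hg a => by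
        have := diag_mul (h g⁻¹) (h g) a
        rw [← map_mul, inv_mul_cancel, map_one, Matrix.one_apply_eq, hg a, mul_one] at this
        exact this.symm }
  have e : nl (ϱ.comp U.subtype) = nl ϱ := by
    refine le_antisymm (Submodule.span_mono fun y hy => ⟨hy.1, hy.2.elim fun a ha => ⟨a, ha⟩⟩)
      (Submodule.span_mono fun y hy => ?_)
    obtain ⟨hy, a, ea⟩ := hy
    exact ⟨hy, ⟨a, fun b => by rw [← ea, exp_diag hy]⟩, ea⟩
  obtain ⟨K, h1, h2, h3⟩ := nl_cocompact (ϱ := ϱ.comp U.subtype) (hG.sub U) (fun g => h g)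
    (fun g => g.2)
  rw [e] at h2 h3
  refine ⟨K, h1, h2, fun x hx => ?_⟩
  obtain ⟨g, b, hb, eb⟩ := h3 x hx
  exact ⟨g, g.2, b, hb, eb⟩

end Vale.Agent.P188.PM
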