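import Vale.Agent.P188.M.Conj
import Vale.Agent.P188.M.Span

/-! P188 part M, file Cent: block diagonal representatives of the cosets of `exp W`, `W = nl ϱ`.

PLAN. `of_diag`: `exp_surj`. `cent`: the commutator `γ γ0 γ⁻¹ γ0⁻¹` has diagonal `1`; `exists_cent` with
`g = ϱ γ0`, `Sp.mono` with `gener`. `mask`: `jordan_mat` with `c = exp z * ϱ γ`, `c' = ϱ γ⁻¹ * exp (-z)`
(`nl_conj`, `conj_mem`, `nl_lie`); the diagonal of `c` is that of `ϱ γ`. `Cos`: `exp_conj_mat`, `exp_st`,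
`st_mem`; `Cos.congr`: `g h⁻¹` has diagonal `1` by `T.ker`. -/

namespace Vale.Agent.P188.PM

open IsNilpotent (exp)

universe u

variable {G : Type u} [Group G] (T : Tri G)

theorem Tri.mul_inv (g : G) : T.ϱ g * T.ϱ g⁻¹ = 1 := by
  rw [← map_mul, mul_inv_cancel, map_one]

theorem Tri.d_ne (g : G) (a : Fin T.n) : T.ϱ g a a ≠ 0 :=
  diag_ne (T.mul_inv g) (T.tri g) a

theorem Tri.d_mul (g h : G) (a : Fin T.n) : T.ϱ (g * h) a a = T.ϱ g a a * T.ϱ h a a := by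
  rw [map_mul, diag_mul (T.tri g) (T.tri h)]

theorem Tri.d_inv (g : G) (a : Fin T.n) : T.ϱ g⁻¹ a a = (T.ϱ g a a)⁻¹ := by
  refine eq_inv_of_mul_eq_one_right ?_
  rw [← T.d_mul, mul_inv_cancel, map_one, Matrix.one_apply_eq]

theorem Tri.of_diag {g : G} (h : ∀ a, T.ϱ g a a = 1) : ∃ x ∈ nl T.ϱ, exp x = T.ϱ g := by
  obtain ⟨x, hx, e⟩ := exp_surj (T.tri g) h
  exact ⟨x, Submodule.subset_span ⟨hx, g, e⟩, e⟩

theorem Tri.cent (γ : G) : ∃ z ∈ nl T.ϱ, Sp T.q (exp z * T.ϱ γ) := by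
  obtain ⟨x, hx, e⟩ := T.of_diag (g := γ * T.γ0 * γ⁻¹ * T.γ0⁻¹) fun a => by
    rw [T.d_mul, T.d_mul, T.d_mul, T.d_inv, T.d_inv]
    field_simp [T.d_ne γ a, T.d_ne T.γ0 a]
  obtain ⟨z, hz, hs⟩ := exists_cent (T.mul_inv T.γ0) (T.tri T.γ0) T.adapt (nl T.ϱ) (nl_le _)
    (nl_lie T.tri) (fun x hx => nl_conj T.tri T.γ0 hx) (T.tri γ) hx (by
      rw [e, ← map_mul, ← map_mul, ← map_mul]
      congr 1
      group)
  exact ⟨z, hz, hs.mono fun a b h => funext (T.gener a b h)⟩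

theorem Tri.conj_Cent (γ : G) {z x : Mat T.n} (hz : z ∈ nl T.ϱ) (hx : x ∈ nl T.ϱ) :
    exp z * T.ϱ γ * x * (T.ϱ γ⁻¹ * exp (-z)) ∈ nl T.ϱ := by
  have h := conj_mem (nl T.ϱ) ((nl_le _).trans (Fl_le zero_le_one)) (nl_le _ hz)
    (fun y hy => nl_lie T.tri z hz y hy) (nl_conj T.tri γ hx)
  simpa only [mul_assoc] using h

theorem Tri.inv_Cent (γ : G) {z : Mat T.n} (hz : z ∈ nl T.ϱ) :
    exp z * T.ϱ γ * (T.ϱ γ⁻¹ * exp (-z)) = 1 := by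
  rw [mul_assoc, ← mul_assoc (T.ϱ γ), T.mul_inv, one_mul, (exp_mul_neg (nl_le _ hz)).1]

theorem Tri.eq_inv_Cent (γ : G) {z c' : Mat T.n} (hz : z ∈ nl T.ϱ)
    (h : exp z * T.ϱ γ * c' = 1) : c' = T.ϱ γ⁻¹ * exp (-z) := by
  rw [← one_mul c', ← mul_eq_one_comm.1 (T.inv_Cent γ hz), mul_assoc, h, mul_one]

theorem Tri.st_Cent {x y : Mat T.n} (hx : x ∈ nl T.ϱ) (hy : y ∈ nl T.ϱ) :
    ∃ z ∈ nl T.ϱ, exp z = exp x * exp y :=
  ⟨st x y, st_mem _ (nl_lie T.tri) hx hy, exp_st (nl_le _ hx) (nl_le _ hy)⟩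

theorem Tri.swap_Cent (g : G) {x : Mat T.n} (hx : x ∈ nl T.ϱ) :
    ∃ y ∈ nl T.ϱ, T.ϱ g * exp x = exp y * T.ϱ g := by
  refine ⟨_, nl_conj T.tri g hx, ?_⟩
  rw [exp_conj_mat (T.mul_inv g) (nl_le _ hx), mul_assoc, ← map_mul, inv_mul_cancel, map_one,
    mul_one]

theorem Tri.mask (γ : G) (f : ℂ → ℂ) (hf : ∀ z, f (starRingEnd ℂ z) = starRingEnd ℂ (f z))
    {x : Mat T.n} (hx : x ∈ nl T.ϱ) : hd (fun a b => f (T.ϱ γ a a / T.ϱ γ b b)) x ∈ nl T.ϱ := by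
  obtain ⟨z, hz, hs⟩ := T.cent γ
  have hz1 := nl_le _ hz
  have hdg : ∀ a, (exp z * T.ϱ γ) a a = T.ϱ γ a a := fun a => by
    rw [diag_mul (exp_mem_Fl hz1) (T.tri γ), exp_diag hz1, one_mul]
  have h := jordan_mat (T.inv_Cent γ hz) (Fl_mul (exp_mem_Fl hz1) (T.tri γ))
    (hs.mono fun a b h => by rw [hdg, hdg]; exact congrFun h γ) (nl T.ϱ)
    (fun x hx => T.conj_Cent γ hz hx) f hf hx
  simpa only [hdg] using h

theorem Tri.diag_conj_mem (γ : G) {x : Mat T.n} (hx : x ∈ nl T.ϱ) :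
    Matrix.diagonal (fun a => T.ϱ γ a a) * x * Matrix.diagonal (fun a => T.ϱ γ⁻¹ a a) ∈ nl T.ϱ := by
  have h := T.mask γ id (fun _ => rfl) hx
  rw [diag_conj]
  simpa only [T.d_inv, id, div_eq_mul_inv] using h

/-- `c` lies in the coset `exp W * ϱ g` -/
def Tri.Cos (g : G) (c : Mat T.n) : Prop := ∃ x ∈ nl T.ϱ, c = exp x * T.ϱ g

variable {T}

theorem Tri.Cos.mul {g h : G} {c c' : Mat T.n} (hc : T.Cos g c) (hc' : T.Cos h c') :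
    T.Cos (g * h) (c * c') := by
  obtain ⟨x, hx, rfl⟩ := hc
  obtain ⟨x', hx', rfl⟩ := hc'
  obtain ⟨y, hy, e⟩ := T.swap_Cent g hx'
  obtain ⟨z, hz, e'⟩ := T.st_Cent hx hy
  refine ⟨z, hz, ?_⟩
  rw [e', map_mul, mul_assoc, ← mul_assoc (T.ϱ g), e]
  simp only [mul_assoc]

theorem Tri.Cos.pow {g : G} {c : Mat T.n} (hc : T.Cos g c) (s : ℕ) : T.Cos (g ^ s) (c ^ s) := by
  induction s with
  | zero => exact ⟨0, Submodule.zero_mem _, by simp [IsNilpotent.exp_zero]⟩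
  | succ s ih =>
    rw [pow_succ, pow_succ]
    exact ih.mul hc

theorem Tri.Cos.inv {g : G} {c c' : Mat T.n} (hc : T.Cos g c) (h : c * c' = 1) :
    T.Cos g⁻¹ c' := by
  obtain ⟨x, hx, rfl⟩ := hc
  obtain ⟨y, hy, e⟩ := T.swap_Cent g⁻¹ (Submodule.neg_mem _ hx)
  exact ⟨y, hy, (T.eq_inv_Cent g hx h).trans e⟩

theorem Tri.Cos.congr {g h : G} {c : Mat T.n} (hc : T.Cos g c) (e : T.π g = T.π h) :
    T.Cos h c := by
  obtain ⟨x, hx, rfl⟩ := hc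
  obtain ⟨y, hy, e1⟩ := T.of_diag ((T.ker (g * h⁻¹)).1 (by
    rw [map_mul, map_inv, e, mul_inv_cancel]))
  obtain ⟨z, hz, e'⟩ := T.st_Cent hx hy
  refine ⟨z, hz, ?_⟩
  rw [e', e1, mul_assoc, ← map_mul, inv_mul_cancel_right]

theorem Tri.Cos.div {g : G} {c c' : Mat T.n} (hc : T.Cos g c) (hc' : T.Cos g c') :
    ∃ x ∈ nl T.ϱ, c = exp x * c' := by
  obtain ⟨x, hx, rfl⟩ := hc
  obtain ⟨x', hx', rfl⟩ := hc'
  obtain ⟨z, hz, e'⟩ := T.st_Cent hx (Submodule.neg_mem _ hx')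
  refine ⟨z, hz, ?_⟩
  rw [e', mul_assoc, ← mul_assoc (exp (-x')), (exp_mul_neg (nl_le _ hx')).2, one_mul]

theorem Tri.Cos.conj {g : G} {c c' : Mat T.n} (hc : T.Cos g c) (h : c * c' = 1) {x : Mat T.n}
    (hx : x ∈ nl T.ϱ) : c * x * c' ∈ nl T.ϱ := by
  obtain ⟨z, hz, rfl⟩ := hc
  rw [T.eq_inv_Cent g hz h]
  exact T.conj_Cent g hz hx

end Vale.Agent.P188.PM
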