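import Vale.Agent.P188.M.GDefs

/-! P188 part M, file Cofin: powers of a cofinite ideal of a finitely generated ring are cofinite.

PLAN. `cof_pow`: `S'` = span of a finset generating `R` as an algebra, `B ∋ 1` finitely generated with
`B ⊔ L = ⊤`, `E = (B ⊔ S' * B) ⊓ L` (finitely generated: `ℤ` is Noetherian,
`Submodule.FG.of_le` / `isNoetherian_of_fg_of_noetherian`). `S' * B ≤ B ⊔ E`, so `B ⊔ ⊤ * E` is stable
under left multiplication by the generators and contains `1`; it is `⊤` (`Algebra.adjoin_induction`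
for the property `∀ y ∈ B ⊔ ⊤ * E, x * y ∈ ..`). Hence `L = ⊤ * E`, `L ^ j ≤ ⊤ * E ^ j ≤
B * E ^ j ⊔ L ^ (j + 1)` for `j ≥ 1`; induction on `j` (`Submodule.FG.mul`, `.pow`, `.sup`).
`cof_ker`: the range is a finitely generated module, lift generators.
`span_pow_le`: `Submodule.pow_induction_on_left'`, or induction on `c` for the statement: for every
list `l` from `N` and `x ∈ span ^ c`, `c₀ ≤ l.length + c` implies `(l.map ..).prod * φ x = 0`. -/

namespace Vale.Agent.P188.PM

theorem Cof.mono {R : Type*} [AddCommGroup R] {I J : Submodule ℤ R} (h : Cof I) (hIJ : I ≤ J) :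
    Cof J := by
  obtain ⟨B, hB, h⟩ := h
  exact ⟨B, hB, top_le_iff.1 (h.ge.trans (sup_le_sup_left hIJ B))⟩

theorem gen_Cofin {R : Type*} [Ring R] [Algebra.FiniteType ℤ R] (L : Submodule ℤ R)
    (hl : ∀ r, ∀ x ∈ L, r * x ∈ L) (h : Cof L) :
    ∃ E : Submodule ℤ R, E.FG ∧ E ≤ L ∧ L ≤ ⊤ * E := by
  obtain ⟨B0, hB0, hB⟩ := h
  obtain ⟨t, ht⟩ := (Algebra.FiniteType.out : (⊤ : Subalgebra ℤ R).FG)
  set B : Submodule ℤ R := B0 ⊔ Submodule.span ℤ {1} with hBd
  have hBfg : B.FG := hB0.sup (Submodule.fg_span_singleton 1)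
  have hBL : B ⊔ L = ⊤ := top_le_iff.1 (hB.ge.trans (sup_le_sup_right le_sup_left L))
  set A : Submodule ℤ R := Submodule.span ℤ (t : Set R) with hA
  have hAfg : A.FG := ⟨t, rfl⟩
  set E : Submodule ℤ R := (B ⊔ A * B) ⊓ L with hE
  have hEfg : E.FG := (hBfg.sup (hAfg.mul hBfg)).of_le inf_le_left
  have hE1 : E ≤ ⊤ * E := fun x hx => by
    simpa using Submodule.mul_mem_mul (Submodule.mem_top : (1 : R) ∈ ⊤) hx
  have hTE : ∀ r, ∀ y ∈ (⊤ : Submodule ℤ R) * E, r * y ∈ (⊤ : Submodule ℤ R) * E := by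
    intro r y hy
    have h1 : (⊤ : Submodule ℤ R) * (⊤ * E) ≤ ⊤ * E := by
      rw [← mul_assoc]
      exact mul_le_mul' le_top le_rfl
    exact h1 (Submodule.mul_mem_mul Submodule.mem_top hy)
  have hTL : (⊤ : Submodule ℤ R) * E ≤ L := Submodule.mul_le.2 fun r _ x hx => hl r x hx.2
  have key : ∀ r : R, ∀ y ∈ B ⊔ ⊤ * E, r * y ∈ B ⊔ ⊤ * E := by
    intro r
    have hr : r ∈ Algebra.adjoin ℤ (t : Set R) := by rw [ht]; trivial
    induction hr using Algebra.adjoin_induction with
    | mem s hs =>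
      intro y hy
      obtain ⟨b, hb, u, hu, rfl⟩ := Submodule.mem_sup.1 hy
      rw [mul_add]
      refine Submodule.add_mem _ ?_ (Submodule.mem_sup_right (hTE s u hu))
      have h1 : s * b ∈ B ⊔ L := by rw [hBL]; trivial
      obtain ⟨b', hb', l, hl', e⟩ := Submodule.mem_sup.1 h1
      rw [← e]
      refine Submodule.add_mem _ (Submodule.mem_sup_left hb') (Submodule.mem_sup_right (hE1 ⟨?_, hl'⟩))
      rw [eq_sub_of_add_eq' e]
      exact Submodule.sub_mem _ (Submodule.mem_sup_right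
        (Submodule.mul_mem_mul (Submodule.subset_span hs) hb)) (Submodule.mem_sup_left hb')
    | algebraMap n =>
      intro y hy
      rw [← Algebra.smul_def]
      exact Submodule.smul_mem _ n hy
    | add a b _ _ ha hb =>
      intro y hy
      rw [add_mul]
      exact Submodule.add_mem _ (ha y hy) (hb y hy)
    | mul a b _ _ ha hb =>
      intro y hy
      rw [mul_assoc]
      exact ha _ (hb y hy)
  refine ⟨E, hEfg, inf_le_right, fun x hx => ?_⟩
  have h1 := key x 1 (Submodule.mem_sup_left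
    (Submodule.mem_sup_right (Submodule.mem_span_singleton_self 1)))
  rw [mul_one] at h1
  obtain ⟨b, hb, u, hu, rfl⟩ := Submodule.mem_sup.1 h1
  refine Submodule.add_mem _ (hE1 ⟨Submodule.mem_sup_left hb, ?_⟩) hu
  simpa using L.sub_mem hx (hTL hu)

theorem cof_pow {R : Type*} [Ring R] [Algebra.FiniteType ℤ R] (L : Submodule ℤ R)
    (hl : ∀ r, ∀ x ∈ L, r * x ∈ L) (hr : ∀ r, ∀ x ∈ L, x * r ∈ L) (h : Cof L) (c : ℕ) :
    Cof (L ^ (c + 1)) := by
  obtain ⟨E, hE, hEL, hLE⟩ := gen_Cofin L hl h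
  have hLT : L * ⊤ ≤ L := Submodule.mul_le.2 fun x hx r _ => hr r x hx
  have h1 : ∀ j, L ^ (j + 1) ≤ ⊤ * E ^ (j + 1) := by
    intro j
    induction j with
    | zero => simpa using hLE
    | succ j ih =>
      calc L ^ (j + 1 + 1) = L * L ^ (j + 1) := pow_succ' _ _
        _ ≤ L * (⊤ * E ^ (j + 1)) := mul_le_mul' le_rfl ih
        _ = L * ⊤ * E ^ (j + 1) := (mul_assoc _ _ _).symm
        _ ≤ ⊤ * E * E ^ (j + 1) := mul_le_mul' (hLT.trans hLE) le_rfl
        _ = ⊤ * E ^ (j + 1 + 1) := by rw [mul_assoc, ← pow_succ']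
  have h2 : ∀ j, E ^ j ≤ L ^ j := fun j => pow_le_pow_left' hEL j
  induction c with
  | zero => simpa using h
  | succ c ih =>
    obtain ⟨B, hB, hBL⟩ := h
    obtain ⟨B', hB', hBL'⟩ := ih
    refine ⟨B' ⊔ B * E ^ (c + 1), hB'.sup (hB.mul (hE.pow _)), top_le_iff.1 ?_⟩
    rw [← hBL', sup_assoc]
    refine sup_le_sup_left ((h1 c).trans ?_) _
    rw [← hBL, Submodule.sup_mul, pow_succ' L (c + 1)]
    exact sup_le_sup_left (mul_le_mul' le_rfl (h2 _)) _

theorem cof_ker {R M : Type*} [AddCommGroup R] [AddCommGroup M] [Module.Finite ℤ M]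
    (φ : R →ₗ[ℤ] M) : Cof (LinearMap.ker φ) := by
  obtain ⟨t, ht⟩ : (LinearMap.range φ).FG := IsNoetherian.noetherian _
  have h1 : ∀ y : t, ∃ x, φ x = y := fun y => by
    have : (y : M) ∈ LinearMap.range φ := by
      rw [← ht]
      exact Submodule.subset_span y.2
    exact this
  choose s hs using h1
  refine ⟨Submodule.span ℤ (Set.range s), Submodule.fg_span (Set.finite_range s), ?_⟩
  rw [← Submodule.comap_map_eq, Submodule.map_span, ← Set.range_comp, eq_top_iff]
  intro x _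
  have h2 : φ x ∈ Submodule.span ℤ (t : Set M) := by
    rw [ht]
    exact ⟨x, rfl⟩
  have h3 : (t : Set M) ⊆ Set.range (φ ∘ s) := fun y hy => ⟨⟨y, hy⟩, hs _⟩
  exact Submodule.span_mono h3 h2

theorem span_pow_le {H A : Type*} [Group H] [Ring A] (ρ : H →* A) (N : Subgroup H) (c : ℕ)
    (hc : ∀ l : List H, (∀ x ∈ l, x ∈ N) → c ≤ l.length → (l.map fun x => ρ x - 1).prod = 0)
    {x : MonoidAlgebra ℤ H}
    (hx : x ∈ (Submodule.span ℤ {y | ∃ h ∈ N, y = MonoidAlgebra.of ℤ H h - 1}) ^ c) :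
    MonoidAlgebra.lift ℤ A H ρ x = 0 := by
  have key : ∀ (j : ℕ) (x : MonoidAlgebra ℤ H),
      x ∈ (Submodule.span ℤ {y | ∃ h ∈ N, y = MonoidAlgebra.of ℤ H h - 1}) ^ j →
      ∀ l : List H, (∀ x ∈ l, x ∈ N) → c ≤ l.length + j →
        (l.map fun x => ρ x - 1).prod * MonoidAlgebra.lift ℤ A H ρ x = 0 := by
    intro j
    induction j with
    | zero =>
      intro x _ l hl h
      rw [hc l hl h, zero_mul]
    | succ j ih =>
      intro x hx l hl h
      rw [pow_succ'] at hx
      refine Submodule.mul_induction_on hx (fun m hm n hn => ?_) fun a b ha hb => ?_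
      · rw [map_mul, ← mul_assoc]
        induction hm using Submodule.span_induction with
        | mem y hy =>
          obtain ⟨g, hg, rfl⟩ := hy
          have h1 := ih n hn (l ++ [g]) (fun z hz => by
            rcases List.mem_append.1 hz with h | h
            · exact hl z h
            · rwa [List.mem_singleton.1 h]) (by simp; omega)
          simpa using h1
        | zero => simp
        | add a b _ _ ha hb => rw [map_add, mul_add, add_mul, ha, hb, add_zero]
        | smul n a _ ha => rw [map_smul, mul_smul_comm, smul_mul_assoc, ha, smul_zero]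
      · rw [map_add, mul_add, ha, hb, add_zero]
  simpa using key c x hx [] (by simp) (by simp)

end Vale.Agent.P188.PM
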