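import Vale.Agent.P188.M.Fil

/-! P188 part M, file Jord: functions of the semisimple part preserve real invariant subspaces.

PLAN. `jordan_abs`: let `(T - S) ^ M = 0`, `Λ` = the finset of the `lam i` and their conjugates. Chinese
remainder theorem in `ℂ[X]` (`Ideal.exists_forall_sub_mem_ideal` for the pairwise coprime ideals
`span {(X - C μ) ^ M}`, `Polynomial.pairwise_coprime_X_sub_C`, `IsCoprime.pow`): `p ≡ C (f μ)` modulo
`(X - C μ) ^ M` for `μ ∈ Λ`. The conjugate polynomial `p.map (starRingEnd ℂ)` has the same property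
(by `hf`), so does the mean `r` of the two, whose coefficients are real. `T - S` preserves the
eigenspaces of `S`, so `(T - μ) ^ M x = (T - S) ^ M x = 0` there and `aeval T r (x i) = f (lam i) • x i`;
`aeval T r` preserves `W` (`aeval_eq_sum_range`, real coefficients).
`jordan_mat`: `T x = c * x * c'`, `S x = d * x * d'` with `d = diagonal (c a a)`, `d'` its inverse; `d` commutes
with `c` (`Sp.comm`) and `c'`; `T - S = mulLeft (c - d) * mulRight c' + mulLeft d * mulRight (c' - d')`
is a sum of commuting nilpotents (`c - d`, `c' - d' ∈ Fl n 1`); `x = ∑ a b, single a b (x a b)`. -/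

namespace Vale.Agent.P188.PM

open Polynomial in
theorem crt_Jord (Λ : Finset ℂ) (M : ℕ) (f : ℂ → ℂ) :
    ∃ p : ℂ[X], ∀ μ ∈ Λ, (X - C μ) ^ M ∣ p - C (f μ) := by
  obtain ⟨p, hp⟩ := Ideal.exists_forall_sub_mem_ideal
    (I := fun μ : Λ => Ideal.span {(X - C μ.1) ^ M}) (fun μ ν h =>
      (Ideal.isCoprime_span_singleton_iff _ _).2
        (pairwise_coprime_X_sub_C Subtype.val_injective h).pow) fun μ => C (f μ)
  exact ⟨p, fun μ hμ => Ideal.mem_span_singleton.1 (hp ⟨μ, hμ⟩)⟩

theorem pow_Jord {V : Type*} [AddCommGroup V] [Module ℂ V] {T S : Module.End ℂ V}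
    (hc : Commute T S) {x : V} {μ : ℂ} (hx : S x = μ • x) (k : ℕ) :
    ((T - algebraMap ℂ _ μ) ^ k) x = ((T - S) ^ k) x := by
  induction k with
  | zero => rfl
  | succ k ih =>
    have h1 : Commute (T - algebraMap ℂ _ μ) (T - S) :=
      ((Commute.refl T).sub_right hc).sub_left (Algebra.commutes μ (T - S))
    have h2 : (T - algebraMap ℂ (Module.End ℂ V) μ) x = (T - S) x := by
      rw [LinearMap.sub_apply, LinearMap.sub_apply, hx, Module.algebraMap_end_apply]
    rw [pow_succ, Module.End.mul_apply, h2, ← Module.End.mul_apply, (h1.pow_left k).eq,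
      Module.End.mul_apply, ih, pow_succ', Module.End.mul_apply]

open Polynomial in
theorem jordan_abs {V : Type*} [AddCommGroup V] [Module ℂ V] [Module ℝ V] [IsScalarTower ℝ ℂ V]
    (T S : Module.End ℂ V) (hc : Commute T S) (hn : IsNilpotent (T - S)) (W : Submodule ℝ V)
    (hW : ∀ x ∈ W, T x ∈ W) {ι : Type*} (s : Finset ι) (x : ι → V) (lam : ι → ℂ)
    (hx : ∀ i ∈ s, S (x i) = lam i • x i) (hs : ∑ i ∈ s, x i ∈ W) (f : ℂ → ℂ)
    (hf : ∀ z, f (starRingEnd ℂ z) = starRingEnd ℂ (f z)) : ∑ i ∈ s, f (lam i) • x i ∈ W := by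
  classical
  obtain ⟨M, hM⟩ := hn
  obtain ⟨p, hp⟩ := crt_Jord (s.image lam ∪ s.image fun i => starRingEnd ℂ (lam i)) M f
  have h1 : ∀ i ∈ s, aeval T (p + p.map (starRingEnd ℂ)) (x i) = (2 : ℝ) • f (lam i) • x i := by
    intro i hi
    have h2 := hp _ (Finset.mem_union_left _ (Finset.mem_image_of_mem lam hi))
    have h3 := map_dvd (mapRingHom (starRingEnd ℂ))
      (hp _ (Finset.mem_union_right _ (Finset.mem_image_of_mem _ hi)))
    simp only [map_pow, map_sub, coe_mapRingHom, map_X, map_C, hf, Complex.conj_conj] at h3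
    obtain ⟨g, hg⟩ := dvd_add h2 h3
    rw [show p + p.map (starRingEnd ℂ) = C (f (lam i)) + C (f (lam i)) + g * (X - C (lam i)) ^ M by
      rw [mul_comm, ← hg]; ring]
    simp only [map_add, map_mul, map_pow, map_sub, aeval_X, aeval_C, LinearMap.add_apply,
      Module.End.mul_apply, pow_Jord hc (hx i hi), hM, LinearMap.zero_apply, map_zero, add_zero,
      Module.algebraMap_end_apply, two_smul]
  have h4 : ∀ k, ∀ y ∈ W, (T ^ k) y ∈ W := fun k => by
    induction k with
    | zero => exact fun y hy => hy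
    | succ k ih => exact fun y hy => by rw [pow_succ, Module.End.mul_apply]; exact ih _ (hW y hy)
  have h5 : aeval T (p + p.map (starRingEnd ℂ)) (∑ i ∈ s, x i) ∈ W := by
    rw [aeval_eq_sum_range, LinearMap.sum_apply]
    refine W.sum_mem fun k _ => ?_
    rw [LinearMap.smul_apply, coeff_add, coeff_map, Complex.add_conj,
      ← Complex.coe_algebraMap, algebraMap_smul]
    exact W.smul_mem _ (h4 k _ hs)
  rw [map_sum, Finset.sum_congr rfl h1, ← Finset.smul_sum] at h5
  exact (W.smul_mem_iff two_ne_zero).1 h5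

theorem comm_Jord {n : ℕ} {a a' b b' : Mat n} (h1 : Commute a a') (h2 : Commute b b') :
    Commute (LinearMap.mulLeft ℂ a * LinearMap.mulRight ℂ b)
      (LinearMap.mulLeft ℂ a' * LinearMap.mulRight ℂ b') := by
  refine LinearMap.ext fun x => ?_
  change a * (a' * (x * b') * b) = a' * (a * (x * b) * b')
  simp only [← mul_assoc]
  rw [h1.eq, mul_assoc _ b', mul_assoc _ b, h2.eq]

theorem nil_Jord {n : ℕ} {x : Mat n} (hx : x ∈ Fl n 1) : IsNilpotent x := by
  have h : ∀ k, x ^ k ∈ Fl n k := fun k => by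
    induction k with
    | zero => exact one_mem_Fl
    | succ k ih => exact pow_succ x k ▸ Fl_mul ih hx
  exact ⟨n, Fl_bot (h n)⟩

theorem jordan_mat {n : ℕ} {c c' : Mat n} (hcc : c * c' = 1) (hc : c ∈ Fl n 0)
    (hs : Sp (fun a => c a a) c) (W : Submodule ℝ (Mat n)) (hW : ∀ x ∈ W, c * x * c' ∈ W)
    (f : ℂ → ℂ) (hf : ∀ z, f (starRingEnd ℂ z) = starRingEnd ℂ (f z)) {x : Mat n} (hx : x ∈ W) :
    hd (fun a b => f (c a a / c b b)) x ∈ W := by
  have hc' := inv_mem_Fl hcc hc
  have hs' := hs.inv hcc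
  have h1 : ∀ a, c' a a = (c a a)⁻¹ := fun a =>
    eq_inv_of_mul_eq_one_right (by rw [← diag_mul hc hc', hcc, Matrix.one_apply_eq])
  have k1 : Commute (Matrix.diagonal fun a => c a a) c := hs.comm fun _ _ h => h
  have k2 : Commute (Matrix.diagonal fun a => (c a a)⁻¹) c' := hs'.comm fun _ _ h => by rw [h]
  have n1 : c - Matrix.diagonal (fun a => c a a) ∈ Fl n 1 :=
    mem_Fl_one.2 ⟨(Fl n 0).sub_mem hc (diagonal_mem_Fl _), fun a => by simp⟩
  have n2 : c' - Matrix.diagonal (fun a => (c a a)⁻¹) ∈ Fl n 1 :=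
    mem_Fl_one.2 ⟨(Fl n 0).sub_mem hc' (diagonal_mem_Fl _), fun a => by simp [h1]⟩
  have h2 := jordan_abs (LinearMap.mulLeft ℂ c * LinearMap.mulRight ℂ c')
    (LinearMap.mulLeft ℂ (Matrix.diagonal fun a => c a a) *
      LinearMap.mulRight ℂ (Matrix.diagonal fun a => (c a a)⁻¹)) (comm_Jord k1.symm k2.symm) ?_ W
    (fun y hy => cast (congrArg (· ∈ W) (mul_assoc c y c')) (hW y hy)) Finset.univ
    (fun p : Fin n × Fin n => Matrix.single p.1 p.2 (x p.1 p.2)) (fun p => c p.1 p.1 / c p.2 p.2)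
    (fun p _ => ?_) (by
      rw [Fintype.sum_prod_type]
      exact cast (congrArg (· ∈ W) (Matrix.matrix_eq_sum_single x)) hx) f hf
  · refine cast (congrArg (· ∈ W) ?_) h2
    simp only [Matrix.smul_single, smul_eq_mul, Fintype.sum_prod_type]
    exact (Matrix.matrix_eq_sum_single (hd (fun a b => f (c a a / c b b)) x)).symm
  · have e : LinearMap.mulLeft ℂ c * LinearMap.mulRight ℂ c' -
        LinearMap.mulLeft ℂ (Matrix.diagonal fun a => c a a) *
          LinearMap.mulRight ℂ (Matrix.diagonal fun a => (c a a)⁻¹) =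
        LinearMap.mulLeft ℂ (c - Matrix.diagonal fun a => c a a) * LinearMap.mulRight ℂ c' +
        LinearMap.mulLeft ℂ (Matrix.diagonal fun a => c a a) *
          LinearMap.mulRight ℂ (c' - Matrix.diagonal fun a => (c a a)⁻¹) := by
      refine LinearMap.ext fun y => ?_
      simp only [LinearMap.sub_apply, LinearMap.add_apply, Module.End.mul_apply,
        LinearMap.mulLeft_apply, LinearMap.mulRight_apply]
      noncomm_ring
    rw [e]
    refine (comm_Jord (k1.symm.sub_left (Commute.refl _))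
      ((Commute.refl c').sub_right k2.symm)).isNilpotent_add ?_ ?_
    · exact (LinearMap.commute_mulLeft_right _ _).isNilpotent_mul_right
        ((LinearMap.isNilpotent_mulLeft_iff ℂ _).2 (nil_Jord n1))
    · exact (LinearMap.commute_mulLeft_right _ _).isNilpotent_mul_left
        ((LinearMap.isNilpotent_mulRight_iff ℂ _).2 (nil_Jord n2))
  · ext a b
    simp only [Module.End.mul_apply, LinearMap.mulLeft_apply, LinearMap.mulRight_apply,
      Matrix.diagonal_mul, Matrix.mul_diagonal, Matrix.smul_apply, Matrix.single_apply, smul_eq_mul]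
    split_ifs with h
    · rw [← h.1, ← h.2]
      ring
    · simp

end Vale.Agent.P188.PM
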