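import Vale.Agent.P188.M.Bch2
import Vale.Agent.P188.M.Jord

/-! P188 part M, file Conj: conjugating into the centraliser of the semisimple part.

PLAN. Put `q a = g a a`. `off_zero`: `z ∈ Fl n j` for all `j` (`mem_Fl_succ`, `mul_low`). `solve`: the
subspace `V = W ⊓ Fl n j ⊓ ker (mk q)` is stable under `z ↦ g z g' - z` (`mk_mul`, `Sp.inv`), which is
injective on it (`off_zero`), hence onto (`LinearMap.injective_iff_surjective`); `mk q x ∈ W` by
`jordan_mat` with `f` the indicator of `1`. `conj_lemma`: induction on `j`: there are `z, x' ∈ W` with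
`exp z * (exp x * g) * exp (-z) = exp x' * g` and `x' - mk q x' ∈ Fl n (j + 1)`. Step: solve
`g z1 g' - z1 = x' - mk q x'`; `exp z1 * exp x' * g * exp (-z1) = exp (st (st z1 x') (-(g z1 g'))) * g`
(`exp_conj_mat`), and this logarithm is `mk q x'` modulo `Fl n (j + 2)` (`st_sub_Fl` twice); replace `z` by
`st z1 z` (the inverse of `exp (st z1 z)` is `exp (-z) * exp (-z1)`). `exists_cent`: `c = exp z * γ` satisfies
`c * g = g1 * c` with `g1 = exp x0 * g` block diagonal; `off_zero` for `c - mk q c`. `exists_adapt`: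
`g = exp x * diagonal d` (`exp_surj`), `conj_lemma` for `diagonal d` and `W = Fl n 1`. -/

namespace Vale.Agent.P188.PM

open IsNilpotent (exp)

variable {n : ℕ} {g g' : Mat n}

theorem off_zero {g1 z : Mat n} (h0 : g ∈ Fl n 0) (h1 : g1 ∈ Fl n 0) (hd : ∀ a, g1 a a = g a a)
    (hz : z ∈ Fl n 0) (hoff : ∀ a b, g a a = g b b → z a b = 0) (h : z * g = g1 * z) : z = 0 := by
  have key : ∀ j, z ∈ Fl n j := by
    intro j
    induction j with
    | zero => exact hz
    | succ j ih =>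
      refine mem_Fl_succ.2 ⟨ih, fun a b hab => ?_⟩
      by_cases hq : g a a = g b b
      · exact hoff a b hq
      · have e1 := (mul_low ih h0 hab).1
        have e2 := (mul_low ih h1 hab).2
        rw [h, e2, hd, mul_comm] at e1
        by_contra hne
        exact hq (mul_left_cancel₀ hne e1)
  exact Fl_bot (key n)

theorem conj_Fl_Conj (hg : g * g' = 1) (h0 : g ∈ Fl n 0) {j : ℕ} {z : Mat n} (hz : z ∈ Fl n j) :
    g * z * g' ∈ Fl n j := by
  have h := Fl_mul (Fl_mul h0 hz) (inv_mem_Fl hg h0)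
  rwa [Nat.zero_add, Nat.add_zero] at h

theorem mk_Fl_Conj {β : Type*} (q : Fin n → β) {j : ℕ} {z : Mat n} (hz : z ∈ Fl n j) :
    mk q z ∈ Fl n j :=
  hd_mem_Fl _ hz

theorem mk_mem_Conj (hg : g * g' = 1) (h0 : g ∈ Fl n 0) (hs : Sp (fun a => g a a) g)
    (W : Submodule ℝ (Mat n)) (hW : ∀ x ∈ W, g * x * g' ∈ W) {x : Mat n} (hx : x ∈ W) :
    mk (fun a => g a a) x ∈ W := by
  classical
  have h := jordan_mat hg h0 hs W hW (fun z => if z = 1 then 1 else 0) (fun z => by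
    by_cases hz : z = 1
    · simp [hz]
    · have : starRingEnd ℂ z ≠ 1 := fun h => hz (by
        rw [← Complex.conj_conj z, h, map_one])
      simp [hz, this]) hx
  have e : mk (fun a => g a a) x =
      hd (fun a b => (fun z : ℂ => if z = 1 then (1 : ℂ) else 0) (g a a / g b b)) x := by
    ext a b
    rw [mk, hd_apply, hd_apply]
    congr 1
    by_cases hq : g a a = g b b
    · rw [if_pos hq]
      exact (if_pos ((div_eq_one_iff_eq (diag_ne hg h0 b)).2 hq)).symm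
    · rw [if_neg hq]
      exact (if_neg fun h => hq ((div_eq_one_iff_eq (diag_ne hg h0 b)).1 h)).symm
  rw [e]
  exact h

theorem solve (hg : g * g' = 1) (h0 : g ∈ Fl n 0) (hs : Sp (fun a => g a a) g)
    (W : Submodule ℝ (Mat n)) (hW : ∀ x ∈ W, g * x * g' ∈ W) {j : ℕ} {x : Mat n} (hx : x ∈ W)
    (hj : x - mk (fun a => g a a) x ∈ Fl n j) :
    ∃ z ∈ W, z ∈ Fl n j ∧ g * z * g' - z = x - mk (fun a => g a a) x := by
  have hg' : g' * g = 1 := mul_eq_one_comm.1 hg
  let V : Submodule ℝ (Mat n) := W ⊓ Fl n j ⊓ LinearMap.ker (mk fun a => g a a)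
  let T : Mat n →ₗ[ℝ] Mat n := LinearMap.mulRight ℝ g' ∘ₗ LinearMap.mulLeft ℝ g - LinearMap.id
  have hT : ∀ z, T z = g * z * g' - z := fun _ => rfl
  have hV : ∀ z ∈ V, T z ∈ V := by
    rintro z ⟨⟨hz1, hz2⟩, hz3⟩
    have hz4 : mk (fun a => g a a) z = 0 := hz3
    rw [hT]
    refine ⟨⟨W.sub_mem (hW z hz1) hz1, (Fl n j).sub_mem (conj_Fl_Conj hg h0 hz2) hz2⟩, ?_⟩
    change mk (fun a => g a a) (g * z * g' - z) = 0
    rw [map_sub, (mk_mul (hs.inv hg) _).1, (mk_mul hs _).2, hz4, mul_zero, zero_mul, sub_zero]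
  have hinj : Function.Injective (T.restrict hV) := by
    refine (injective_iff_map_eq_zero _).2 fun z hz => Subtype.ext ?_
    have e1 : g * z.1 * g' - z.1 = 0 := congrArg Subtype.val hz
    have e2 : mk (fun a => g a a) z.1 = 0 := z.2.2
    refine off_zero h0 h0 (fun _ => rfl) (Fl_le (Nat.zero_le j) z.2.1.2) (fun a b hab => ?_) ?_
    · have e3 := sub_mk_apply (fun a => g a a) z.1 hab
      rwa [e2, sub_zero] at e3
    · calc z.1 * g = g * z.1 * g' * g := by rw [sub_eq_zero.1 e1]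
        _ = g * z.1 := by rw [mul_assoc, hg', mul_one]
  have hmem : x - mk (fun a => g a a) x ∈ V := by
    refine ⟨⟨W.sub_mem hx (mk_mem_Conj hg h0 hs W hW hx), hj⟩, ?_⟩
    change mk (fun a => g a a) (x - mk (fun a => g a a) x) = 0
    rw [map_sub, (sp_mk _ x).mk_eq, sub_self]
  obtain ⟨z, hz⟩ := LinearMap.injective_iff_surjective.1 hinj ⟨_, hmem⟩
  exact ⟨z.1, z.2.1.1, z.2.1.2, congrArg Subtype.val hz⟩

theorem conj_lemma (hg : g * g' = 1) (h0 : g ∈ Fl n 0) (hs : Sp (fun a => g a a) g)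
    (W : Submodule ℝ (Mat n)) (h1 : W ≤ Fl n 1) (hlie : ∀ x ∈ W, ∀ y ∈ W, cm n x y ∈ W)
    (hW : ∀ x ∈ W, g * x * g' ∈ W) {x : Mat n} (hx : x ∈ W) :
    ∃ z ∈ W, ∃ x0 ∈ W, Sp (fun a => g a a) x0 ∧
      exp z * (exp x * g) * exp (-z) = exp x0 * g := by
  have hg' : g' * g = 1 := mul_eq_one_comm.1 hg
  have key : ∀ j, ∃ z ∈ W, ∃ x' ∈ W, exp z * (exp x * g) * exp (-z) = exp x' * g ∧
      x' - mk (fun a => g a a) x' ∈ Fl n (j + 1) := by
    intro j
    induction j with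
    | zero =>
      refine ⟨0, W.zero_mem, x, hx, ?_, (Fl n _).sub_mem (h1 hx) (hd_mem_Fl _ (h1 hx))⟩
      rw [neg_zero, IsNilpotent.exp_zero, one_mul, mul_one]
    | succ j ih =>
      obtain ⟨z, hz, x', hx', e, hj⟩ := ih
      obtain ⟨z1, hz1, hz2, e1⟩ := solve hg h0 hs W hW hx' hj
      have hy : g * -z1 * g' ∈ W := hW _ (W.neg_mem hz1)
      have hy2 : g * -z1 * g' ∈ Fl n (j + 1) := conj_Fl_Conj hg h0 ((Fl n _).neg_mem hz2)
      have hs1 : st z1 x' ∈ W := st_mem W hlie hz1 hx'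
      have hz' : st z1 z ∈ W := st_mem W hlie hz1 hz
      refine ⟨st z1 z, hz', st (st z1 x') (g * -z1 * g'), st_mem W hlie hs1 hy, ?_, ?_⟩
      · have e2 : exp (-st z1 z) = exp (-z) * exp (-z1) := by
          refine left_inv_eq_right_inv (exp_mul_neg (h1 hz')).2 ?_
          rw [exp_st (h1 hz1) (h1 hz), mul_assoc, ← mul_assoc (exp z), (exp_mul_neg (h1 hz)).1,
            one_mul, (exp_mul_neg (h1 hz1)).1]
        rw [e2, exp_st (h1 hz1) (h1 hz), exp_st (h1 hs1) (h1 hy), exp_st (h1 hz1) (h1 hx'),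
          exp_conj_mat hg (h1 (W.neg_mem hz1))]
        calc exp z1 * exp z * (exp x * g) * (exp (-z) * exp (-z1))
            = exp z1 * (exp z * (exp x * g) * exp (-z)) * exp (-z1) := by simp only [mul_assoc]
          _ = exp z1 * exp x' * (g * exp (-z1) * (g' * g)) := by
              rw [e, hg', mul_one]
              simp only [mul_assoc]
          _ = _ := by simp only [mul_assoc]
      · have r1 := (st_sub_Fl (h1 hs1) hy2).1
        have r2 := (st_sub_Fl (h1 hx') hz2).2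
        have r3 : st (st z1 x') (g * -z1 * g') - mk (fun a => g a a) x' ∈ Fl n (j + 2) := by
          have e3 : mk (fun a => g a a) x' = x' - (g * z1 * g' - z1) := by
            rw [e1, sub_sub_cancel]
          have e4 : st (st z1 x') (g * -z1 * g') - mk (fun a => g a a) x' =
              (st (st z1 x') (g * -z1 * g') - st z1 x' - g * -z1 * g') + (st z1 x' - z1 - x') := by
            rw [e3]
            generalize st (st z1 x') (g * -z1 * g') = u
            rw [mul_neg, neg_mul]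
            abel
          rw [e4]
          exact (Fl n _).add_mem r1 r2
        have r4 := (Fl n (j + 2)).sub_mem r3 (mk_Fl_Conj (fun a => g a a) r3)
        rwa [map_sub, (sp_mk _ x').mk_eq, sub_sub_sub_cancel_right] at r4
  obtain ⟨z, hz, x', hx', e, hj⟩ := key n
  refine ⟨z, hz, x', hx', ?_, e⟩
  rw [sub_eq_zero.1 (Fl_bot (Fl_le (Nat.le_succ n) hj))]
  exact sp_mk _ _

theorem exists_cent (hg : g * g' = 1) (h0 : g ∈ Fl n 0) (hs : Sp (fun a => g a a) g)
    (W : Submodule ℝ (Mat n)) (h1 : W ≤ Fl n 1) (hlie : ∀ x ∈ W, ∀ y ∈ W, cm n x y ∈ W)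
    (hW : ∀ x ∈ W, g * x * g' ∈ W) {γ x : Mat n} (hγ : γ ∈ Fl n 0) (hx : x ∈ W)
    (e : γ * g = exp x * g * γ) : ∃ z ∈ W, Sp (fun a => g a a) (exp z * γ) := by
  obtain ⟨z, hz, x0, hx0, hs0, e1⟩ := conj_lemma hg h0 hs W h1 hlie hW hx
  refine ⟨z, hz, ?_⟩
  have hc0 : exp z * γ ∈ Fl n 0 := Fl_mul (exp_mem_Fl (h1 hz)) hγ
  have hg1 : Sp (fun a => g a a) (exp x0 * g) := hs0.ex.mul hs
  have e2 : exp z * γ * g = exp x0 * g * (exp z * γ) := by
    rw [← e1, mul_assoc _ (exp (-z)), ← mul_assoc (exp (-z)), (exp_mul_neg (h1 hz)).2, one_mul,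
      mul_assoc, e, ← mul_assoc]
  generalize exp z * γ = c at hc0 e2 ⊢
  have h2 : c - mk (fun a => g a a) c = 0 := by
    refine off_zero (g1 := exp x0 * g) h0 (Fl_mul (exp_mem_Fl (h1 hx0)) h0) (fun a => ?_)
      ((Fl n 0).sub_mem hc0 (hd_mem_Fl _ hc0)) (fun a b hab => sub_mk_apply _ c hab) ?_
    · rw [diag_mul (exp_mem_Fl (h1 hx0)) h0, exp_diag (h1 hx0), one_mul]
    · rw [sub_mul, mul_sub, ← (mk_mul hs c).1, ← (mk_mul hg1 c).2, e2]
  rw [sub_eq_zero.1 h2]
  exact sp_mk _ _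

theorem exists_adapt (h0 : g ∈ Fl n 0) (hd : ∀ a, g a a ≠ 0) :
    ∃ z ∈ Fl n 1, Sp (fun a => g a a) (exp z * g * exp (-z)) := by
  have hD : Matrix.diagonal (fun a => g a a) * Matrix.diagonal (fun a => (g a a)⁻¹) = 1 := by
    rw [Matrix.diagonal_mul_diagonal, ← Matrix.diagonal_one]
    exact congrArg _ (funext fun a => mul_inv_cancel₀ (hd a))
  have hq : (fun a => Matrix.diagonal (fun a => g a a) a a) = fun a => g a a :=
    funext fun a => Matrix.diagonal_apply_eq _ a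
  obtain ⟨x, hx, e⟩ := exp_surj (u := g * Matrix.diagonal fun a => (g a a)⁻¹)
    (Fl_mul h0 (diagonal_mem_Fl _)) fun a => by
      rw [Matrix.mul_diagonal, mul_inv_cancel₀ (hd a)]
  obtain ⟨z, hz, x0, -, hs0, e1⟩ := conj_lemma hD (diagonal_mem_Fl _) (sp_diagonal _ _) (Fl n 1)
    le_rfl (fun x hx y hy => Fl_le (Nat.le_succ 1) (cm_mem_Fl hx hy))
    (fun x hx => conj_Fl_Conj hD (diagonal_mem_Fl _) hx) hx
  rw [hq] at hs0
  rw [e, mul_assoc g, mul_eq_one_comm.1 hD, mul_one] at e1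
  exact ⟨z, hz, e1 ▸ hs0.ex.mul (sp_diagonal _ _)⟩

end Vale.Agent.P188.PM
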