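import Vale.Agent.P188.M.MDefs

/-! P188 part M, file Det: determinants.

PLAN. `det_lattice`: `Λ` = the `ℤ`-submodule of `z` with `θ z` integral; it embeds in `ι → ℤ`
(`z ↦` the integers; real parts), so it is finite and free over `ℤ`. A `ℤ`-basis `b` is `ℝ`-independent
(`linearIndependent_algebraMap_comp_iff` for the integer vectors, pulled back along the real linear map
`z ↦ fun i => (θ z i).re`) and spans `E`. In this basis `T`, `T'` have integer matrices `A`, `A'` with
`A.det * A'.det = 1` (`RingHom.map_det`, `Int.eq_one_or_neg_one_of_mul_eq_one`).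
`det_unip`: the characteristic polynomial of a nilpotent `N` is `X ^ d` (`IsNilpotent.charpoly_eq_X_pow_finrank`,
`LinearMap.eval_charpoly`), or any other route. `det_iso`: `LinearMap.isometryOfInner`/`LinearIsometry`,
`LinearIsometry.toLinearIsometryEquiv`, `OrthonormalBasis.det_to_matrix_orthonormalBasis_real`.
`det_diag`: the matrix in `(EuclideanSpace.basisFun ..).toBasis` is `Matrix.diagonal c`.
`exists_red`: `S = span (range w)`, `p = (stdOrthonormalBasis ℝ S).repr ∘ orthogonal projection`. -/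

namespace Vale.Agent.P188.PM

open scoped InnerProductSpace

theorem one_le_of_int_Det {c g : ℝ} (hc : 0 < c) (hg : g ≠ 0)
    (h : ∀ k : ℕ, ∃ m : ℤ, c ^ k * g = m) : 1 ≤ c := by
  by_contra hlt
  have hg' : 0 < |g| := abs_pos.2 hg
  obtain ⟨k, hk⟩ := exists_pow_lt_of_lt_one (inv_pos.2 hg') (not_le.1 hlt)
  obtain ⟨m, hm⟩ := h k
  have h0 : m ≠ 0 := by
    rintro rfl
    exact mul_ne_zero (pow_pos hc k).ne' hg (by simpa using hm)
  have h1 : (1 : ℝ) ≤ |(m : ℝ)| := by exact_mod_cast Int.one_le_abs h0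
  rw [← hm, abs_mul, abs_of_pos (pow_pos hc k)] at h1
  have h2 := mul_lt_mul_of_pos_right hk hg'
  rw [inv_mul_cancel₀ hg'.ne'] at h2
  linarith

theorem det_lattice {E ι : Type*} [AddCommGroup E] [Module ℝ E] [FiniteDimensional ℝ E] [Finite ι]
    (θ : E →ₗ[ℝ] (ι → ℂ)) (hθ : Function.Injective θ)
    (hspan : Submodule.span ℝ {z | ∀ i, ∃ m : ℤ, θ z i = m} = ⊤) (T T' : E →ₗ[ℝ] E)
    (hT : ∀ z, T (T' z) = z)
    (h1 : ∀ z, (∀ i, ∃ m : ℤ, θ z i = m) → ∀ i, ∃ m : ℤ, θ (T z) i = m)
    (h2 : ∀ z, (∀ i, ∃ m : ℤ, θ z i = m) → ∀ i, ∃ m : ℤ, θ (T' z) i = m) :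
    |LinearMap.det T| = 1 := by
  classical
  have _ := Fintype.ofFinite ι
  obtain ⟨f, hf, hsp, hli⟩ :=
    Submodule.exists_fun_fin_finrank_span_eq ℝ {z : E | ∀ i, ∃ m : ℤ, θ z i = m}
  let b := Module.Basis.mk hli (hsp.trans hspan).ge
  have hb : ∀ j, b j = f j := fun j => Module.Basis.mk_apply _ _ j
  let R : (E →ₗ[ℝ] E) → Matrix ι _ ℝ := fun U => Matrix.of fun i j => (θ (U (b j)) i).re
  have hR : ∀ U, R U = R LinearMap.id * LinearMap.toMatrix b b U := by
    intro U
    ext i j
    simp only [R, Matrix.of_apply, Matrix.mul_apply, LinearMap.toMatrix_apply, LinearMap.id_apply]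
    conv_lhs => rw [← b.sum_repr (U (b j))]
    simp only [map_sum, map_smul, Finset.sum_apply, Pi.smul_apply, Complex.re_sum,
      Complex.smul_re, smul_eq_mul]
    exact Finset.sum_congr rfl fun k _ => mul_comm _ _
  have hG : ∀ U, ((R U).transpose * R U).det =
      (LinearMap.det U ^ 2) * ((R LinearMap.id).transpose * R LinearMap.id).det := by
    intro U
    rw [hR U, Matrix.transpose_mul, Matrix.mul_assoc, ← Matrix.mul_assoc (R LinearMap.id).transpose,
      Matrix.det_mul, Matrix.det_mul, Matrix.det_transpose, LinearMap.det_toMatrix]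
    ring
  have hI : ∀ U : E →ₗ[ℝ] E, (∀ j i, ∃ m : ℤ, θ (U (b j)) i = m) →
      ∃ m : ℤ, ((R U).transpose * R U).det = m := by
    intro U hU
    choose m hm using hU
    let A : Matrix ι _ ℤ := Matrix.of fun i j => m j i
    have : R U = A.map (Int.castRingHom ℝ) := by
      ext i j
      simp [R, A, hm]
    refine ⟨(A.transpose * A).det, ?_⟩
    rw [this, ← Matrix.transpose_map, ← Matrix.map_mul]
    exact ((Int.castRingHom ℝ).map_det _).symm
  have hg : ((R LinearMap.id).transpose * R LinearMap.id).det ≠ 0 := by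
    intro h0
    obtain ⟨v, hv0, hv⟩ := Matrix.exists_mulVec_eq_zero_iff.2 h0
    have hv' : (R LinearMap.id).mulVec v = 0 := by
      have := Matrix.ker_mulVecLin_transpose_mul_self (R LinearMap.id)
      have h3 : v ∈ LinearMap.ker ((R LinearMap.id).transpose * R LinearMap.id).mulVecLin := hv
      rw [this] at h3
      exact h3
    have hz : θ (∑ j, v j • b j) = θ 0 := by
      funext i
      have h4 := congrFun hv' i
      simp only [R, Matrix.mulVec, dotProduct, Matrix.of_apply, LinearMap.id_apply,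
        Pi.zero_apply] at h4
      simp only [map_sum, map_smul, Finset.sum_apply, Pi.smul_apply, map_zero, Pi.zero_apply]
      apply Complex.ext
      · simp only [Complex.re_sum, Complex.smul_re, smul_eq_mul, Complex.zero_re]
        rw [← h4]
        exact Finset.sum_congr rfl fun k _ => mul_comm _ _
      · simp only [Complex.im_sum, Complex.smul_im, smul_eq_mul, Complex.zero_im]
        refine Finset.sum_eq_zero fun k _ => ?_
        obtain ⟨m, hm⟩ := hf k i
        rw [hb, hm, Complex.intCast_im, mul_zero]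
    exact hv0 (funext (Fintype.linearIndependent_iff.1 b.linearIndependent v (hθ hz)))
  have key : ∀ U : E →ₗ[ℝ] E, LinearMap.det U ≠ 0 →
      (∀ z, (∀ i, ∃ m : ℤ, θ z i = m) → ∀ i, ∃ m : ℤ, θ (U z) i = m) →
      1 ≤ LinearMap.det U ^ 2 := by
    intro U hU0 hU
    have hp : ∀ (k : ℕ) z, (∀ i, ∃ m : ℤ, θ z i = m) → ∀ i, ∃ m : ℤ, θ ((U ^ k) z) i = m := by
      intro k
      induction k with
      | zero => intro z hz; simpa using hz
      | succ k ih => intro z hz; rw [pow_succ', Module.End.mul_apply]; exact hU _ (ih z hz)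
    refine one_le_of_int_Det (by positivity) hg fun k => ?_
    obtain ⟨m, hm⟩ := hI (U ^ k) fun j => hp k _ (by rw [hb]; exact hf j)
    exact ⟨m, by rw [← hm, hG (U ^ k), map_pow, ← pow_mul, ← pow_mul, mul_comm k 2]⟩
  have hm : LinearMap.det T * LinearMap.det T' = 1 := by
    rw [← map_mul, show T * T' = 1 from LinearMap.ext hT, map_one]
  have k1 := key T (left_ne_zero_of_mul_eq_one hm) h1
  have k2 := key T' (right_ne_zero_of_mul_eq_one hm) h2
  have k3 : LinearMap.det T ^ 2 * LinearMap.det T' ^ 2 = 1 := by rw [← mul_pow, hm, one_pow]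
  have k4 : LinearMap.det T ^ 2 = 1 := by nlinarith
  exact (pow_eq_one_iff_of_nonneg (abs_nonneg _) two_ne_zero).1 (by rw [sq_abs, k4])

theorem det_unip {E : Type*} [AddCommGroup E] [Module ℝ E] [FiniteDimensional ℝ E]
    (T : Module.End ℝ E) (h : IsNilpotent (T - 1)) : LinearMap.det T = 1 := by
  have h1 : IsNilpotent (1 - T) := by
    rw [← neg_sub]; exact h.neg
  have h2 := LinearMap.eval_charpoly (1 - T) 1
  rw [h1.charpoly_eq_X_pow_finrank] at h2
  simpa using h2.symm

theorem det_iso {d : ℕ} (T : Eu d →ₗ[ℝ] Eu d) (h : ∀ z, ‖T z‖ = ‖z‖) :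
    |LinearMap.det T| = 1 := by
  let U : Eu d →ₗᵢ[ℝ] Eu d := ⟨T, h⟩
  rw [← LinearMap.normDet_eq_abs_det]
  exact U.normDet_eq_one

theorem det_diag {d : ℕ} (T : Eu d →ₗ[ℝ] Eu d) (c : Fin d → ℝ) (h : ∀ z i, T z i = c i * z i) :
    LinearMap.det T = ∏ i, c i := by
  rw [← LinearMap.det_toMatrix (EuclideanSpace.basisFun (Fin d) ℝ).toBasis, ← Matrix.det_diagonal]
  congr 1
  ext i j
  rw [LinearMap.toMatrix_apply]
  simp only [OrthonormalBasis.coe_toBasis, OrthonormalBasis.coe_toBasis_repr_apply,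
    EuclideanSpace.basisFun_repr, EuclideanSpace.basisFun_apply, h, Matrix.diagonal_apply]
  by_cases e : i = j
  · subst e; simp
  · simp [e]

theorem exists_red {d k : ℕ} (w : Fin d → Eu k) :
    ∃ (k' : ℕ) (p : Eu k →ₗ[ℝ] Eu k'), Function.Surjective p ∧
      (∀ i v, ⟪p (w i), p v⟫_ℝ = ⟪w i, v⟫_ℝ) ∧ ∀ v, (∀ i, ⟪p (w i), v⟫_ℝ = 0) → v = 0 := by
  let S : Submodule ℝ (Eu k) := Submodule.span ℝ (Set.range w)
  let e := (stdOrthonormalBasis ℝ S).repr
  have hw : ∀ i, w i ∈ S := fun i => Submodule.subset_span ⟨i, rfl⟩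
  let P : Eu k →ₗ[ℝ] S := S.orthogonalProjectionOnto.toLinearMap
  have hP : ∀ u : S, P u = u := fun u => Submodule.orthogonalProjectionOnto_mem_subspace_eq_self u
  have hPi : ∀ (u : S) v, ⟪u, P v⟫_ℝ = ⟪(u : Eu k), v⟫_ℝ := fun u v =>
    Submodule.inner_orthogonalProjectionOnto_eq_of_mem_left u v
  refine ⟨_, e.toLinearEquiv.toLinearMap ∘ₗ P, ?_, fun i v => ?_, fun v hv => ?_⟩
  · intro v
    exact ⟨(e.symm v : S), by simp [hP]⟩
  · have h1 := hP ⟨w i, hw i⟩
    simp only [LinearMap.comp_apply, LinearEquiv.coe_coe, LinearIsometryEquiv.coe_toLinearEquiv,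
      LinearIsometryEquiv.inner_map_map]
    rw [show P (w i) = ⟨w i, hw i⟩ from h1, hPi]
  · have h1 : ∀ u ∈ S, ⟪u, ((e.symm v : S) : Eu k)⟫_ℝ = 0 := by
      intro u hu
      induction hu using Submodule.span_induction with
      | mem x hx =>
        obtain ⟨i, rfl⟩ := hx
        have h2 := hv i
        have h3 := hP ⟨w i, hw i⟩
        simp only [LinearMap.comp_apply, LinearEquiv.coe_coe,
          LinearIsometryEquiv.coe_toLinearEquiv] at h2
        rw [show P (w i) = ⟨w i, hw i⟩ from h3, ← e.apply_symm_apply v,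
          LinearIsometryEquiv.inner_map_map] at h2
        exact h2
      | zero => exact inner_zero_left _
      | add x y _ _ hx hy => rw [inner_add_left, hx, hy, add_zero]
      | smul c x _ hx => rw [inner_smul_left, hx, mul_zero]
    have h2 : e.symm v = 0 := Subtype.ext (inner_self_eq_zero.1 (h1 _ (e.symm v).2))
    rw [← e.apply_symm_apply v, h2, map_zero]

end Vale.Agent.P188.PM
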