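import Vale.Agent.P188.M.MDefs

/-! P188 part M, file Exp: the exponential of nilpotent elements (`IsNilpotent.exp`).

PLAN. `exp_conj`: in `Module.End ℚ A`, `L = mulLeft x` and `R = mulRight x` commute and are nilpotent;
`exp L = mulLeft (exp x)`, `exp (-R) = mulRight (exp (-x))` (`exp_eq_sum`, `LinearMap.pow_mulLeft`,
`pow_mulRight`), `exp_add_of_commute`; truncate the sum for `exp (ad x) y` at `m`
(`exp_smul_eq_sum`, or `Finset.sum_subset`). `exp_add_sub`: `(z + w) ^ (i + 1) - z ^ (i + 1) ∈ F (j + 1 + i)`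
by induction. `exp_inj`: `y - x ∈ F (j + 1)` for all `j`. `exists_logP`: by induction on `m` find `L` with
`X ∣ L` and `X ^ m ∣ E L - (1 + X)`, `E L = ∑ j < c + 2, (1 / j!) L ^ j`; replace `L` by `L - (E L - (1 + X))`
(apply `exp_add_sub`-like computation, or `sub_dvd_pow_sub_pow`; alternatively work in the filtered
ring `AdjoinRoot (X ^ c)` with `F j = span of root ^ j` and lift); then apply `aeval w`. -/

namespace Vale.Agent.P188.PM

open IsNilpotent (exp)
open Polynomial Finset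

variable {A : Type*} [Ring A] [Algebra ℚ A] {F : ℕ → Submodule ℚ A} {c : ℕ}

theorem nilL_Exp {x : A} (hx : IsNilpotent x) : IsNilpotent (LinearMap.mulLeft ℚ x) := by
  obtain ⟨k, hk⟩ := hx
  exact ⟨k, by rw [LinearMap.pow_mulLeft, hk]; ext; simp⟩

theorem nilR_Exp {x : A} (hx : IsNilpotent x) : IsNilpotent (LinearMap.mulRight ℚ x) := by
  obtain ⟨k, hk⟩ := hx
  exact ⟨k, by rw [LinearMap.pow_mulRight, hk]; ext; simp⟩

theorem comm_Exp (x y : A) : Commute (LinearMap.mulLeft ℚ x) (LinearMap.mulRight ℚ y) := by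
  ext z
  simp [mul_assoc]

theorem ad_nilp {x : A} (hx : IsNilpotent x) : IsNilpotent (ad x) := by
  exact (comm_Exp x x).isNilpotent_sub (nilL_Exp hx) (nilR_Exp hx)

theorem exp_conj {x : A} (hx : IsNilpotent x) (y : A) {m : ℕ} (hm : (ad x ^ m) y = 0) :
    exp x * y * exp (-x) = ∑ j ∈ range m, ((j.factorial : ℚ)⁻¹) • (ad x ^ j) y := by
  have h1 := IsNilpotent.exp_smul_eq_sum (A := Module.End ℚ A) (M := A) (a := ad x) (m := y)
    (k := m) hm (ad_nilp hx)
  have e : ad x = LinearMap.mulLeft ℚ x + LinearMap.mulRight ℚ (-x) := by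
    ext z
    simp [ad_apply, sub_eq_add_neg]
  obtain ⟨k, hk⟩ := id hx
  have hk' : (-x) ^ k = 0 := by rw [neg_pow, hk, mul_zero]
  have hL : (LinearMap.mulLeft ℚ x) ^ k = 0 := by rw [LinearMap.pow_mulLeft, hk]; ext; simp
  have hR : (LinearMap.mulRight ℚ (-x)) ^ k = 0 := by rw [LinearMap.pow_mulRight, hk']; ext; simp
  have h2 : exp (ad x) y = exp x * y * exp (-x) := by
    rw [e, IsNilpotent.exp_add_of_commute (comm_Exp x (-x)) (nilL_Exp hx) (nilR_Exp hx.neg),
      Module.End.mul_apply, IsNilpotent.exp_eq_sum hL, IsNilpotent.exp_eq_sum hR,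
      IsNilpotent.exp_eq_sum hk, IsNilpotent.exp_eq_sum hk']
    simp only [LinearMap.sum_apply, LinearMap.smul_apply, LinearMap.pow_mulLeft,
      LinearMap.pow_mulRight, LinearMap.mulLeft_apply, LinearMap.mulRight_apply]
    rw [mul_assoc, Finset.sum_mul]
    refine Finset.sum_congr rfl fun i _ => ?_
    rw [smul_mul_assoc, Finset.mul_sum, Finset.mul_sum, Finset.mul_sum]
    simp only [mul_smul_comm]
  rw [← h2]
  exact h1

theorem exp_conj_unit {g g' x : A} (h : g * g' = 1) (h' : g' * g = 1) (hx : IsNilpotent x) :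
    exp (g * x * g') = g * exp x * g' := by
  obtain ⟨k, hk⟩ := hx
  have hp : ∀ i : ℕ, (g * x * g') ^ i = g * x ^ i * g' := by
    intro i
    induction i with
    | zero => simp [h]
    | succ i ih =>
      rw [pow_succ, ih, pow_succ]
      calc g * x ^ i * g' * (g * x * g') = g * x ^ i * (g' * g) * x * g' := by
            simp only [mul_assoc]
        _ = _ := by rw [h']; simp only [mul_assoc, mul_one]
  have hk' : (g * x * g') ^ k = 0 := by rw [hp, hk]; simp
  rw [IsNilpotent.exp_eq_sum hk, IsNilpotent.exp_eq_sum hk', Finset.mul_sum, Finset.sum_mul]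
  refine Finset.sum_congr rfl fun i _ => ?_
  rw [hp, mul_smul_comm, smul_mul_assoc]

theorem exp_nsmul {x : A} (hx : IsNilpotent x) (s : ℕ) : exp (s • x) = exp x ^ s := by
  induction s with
  | zero => simp [IsNilpotent.exp_zero]
  | succ s ih =>
    have hs : IsNilpotent (s • x) := hx.smul s
    rw [succ_nsmul, IsNilpotent.exp_add_of_commute ((Commute.refl x).smul_left s) hs hx, ih,
      pow_succ]

theorem Filt.le (h : Filt F c) {i j : ℕ} (hij : i ≤ j) : F j ≤ F i := by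
  induction hij with
  | refl => exact le_rfl
  | step _ ih => exact (h.anti _).trans ih

theorem Filt.pow_mem (h : Filt F c) {x : A} (hx : x ∈ F 1) (j : ℕ) : x ^ j ∈ F j := by
  induction j with
  | zero => simpa using h.one
  | succ j ih => rw [pow_succ]; exact h.mul ih hx

theorem Filt.pow_eq (h : Filt F c) {x : A} (hx : x ∈ F 1) : x ^ c = 0 :=
  h.bot _ (h.pow_mem hx c)

theorem Filt.exp_sub_one (h : Filt F c) {x : A} (hx : x ∈ F 1) : exp x - 1 ∈ F 1 := by
  have hk : x ^ (c + 1) = 0 := by rw [pow_succ, h.pow_eq hx, zero_mul]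
  rw [IsNilpotent.exp_eq_sum hk, Finset.sum_range_succ']
  simp only [Nat.factorial_zero, Nat.cast_one, inv_one, pow_zero, one_smul, add_sub_cancel_right]
  exact Submodule.sum_mem _ fun i _ => Submodule.smul_mem _ _
    (h.le (Nat.le_add_left 1 i) (h.pow_mem hx (i + 1)))

theorem Filt.exp_mem (h : Filt F c) {x : A} (hx : x ∈ F 1) : exp x ∈ F 0 := by
  have := (F 0).add_mem (h.anti 0 (h.exp_sub_one hx)) h.one
  simpa using this

theorem Filt.exp_add_sub (h : Filt F c) {z w : A} {j : ℕ} (hz : z ∈ F 1) (hw : w ∈ F (j + 1)) :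
    exp (z + w) - exp z - w ∈ F (j + 2) := by
  have hw1 : w ∈ F 1 := h.le (Nat.le_add_left 1 j) hw
  have hzw : z + w ∈ F 1 := (F 1).add_mem hz hw1
  have key : ∀ i : ℕ, (z + w) ^ (i + 1) - z ^ (i + 1) ∈ F (j + 1 + i) := by
    intro i
    induction i with
    | zero => simpa using hw
    | succ i ih =>
      have e : (z + w) ^ (i + 1 + 1) - z ^ (i + 1 + 1) =
          ((z + w) ^ (i + 1) - z ^ (i + 1)) * (z + w) + z ^ (i + 1) * w := by
        rw [pow_succ (z + w) (i + 1), pow_succ z (i + 1)]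
        noncomm_ring
      rw [e]
      have h1 := h.mul ih hzw
      refine Submodule.add_mem _ h1 ?_
      have := h.mul (h.pow_mem hz (i + 1)) hw
      rwa [show i + 1 + (j + 1) = j + 1 + (i + 1) by ring] at this
  have hk : z ^ (c + 1 + 1) = 0 := by rw [pow_succ, pow_succ, h.pow_eq hz, zero_mul, zero_mul]
  have hk' : (z + w) ^ (c + 1 + 1) = 0 := by
    rw [pow_succ, pow_succ, h.pow_eq hzw, zero_mul, zero_mul]
  rw [IsNilpotent.exp_eq_sum hk, IsNilpotent.exp_eq_sum hk', ← Finset.sum_sub_distrib,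
    Finset.sum_range_succ', Finset.sum_range_succ']
  have e : ∀ s : A, s + ((((0 + 1).factorial : ℕ) : ℚ)⁻¹ • (z + w) ^ (0 + 1) -
      (((0 + 1).factorial : ℕ) : ℚ)⁻¹ • z ^ (0 + 1)) +
      ((((0 : ℕ).factorial : ℕ) : ℚ)⁻¹ • (z + w) ^ 0 - (((0 : ℕ).factorial : ℕ) : ℚ)⁻¹ • z ^ 0) - w
      = s := by
    intro s
    simp
  rw [e]
  refine Submodule.sum_mem _ fun i _ => ?_
  rw [← smul_sub]
  exact Submodule.smul_mem _ _ (h.le (by omega) (key (i + 1)))

theorem Filt.exp_inj (h : Filt F c) {x y : A} (hx : x ∈ F 1) (hy : y ∈ F 1)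
    (e : exp x = exp y) : x = y := by
  have key : ∀ j : ℕ, y - x ∈ F (j + 1) := by
    intro j
    induction j with
    | zero => exact (F 1).sub_mem hy hx
    | succ j ih =>
      have := h.exp_add_sub hx ih
      rw [add_sub_cancel, e, sub_self, zero_sub] at this
      simpa using (F (j + 2)).neg_mem this
  exact (sub_eq_zero.1 (h.bot _ (h.anti c (key c)))).symm

theorem Filt.exp_surj_Exp (h : Filt F c) {w : A} (hw : w ∈ F 1) : ∃ z ∈ F 1, exp z = 1 + w := by
  have key : ∀ j : ℕ, ∃ z ∈ F 1, 1 + w - exp z ∈ F (j + 1) := by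
    intro j
    induction j with
    | zero => exact ⟨0, (F 1).zero_mem, by simpa [IsNilpotent.exp_zero] using hw⟩
    | succ j ih =>
      obtain ⟨z, hz, hz'⟩ := ih
      refine ⟨z + (1 + w - exp z), (F 1).add_mem hz (h.le (Nat.le_add_left 1 j) hz'), ?_⟩
      have := (F (j + 2)).neg_mem (h.exp_add_sub hz hz')
      convert this using 1
      abel
  obtain ⟨z, hz, hz'⟩ := key c
  exact ⟨z, hz, (sub_eq_zero.1 (h.bot _ (h.anti c hz'))).symm⟩

theorem exists_logP (c : ℕ) : ∃ L : ℚ[X], L.coeff 0 = 0 ∧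
    ∀ (B : Type) [Ring B] [Algebra ℚ B] (w : B), w ^ c = 0 → exp (aeval w L) = 1 + w := by
  let I : Ideal ℚ[X] := Ideal.span {X ^ c}
  let ρ : ℚ[X] ⧸ I := Ideal.Quotient.mk I X
  let G : ℕ → Submodule ℚ (ℚ[X] ⧸ I) := fun j => (Ideal.span {ρ ^ j}).restrictScalars ℚ
  have hG : ∀ j x, x ∈ G j ↔ ρ ^ j ∣ x := fun j x => Ideal.mem_span_singleton
  have hρ : ρ ^ c = 0 := by
    rw [← map_pow]
    exact Ideal.Quotient.eq_zero_iff_mem.2 (Ideal.mem_span_singleton_self _)
  have hF : Filt G c := by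
    refine ⟨(hG _ _).2 (by simp), fun hx hy => (hG _ _).2 ?_, fun j x hx => (hG _ _).2 ?_,
      fun x hx => ?_⟩
    · rw [pow_add]
      exact mul_dvd_mul ((hG _ _).1 hx) ((hG _ _).1 hy)
    · exact (pow_dvd_pow ρ (Nat.le_succ j)).trans ((hG _ _).1 hx)
    · have := (hG _ _).1 hx
      rwa [hρ, zero_dvd_iff] at this
  obtain ⟨z, hz, hz'⟩ := hF.exp_surj_Exp (w := ρ) ((hG _ _).2 (by simp))
  obtain ⟨q, rfl⟩ := (hG _ _).1 hz
  obtain ⟨Q, rfl⟩ := Ideal.Quotient.mk_surjective q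
  refine ⟨X * Q, by simp, fun B _ _ w hw => ?_⟩
  let f : (ℚ[X] ⧸ I) →ₐ[ℚ] B := Ideal.Quotient.liftₐ I (aeval w) (fun a ha => by
    obtain ⟨b, rfl⟩ := Ideal.mem_span_singleton.1 ha
    simp [hw])
  have hf : ∀ P : ℚ[X], f (Ideal.Quotient.mk I P) = aeval w P := fun P => rfl
  have h1 := congrArg f hz'
  rw [IsNilpotent.map_exp ⟨c, hF.pow_eq hz⟩ f, map_add, map_one, pow_one, ← map_mul, hf, hf] at h1
  simpa using h1

end Vale.Agent.P188.PM
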