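import Vale.Agent.P188.M.MDefs

/-! P188 part M, file Fil: triangular matrices, entrywise multipliers, block diagonal matrices.

PLAN. Entrywise computations (`Matrix.mul_apply`, `Finset.sum_eq_zero`, `Finset.sum_eq_single`).
`inv_mem_Fl`: `Matrix.blockTriangular_inv_of_blockTriangular`, `Matrix.inv_eq_right_inv`.
`Sp.inv`: `g * mk q g' = mk q (g * g') = 1`, so `mk q g' = g'`. `Sp.ex`: unfold `IsNilpotent.exp`. -/

namespace Vale.Agent.P188.PM

open IsNilpotent (exp)
open Matrix Polynomial

variable {n : ℕ} {x y g g' : Mat n} {β : Type*} {q : Fin n → β}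

theorem Fl_mul {i j : ℕ} (hx : x ∈ Fl n i) (hy : y ∈ Fl n j) : x * y ∈ Fl n (i + j) := by
  intro a b h
  rw [Matrix.mul_apply]
  refine Finset.sum_eq_zero fun c _ => ?_
  by_cases hc : c.val < a.val + i
  · rw [hx a c hc, zero_mul]
  · rw [hy c b (by omega), mul_zero]

theorem Fl_le {i j : ℕ} (h : i ≤ j) : Fl n j ≤ Fl n i := by
  intro x hx a b hab
  exact hx a b (by omega)

theorem Fl_bot (hx : x ∈ Fl n n) : x = 0 := by
  ext a b
  exact hx a b (by have := b.isLt; omega)

theorem diagonal_mem_Fl (d : Fin n → ℂ) : diagonal d ∈ Fl n 0 := by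
  intro a b h
  exact Matrix.diagonal_apply_ne d (fun e => by subst e; omega)

theorem one_mem_Fl : (1 : Mat n) ∈ Fl n 0 := by
  rw [← Matrix.diagonal_one]
  exact diagonal_mem_Fl _

theorem filt_Fl : Filt (fun j => (Fl n j).restrictScalars ℚ) n := by
  refine ⟨one_mem_Fl, fun hx hy => Fl_mul hx hy, fun j => ?_, fun x hx => Fl_bot hx⟩
  intro x hx
  exact Fl_le (Nat.le_succ j) hx

theorem cm_mem_Fl {i j : ℕ} (hx : x ∈ Fl n i) (hy : y ∈ Fl n j) : cm n x y ∈ Fl n (i + j) := by
  rw [cm_apply]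
  refine Submodule.sub_mem _ (Fl_mul hx hy) ?_
  rw [add_comm]
  exact Fl_mul hy hx

theorem diag_mul (hx : x ∈ Fl n 0) (hy : y ∈ Fl n 0) (a : Fin n) :
    (x * y) a a = x a a * y a a := by
  rw [Matrix.mul_apply]
  refine Finset.sum_eq_single a (fun c _ hc => ?_) (fun h => absurd (Finset.mem_univ a) h)
  have hc' : c.val ≠ a.val := fun e => hc (Fin.ext e)
  by_cases h : c.val < a.val
  · rw [hx a c (by omega), zero_mul]
  · rw [hy c a (by omega), mul_zero]

/-- the lowest superdiagonal of a product -/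
theorem mul_low {j : ℕ} (hx : x ∈ Fl n j) (hg : g ∈ Fl n 0) {a b : Fin n} (h : b.val = a.val + j) :
    (x * g) a b = x a b * g b b ∧ (g * x) a b = g a a * x a b := by
  constructor
  · rw [Matrix.mul_apply]
    refine Finset.sum_eq_single b (fun c _ hc => ?_) (fun h => absurd (Finset.mem_univ b) h)
    have hc' : c.val ≠ b.val := fun e => hc (Fin.ext e)
    by_cases h' : c.val < b.val
    · rw [hx a c (by omega), zero_mul]
    · rw [hg c b (by omega), mul_zero]
  · rw [Matrix.mul_apply]
    refine Finset.sum_eq_single a (fun c _ hc => ?_) (fun h => absurd (Finset.mem_univ a) h)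
    have hc' : c.val ≠ a.val := fun e => hc (Fin.ext e)
    by_cases h' : c.val < a.val
    · rw [hg a c (by omega), zero_mul]
    · rw [hx c b (by omega), mul_zero]

theorem mem_Fl_succ {j : ℕ} :
    x ∈ Fl n (j + 1) ↔ x ∈ Fl n j ∧ ∀ a b : Fin n, b.val = a.val + j → x a b = 0 := by
  constructor
  · intro h
    exact ⟨fun a b hab => h a b (by omega), fun a b hab => h a b (by omega)⟩
  · rintro ⟨h1, h2⟩ a b hab
    by_cases e : b.val = a.val + j
    · exact h2 a b e
    · exact h1 a b (by omega)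

theorem mem_Fl_one : x ∈ Fl n 1 ↔ x ∈ Fl n 0 ∧ ∀ a, x a a = 0 := by
  constructor
  · intro h
    exact ⟨fun a b hab => h a b (by omega), fun a => h a a (by omega)⟩
  · rintro ⟨h1, h2⟩ a b hab
    by_cases e : b = a
    · subst e; exact h2 _
    · have : b.val ≠ a.val := fun e' => e (Fin.ext e')
      exact h1 a b (by omega)

theorem inv_mem_Fl (h : g * g' = 1) (hg : g ∈ Fl n 0) : g' ∈ Fl n 0 := by
  have hb : g.BlockTriangular id := fun a b hab => hg a b (by simpa using hab)
  have hu : IsUnit g := IsUnit.of_mul_eq_one _ h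
  let _ := hu.invertible
  have hi := Matrix.blockTriangular_inv_of_blockTriangular hb
  rw [Matrix.inv_eq_right_inv h] at hi
  intro a b hab
  exact hi (show b < a from by simpa using hab)

theorem diag_ne (h : g * g' = 1) (hg : g ∈ Fl n 0) (a : Fin n) : g a a ≠ 0 := by
  have h1 := diag_mul hg (inv_mem_Fl h hg) a
  rw [h, Matrix.one_apply_eq] at h1
  intro e
  rw [e, zero_mul] at h1
  exact one_ne_zero h1

theorem hd_mem_Fl (φ : Fin n → Fin n → ℂ) {j : ℕ} (hx : x ∈ Fl n j) : hd φ x ∈ Fl n j := by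
  intro a b h
  rw [hd_apply, hx a b h, mul_zero]

theorem hd_hd (φ ψ : Fin n → Fin n → ℂ) (x : Mat n) :
    hd φ (hd ψ x) = hd (fun a b => φ a b * ψ a b) x := by
  ext a b
  simp only [hd_apply, mul_assoc]

theorem diag_conj (d d' : Fin n → ℂ) (x : Mat n) :
    diagonal d * x * diagonal d' = hd (fun a b => d a * d' b) x := by
  ext a b
  rw [Matrix.mul_diagonal, Matrix.diagonal_mul, hd_apply]
  ring

theorem Sp.add (hx : Sp q x) (hy : Sp q y) : Sp q (x + y) := by
  intro a b h
  rw [Matrix.add_apply, hx a b h, hy a b h, add_zero]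

theorem Sp.neg (hx : Sp q x) : Sp q (-x) := by
  intro a b h
  rw [Matrix.neg_apply, hx a b h, neg_zero]

theorem Sp.smul (c : ℝ) (hx : Sp q x) : Sp q (c • x) := by
  intro a b h
  rw [Matrix.smul_apply, hx a b h, smul_zero]

theorem Sp.sum {ι : Type*} (s : Finset ι) {f : ι → Mat n} (h : ∀ i ∈ s, Sp q (f i)) :
    Sp q (∑ i ∈ s, f i) := by
  intro a b hab
  rw [Matrix.sum_apply]
  exact Finset.sum_eq_zero fun i hi => h i hi a b hab

theorem Sp.mul (hx : Sp q x) (hy : Sp q y) : Sp q (x * y) := by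
  intro a b h
  rw [Matrix.mul_apply]
  refine Finset.sum_eq_zero fun c _ => ?_
  by_cases hc : q a = q c
  · rw [hy c b (fun e => h (hc.trans e)), mul_zero]
  · rw [hx a c hc, zero_mul]

theorem sp_diagonal (q : Fin n → β) (d : Fin n → ℂ) : Sp q (diagonal d) := by
  intro a b h
  exact Matrix.diagonal_apply_ne d (fun e => h (by rw [e]))

theorem sp_one (q : Fin n → β) : Sp q (1 : Mat n) := by
  rw [← Matrix.diagonal_one]
  exact sp_diagonal q _

theorem Sp.pow_Fil (hx : Sp q x) (i : ℕ) : Sp q (x ^ i) := by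
  induction i with
  | zero => rw [pow_zero]; exact sp_one q
  | succ i ih => rw [pow_succ]; exact ih.mul hx

theorem Sp.qsmul_Fil (hx : Sp q x) (c : ℚ) : Sp q (c • x) := by
  intro a b h
  rw [Matrix.smul_apply, hx a b h, smul_zero]

theorem Sp.poly (hx : Sp q x) (L : ℚ[X]) : Sp q (aeval x L) := by
  rw [aeval_eq_sum_range]
  exact Sp.sum _ fun i _ => (hx.pow_Fil i).qsmul_Fil _

theorem Sp.ex (hx : Sp q x) : Sp q (exp x) := by
  unfold IsNilpotent.exp
  exact Sp.sum _ fun i _ => (hx.pow_Fil i).qsmul_Fil _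

theorem Sp.mono {β' : Type*} {q' : Fin n → β'} (hx : Sp q x)
    (h : ∀ a b, q a = q b → q' a = q' b) : Sp q' x := by
  intro a b hab
  exact hx a b fun e => hab (h a b e)

theorem Sp.hd_eq (hx : Sp q x) {φ : Fin n → Fin n → ℂ} (h : ∀ a b, q a = q b → φ a b = 1) :
    hd φ x = x := by
  ext a b
  rw [hd_apply]
  by_cases e : q a = q b
  · rw [h a b e, one_mul]
  · rw [hx a b e, mul_zero]

theorem Sp.comm (hx : Sp q x) {d : Fin n → ℂ} (h : ∀ a b, q a = q b → d a = d b) :
    Matrix.diagonal d * x = x * Matrix.diagonal d := by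
  ext a b
  rw [Matrix.mul_diagonal, Matrix.diagonal_mul]
  by_cases e : q a = q b
  · rw [h a b e, mul_comm]
  · rw [hx a b e, mul_zero, zero_mul]

open Classical in
theorem mk_apply_Fil (q : Fin n → β) (x : Mat n) (a b : Fin n) :
    mk q x a b = if q a = q b then x a b else 0 := by
  unfold mk
  rw [hd_apply]
  split_ifs <;> simp

theorem sp_mk (q : Fin n → β) (x : Mat n) : Sp q (mk q x) := by
  intro a b h
  rw [mk_apply_Fil, if_neg h]

theorem Sp.mk_eq (hx : Sp q x) : mk q x = x := by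
  ext a b
  rw [mk_apply_Fil]
  split_ifs with e
  · rfl
  · exact (hx a b e).symm

theorem sub_mk_apply (q : Fin n → β) (x : Mat n) {a b : Fin n} (h : q a = q b) :
    (x - mk q x) a b = 0 := by
  rw [Matrix.sub_apply, mk_apply_Fil, if_pos h, sub_self]

theorem mk_mul (hg : Sp q g) (x : Mat n) :
    mk q (x * g) = mk q x * g ∧ mk q (g * x) = g * mk q x := by
  constructor
  · ext a b
    rw [mk_apply_Fil, Matrix.mul_apply, Matrix.mul_apply]
    split_ifs with e
    · refine Finset.sum_congr rfl fun c _ => ?_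
      by_cases hc : q c = q b
      · rw [mk_apply_Fil, if_pos (e.trans hc.symm)]
      · rw [hg c b hc, mul_zero, mul_zero]
    · refine (Finset.sum_eq_zero fun c _ => ?_).symm
      by_cases hc : q c = q b
      · rw [mk_apply_Fil, if_neg (fun e' => e (e'.trans hc)), zero_mul]
      · rw [hg c b hc, mul_zero]
  · ext a b
    rw [mk_apply_Fil, Matrix.mul_apply, Matrix.mul_apply]
    split_ifs with e
    · refine Finset.sum_congr rfl fun c _ => ?_
      by_cases hc : q a = q c
      · rw [mk_apply_Fil, if_pos (hc.symm.trans e)]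
      · rw [hg a c hc, zero_mul, zero_mul]
    · refine (Finset.sum_eq_zero fun c _ => ?_).symm
      by_cases hc : q a = q c
      · rw [mk_apply_Fil, if_neg (fun e' => e (hc.trans e')), mul_zero]
      · rw [hg a c hc, zero_mul]

theorem Sp.inv (hg : Sp q g) (h : g * g' = 1) : Sp q g' := by
  have h1 : g * mk q g' = 1 := by
    rw [← (mk_mul hg g').2, h, (sp_one q).mk_eq]
  have h2 : g' * g = 1 := mul_eq_one_comm.1 h
  have h3 : mk q g' = g' := by
    calc mk q g' = (g' * g) * mk q g' := by rw [h2, one_mul]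
      _ = g' := by rw [mul_assoc, h1, mul_one]
  rw [← h3]
  exact sp_mk q g'

end Vale.Agent.P188.PM
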