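import Vale.Agent.P188.M.Fil
import Vale.Agent.P188.M.Exp

/-! P188 part M, file Fil2: exponentials of strictly upper triangular matrices.

PLAN. Specialise file Exp to `filt_Fl`. `exists_log`: `exists_logP n`; `aeval w L ∈ Fl n 1` for
`w ∈ Fl n 1` since `X ∣ L` (`aeval_eq_sum_range`); injectivity. `exp_conj_cm`: `(ad x ^ j) y =
(cm n x ^ j) y ∈ Fl n j`. `continuousOn_exp`: `exp_eq_sum` with `x ^ n = 0`. `coeff_mem`: for a
functional `φ` killing `W` the real polynomial `∑ φ (v j) X ^ j` has infinitely many roots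
(`Polynomial.eq_zero_of_infinite_isRoot`, `Subspace.forall_mem_dualAnnihilator_apply_eq_zero_iff`).
`cm_mem_of_conj`: `exp y ^ s = exp (s • y)`, `exp_conj_cm` with `m = n + 2`,
`cm n (s • y) ^ j = s ^ j • cm n y ^ j`, `coeff_mem` with `v 0 = 0`. -/

namespace Vale.Agent.P188.PM

open IsNilpotent (exp)
open Matrix Polynomial Finset

variable {n : ℕ} {x y z : Mat n}

theorem Fl_nilp (hx : x ∈ Fl n 1) : IsNilpotent x := by
  exact ⟨n, filt_Fl.pow_eq hx⟩

theorem exp_mem_Fl (hx : x ∈ Fl n 1) : exp x ∈ Fl n 0 := by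
  exact filt_Fl.exp_mem hx

theorem exp_diag (hx : x ∈ Fl n 1) (a : Fin n) : exp x a a = 1 := by
  have h : exp x - 1 ∈ Fl n 1 := filt_Fl.exp_sub_one hx
  have h1 := h a a (by omega)
  rw [Matrix.sub_apply, Matrix.one_apply_eq] at h1
  exact sub_eq_zero.1 h1

theorem exp_inj_Fl (hx : x ∈ Fl n 1) (hy : y ∈ Fl n 1) (e : exp x = exp y) : x = y := by
  exact filt_Fl.exp_inj hx hy e

theorem exp_mul_neg (hx : x ∈ Fl n 1) : exp x * exp (-x) = 1 ∧ exp (-x) * exp x = 1 := by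
  exact ⟨IsNilpotent.exp_mul_exp_neg_self (Fl_nilp hx),
    IsNilpotent.exp_neg_mul_exp_self (Fl_nilp hx)⟩

theorem exp_conj_mat {g g' : Mat n} (h : g * g' = 1) (hx : x ∈ Fl n 1) :
    exp (g * x * g') = g * exp x * g' := by
  exact exp_conj_unit h (mul_eq_one_comm.1 h) (Fl_nilp hx)

theorem exp_smul_add (hx : x ∈ Fl n 1) (s t : ℝ) :
    exp ((s + t) • x) = exp (s • x) * exp (t • x) := by
  rw [add_smul]
  exact IsNilpotent.exp_add_of_commute (((Commute.refl x).smul_left s).smul_right t)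
    (Fl_nilp (Submodule.smul_mem _ s hx)) (Fl_nilp (Submodule.smul_mem _ t hx))

theorem aeval_mem_Fil2 (hx : x ∈ Fl n 1) {L : ℚ[X]} (h0 : L.coeff 0 = 0) :
    aeval x L ∈ Fl n 1 := by
  rw [aeval_eq_sum_range]
  refine Submodule.sum_mem _ fun i _ => ?_
  rcases Nat.eq_zero_or_pos i with rfl | hi
  · rw [h0, zero_smul]; exact Submodule.zero_mem _
  · have h1 : x ^ i ∈ Fl n i := filt_Fl.pow_mem hx i
    exact Submodule.smul_of_tower_mem _ _ (Fl_le hi h1)

theorem exists_log (n : ℕ) : ∃ L : ℚ[X], (∀ x ∈ Fl n 1, aeval (exp x - 1) L = x) ∧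
    ∀ u ∈ Fl n 0, (∀ a, u a a = 1) → aeval (u - 1) L ∈ Fl n 1 ∧ exp (aeval (u - 1) L) = u := by
  obtain ⟨L, h0, hL⟩ := exists_logP n
  have key : ∀ w ∈ Fl n 1, aeval w L ∈ Fl n 1 ∧ exp (aeval w L) = 1 + w := fun w hw =>
    ⟨aeval_mem_Fil2 hw h0, hL (Mat n) w (filt_Fl.pow_eq hw)⟩
  refine ⟨L, fun x hx => ?_, fun u hu h1 => ?_⟩
  · have hw : exp x - 1 ∈ Fl n 1 := filt_Fl.exp_sub_one hx
    obtain ⟨k1, k2⟩ := key _ hw
    exact exp_inj_Fl k1 hx (by rw [k2, add_sub_cancel])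
  · have hw : u - 1 ∈ Fl n 1 := mem_Fl_one.2 ⟨Submodule.sub_mem _ hu one_mem_Fl, fun a => by
      rw [Matrix.sub_apply, h1, Matrix.one_apply_eq, sub_self]⟩
    obtain ⟨k1, k2⟩ := key _ hw
    exact ⟨k1, by rw [k2, add_sub_cancel]⟩

theorem exp_surj {u : Mat n} (hu : u ∈ Fl n 0) (h1 : ∀ a, u a a = 1) :
    ∃ x ∈ Fl n 1, exp x = u := by
  obtain ⟨L, -, hL⟩ := exists_log n
  exact ⟨_, (hL u hu h1).1, (hL u hu h1).2⟩

theorem Sp.log {β : Type*} {q : Fin n → β} (hx : x ∈ Fl n 1) (h : Sp q (exp x)) : Sp q x := by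
  obtain ⟨L, hL, -⟩ := exists_log n
  rw [← hL x hx, sub_eq_add_neg]
  exact (h.add (sp_one q).neg).poly L

theorem ad_pow_Fil2 (x y : Mat n) (j : ℕ) : (ad x ^ j) y = (cm n x ^ j) y := by
  induction j with
  | zero => rfl
  | succ j ih =>
    rw [pow_succ', pow_succ', Module.End.mul_apply, Module.End.mul_apply, ih, ad_apply, cm_apply]

theorem cm_pow_mem_Fil2 {i : ℕ} (hx : x ∈ Fl n 1) (hy : y ∈ Fl n i) (j : ℕ) :
    (cm n x ^ j) y ∈ Fl n (i + j) := by
  induction j with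
  | zero => simpa using hy
  | succ j ih =>
    rw [pow_succ', Module.End.mul_apply]
    have := cm_mem_Fl hx ih
    rwa [show 1 + (i + j) = i + (j + 1) by omega] at this

theorem exp_conj_cm (hx : x ∈ Fl n 1) (hy : y ∈ Fl n 0) {m : ℕ} (hm : n ≤ m) :
    exp x * y * exp (-x) = ∑ j ∈ range m, ((j.factorial : ℝ)⁻¹) • ((cm n x) ^ j) y := by
  have h0 : (ad x ^ m) y = 0 := by
    rw [ad_pow_Fil2]
    have := cm_pow_mem_Fil2 hx hy m
    rw [zero_add] at this
    exact Fl_bot (Fl_le hm this)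
  rw [exp_conj (Fl_nilp hx) y h0]
  refine Finset.sum_congr rfl fun j _ => ?_
  rw [ad_pow_Fil2, ← Rat.cast_smul_eq_qsmul ℝ]
  push_cast
  rfl

theorem conj_mem (W : Submodule ℝ (Mat n)) (hW : W ≤ Fl n 0) (hx : x ∈ Fl n 1)
    (h : ∀ y ∈ W, cm n x y ∈ W) (hy : y ∈ W) : exp x * y * exp (-x) ∈ W := by
  rw [exp_conj_cm hx (hW hy) le_rfl]
  refine Submodule.sum_mem _ fun j _ => Submodule.smul_mem _ _ ?_
  induction j with
  | zero => simpa using hy
  | succ j ih =>
    rw [pow_succ', Module.End.mul_apply]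
    exact h _ (ih (by simp only [Finset.mem_range] at *; omega))

theorem conj_sub_mem {j : ℕ} (hx : x ∈ Fl n 1) (hy : y ∈ Fl n j) :
    exp x * y * exp (-x) - y ∈ Fl n (j + 1) := by
  rw [exp_conj_cm hx (Fl_le (Nat.zero_le j) hy) (Nat.le_succ n), Finset.sum_range_succ']
  simp only [Nat.factorial_zero, Nat.cast_one, inv_one, pow_zero, Module.End.one_apply, one_smul,
    add_sub_cancel_right]
  refine Submodule.sum_mem _ fun i _ => Submodule.smul_mem _ _ ?_
  exact Fl_le (by omega) (cm_pow_mem_Fil2 hx hy (i + 1))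

theorem continuousOn_exp : ContinuousOn (fun x : Mat n => exp x) (Fl n 1) := by
  have h : Continuous fun x : Mat n => ∑ i ∈ range n, ((i.factorial : ℝ)⁻¹) • x ^ i :=
    continuous_finsetSum _ fun i _ => (continuous_pow i).fun_const_smul _
  refine h.continuousOn.congr fun x hx => ?_
  have hx' : x ∈ Fl n 1 := hx
  show exp x = _
  rw [IsNilpotent.exp_eq_sum (filt_Fl.pow_eq hx')]
  refine Finset.sum_congr rfl fun j _ => ?_
  rw [← Rat.cast_smul_eq_qsmul ℝ]
  push_cast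
  rfl

theorem coeff_mem {X : Type*} [AddCommGroup X] [Module ℝ X] (W : Submodule ℝ X) (v : ℕ → X)
    (m : ℕ) (h : ∀ s : ℕ, ∑ j ∈ range m, (s : ℝ) ^ j • v j ∈ W) {j : ℕ} (hj : j < m) :
    v j ∈ W := by
  rw [← Subspace.forall_mem_dualAnnihilator_apply_eq_zero_iff]
  intro φ hφ
  let p : ℝ[X] := ∑ j ∈ range m, monomial j (φ (v j))
  have hp : p = 0 := by
    refine Polynomial.eq_zero_of_infinite_isRoot p ?_
    refine Set.Infinite.mono (s := Set.range (Nat.cast : ℕ → ℝ)) ?_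
      (Set.infinite_range_of_injective Nat.cast_injective)
    rintro _ ⟨s, rfl⟩
    have h1 := (Submodule.mem_dualAnnihilator φ).1 hφ _ (h s)
    rw [map_sum] at h1
    simp only [map_smul, smul_eq_mul] at h1
    simp only [Set.mem_ofPred_eq, IsRoot.def, p, eval_finsetSum, eval_monomial]
    rw [← h1]
    exact Finset.sum_congr rfl fun j _ => mul_comm _ _
  have h2 : p.coeff j = φ (v j) := by
    simp only [p, finsetSum_coeff, coeff_monomial]
    rw [Finset.sum_eq_single j (fun b _ hb => if_neg hb)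
      (fun hj' => absurd (Finset.mem_range.2 hj) hj'), if_pos rfl]
  rw [← h2, hp, coeff_zero]

theorem cm_mem_of_conj (W : Submodule ℝ (Mat n)) (hy : y ∈ Fl n 1) (hz : z ∈ Fl n 0)
    (h : ∀ s : ℕ, exp y ^ s * z * exp (-y) ^ s - z ∈ W) : cm n y z ∈ W := by
  let v : ℕ → Mat n := fun j => if j = 0 then 0 else ((j.factorial : ℝ)⁻¹) • ((cm n y) ^ j) z
  have hv : ∀ s : ℕ, ∑ j ∈ range (n + 2), (s : ℝ) ^ j • v j ∈ W := by
    intro s
    have hs : (s : ℝ) • y ∈ Fl n 1 := Submodule.smul_mem _ _ hy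
    have e1 : exp y ^ s = exp ((s : ℝ) • y) := by
      rw [← exp_nsmul (Fl_nilp hy), Nat.cast_smul_eq_nsmul]
    have e2 : exp (-y) ^ s = exp (-((s : ℝ) • y)) := by
      rw [← exp_nsmul (Fl_nilp (Submodule.neg_mem _ hy)), Nat.cast_smul_eq_nsmul, smul_neg]
    have h1 := h s
    rw [e1, e2, exp_conj_cm hs hz (by omega : n ≤ n + 2), Finset.sum_range_succ'] at h1
    simp only [Nat.factorial_zero, Nat.cast_one, inv_one, pow_zero, Module.End.one_apply, one_smul,
      add_sub_cancel_right] at h1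
    rw [Finset.sum_range_succ']
    simp only [v, if_pos, smul_zero, add_zero]
    convert h1 using 2 with j
    rw [if_neg (Nat.succ_ne_zero j), map_smul, _root_.smul_pow, LinearMap.smul_apply, smul_comm]
  have := coeff_mem W v (n + 2) hv (by omega : 1 < n + 2)
  simpa [v] using this

end Vale.Agent.P188.PM
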