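import Vale.Agent.P188.Defs

/-! P188 part M: group theoretic definitions (finished file, do not change). -/

namespace Vale.Agent.P188.PM

universe u

/-- poly-`ℤ` groups of length at most `m` (the maps to `ℤ` need not be onto) -/
def PolyZ : ℕ → (G : Type u) → [Group G] → Prop
  | 0, G, _ => Subsingleton G
  | m + 1, G, _ => ∃ e : G →* Multiplicative ℤ, PolyZ m e.ker

theorem polyZ_zero {G : Type u} [Group G] : PolyZ 0 G ↔ Subsingleton G := Iff.rfl

theorem polyZ_succ {m : ℕ} {G : Type u} [Group G] :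
    PolyZ (m + 1) G ↔ ∃ e : G →* Multiplicative ℤ, PolyZ m e.ker := Iff.rfl

/-- `G` has a faithful integral representation in which `N` acts unipotently -/
def Lin (G : Type*) [Group G] (N : Subgroup G) : Prop :=
  ∃ (n c : ℕ) (ρ : G →* Matrix (Fin n) (Fin n) ℤ), Function.Injective ρ ∧
    ∀ l : List G, (∀ x ∈ l, x ∈ N) → c ≤ l.length → (l.map fun x => ρ x - 1).prod = 0

/-- the additive subgroup `I` has a finitely generated supplement -/
def Cof {R : Type*} [AddCommGroup R] (I : Submodule ℤ R) : Prop :=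
  ∃ B : Submodule ℤ R, B.FG ∧ B ⊔ I = ⊤

/-- conjugation on the group ring of a normal subgroup -/
noncomputable def cj {G : Type*} [Group G] (H : Subgroup G) [H.Normal] (g : G) :
    MonoidAlgebra ℤ H →ₐ[ℤ] MonoidAlgebra ℤ H :=
  MonoidAlgebra.mapDomainAlgHom ℤ ℤ (MulAut.conjNormal g : MulAut H).toMonoidHom

theorem cj_of {G : Type*} [Group G] (H : Subgroup G) [H.Normal] (g : G) (h : H) :
    cj H g (MonoidAlgebra.of ℤ H h) = MonoidAlgebra.of ℤ H (MulAut.conjNormal g h) := by
  simp [cj]

end Vale.Agent.P188.PM
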