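import Vale.Agent.P188.M.PZ

/-! P188 part M, file Gen: free abelian quotients and generic elements.

PLAN. `exists_pi`: `G ⧸ N` is a finitely generated commutative group (build the `CommGroup`
instance); `CommGroup.equiv_free_prod_prod_multiplicative_zmod` (reindex the free part by `Fin k`);
`K` = kernel of the map to the finite factor. `top_of_gen`: `S.map π` contains the `Pi.single l 1`,
which generate (`Pi.single_induction`, `Finset.univ_sum_single`).
`exists_generic`: `E a b = {g | χ a g = χ b g}` is a subgroup (values are nonzero). `G1` = intersection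
of those `E a b` of finite index. `exists_pi` for the group `G1` and `N = {g | ∀ a, χ a g = 1}` gives
`K ≤ G1` (take `K.map G1.subtype`, transport `π` along `Subgroup.equivMapOfInjective`). The `E a b` of
infinite index, together with the nontrivial cosets of `K`, do not cover `G` / their traces do not
cover `K`: `Subgroup.exists_finiteIndex_of_leftCoset_cover` applied in the group `K`. -/

namespace Vale.Agent.P188.PM

theorem exists_pi {G : Type*} [Group G] [Group.FG G] (N : Subgroup G) [N.Normal]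
    (hc : ∀ x y : G, x * y * x⁻¹ * y⁻¹ ∈ N) :
    ∃ (K : Subgroup G) (k : ℕ) (π : K →* Multiplicative (Fin k → ℤ)), K.FiniteIndex ∧ N ≤ K ∧
      Function.Surjective π ∧ ∀ g : K, π g = 1 ↔ (g : G) ∈ N := by
  classical
  let : CommGroup (G ⧸ N) :=
    { (inferInstance : Group (G ⧸ N)) with
      mul_comm := fun x y => by
        induction x using QuotientGroup.induction_on with | H x =>
        induction y using QuotientGroup.induction_on with | H y =>
        rw [← QuotientGroup.mk_mul, ← QuotientGroup.mk_mul, QuotientGroup.eq]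
        have := hc y⁻¹ x⁻¹
        simpa [mul_assoc] using this }
  obtain ⟨ι, j, _, _, p, hp, e, ⟨φ⟩⟩ := CommGroup.equiv_free_prod_prod_multiplicative_zmod (G ⧸ N)
  have : ∀ i, NeZero (p i ^ e i) := fun i => ⟨pow_ne_zero _ (hp i).ne_zero⟩
  let Φ : G →* (j → Multiplicative ℤ) × ((i : ι) → Multiplicative (ZMod (p i ^ e i))) :=
    φ.toMonoidHom.comp (QuotientGroup.mk' N)
  have hΦ : Function.Surjective Φ := φ.surjective.comp (QuotientGroup.mk'_surjective N)
  have hΦ1 : ∀ g, Φ g = 1 ↔ g ∈ N := fun g => by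
    show φ (g : G ⧸ N) = 1 ↔ _
    rw [map_eq_one_iff φ φ.injective, QuotientGroup.eq_one_iff]
  let K : Subgroup G := ((MonoidHom.snd _ _).comp Φ).ker
  have hK : ∀ g, g ∈ K ↔ (Φ g).2 = 1 := fun g => Iff.rfl
  let σ : Fin (Fintype.card j) ≃ j := (Fintype.equivFin j).symm
  let π : K →* Multiplicative (Fin (Fintype.card j) → ℤ) :=
    { toFun := fun g => Multiplicative.ofAdd fun l => ((Φ g).1 (σ l)).toAdd
      map_one' := by
        apply Multiplicative.toAdd.injective
        funext l
        simp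
      map_mul' := fun x y => by
        apply Multiplicative.toAdd.injective
        funext l
        simp }
  have hπ : ∀ (g : K) l, (π g).toAdd l = ((Φ g).1 (σ l)).toAdd := fun g l => rfl
  refine ⟨K, _, π, Subgroup.finiteIndex_ker _, fun g hg => ?_, fun v => ?_, fun g => ?_⟩
  · rw [hK, (hΦ1 g).2 hg]
    rfl
  · obtain ⟨g, hg⟩ := hΦ (fun i => Multiplicative.ofAdd (v.toAdd (σ.symm i)), 1)
    refine ⟨⟨g, by rw [hK, hg]⟩, ?_⟩
    apply Multiplicative.toAdd.injective
    funext l
    rw [hπ]
    simp [hg]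
  · rw [← hΦ1]
    constructor
    · intro h
      refine Prod.ext ?_ ((hK g).1 g.2)
      funext i
      have h1 := hπ g (σ.symm i)
      rw [h, Equiv.apply_symm_apply] at h1
      apply Multiplicative.toAdd.injective
      rw [← h1]
      rfl
    · intro h
      apply Multiplicative.toAdd.injective
      funext l
      rw [hπ, h]
      rfl

theorem top_of_gen {G : Type*} [Group G] {k : ℕ} (π : G →* Multiplicative (Fin k → ℤ))
    (gen : Fin k → G) (hgen : ∀ l, π (gen l) = Multiplicative.ofAdd (Pi.single l 1))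
    (S : Subgroup G) (h1 : ∀ g, π g = 1 → g ∈ S) (h2 : ∀ l, gen l ∈ S) (g : G) : g ∈ S := by
  classical
  have hall : ∀ v : Fin k → ℤ, Multiplicative.ofAdd v ∈ S.map π := by
    intro v
    rw [← Finset.univ_sum_single v, ofAdd_sum]
    refine Subgroup.prod_mem _ fun l _ => ?_
    have h3 : (Pi.single l (v l) : Fin k → ℤ) = v l • (Pi.single l 1 : Fin k → ℤ) := by
      rw [← Pi.single_smul, smul_eq_mul, mul_one]
    rw [h3, ofAdd_zsmul]
    exact Subgroup.zpow_mem _ (Subgroup.mem_map.2 ⟨gen l, h2 l, hgen l⟩) _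
  obtain ⟨s, hs, hsg⟩ := hall (π g).toAdd
  have h4 : π (s⁻¹ * g) = 1 := by
    rw [map_mul, map_inv, hsg, ofAdd_toAdd, inv_mul_cancel]
  have h5 := S.mul_mem hs (h1 _ h4)
  rwa [mul_inv_cancel_left] at h5

open scoped Pointwise in
theorem exists_generic {G : Type*} [Group G] [Group.FG G] {n : ℕ} (χ : Fin n → G →* ℂ) :
    ∃ (K : Subgroup G) (k : ℕ) (π : K →* Multiplicative (Fin k → ℤ)) (γ0 : K), K.FiniteIndex ∧
      Function.Surjective π ∧ (∀ g : K, π g = 1 ↔ ∀ a, χ a g = 1) ∧
      ∀ a b, χ a γ0 = χ b γ0 → ∀ g : K, χ a g = χ b g := by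
  classical
  let E : Fin n × Fin n → Subgroup G := fun q => (χ q.1).eqLocus (χ q.2)
  have hE : ∀ q g, g ∈ E q ↔ χ q.1 g = χ q.2 g := fun q g => Iff.rfl
  let G1 : Subgroup G := ⨅ q : {q // (E q).FiniteIndex}, E q.1
  have hG1 : G1.FiniteIndex := Subgroup.finiteIndex_iInf fun q => q.2
  let N : Subgroup G1 := ⨅ a, ((χ a).comp G1.subtype).ker
  have hN : ∀ g : G1, g ∈ N ↔ ∀ a, χ a g = 1 := fun g => by
    simp only [N, Subgroup.mem_iInf, MonoidHom.mem_ker]
    rfl
  have hinv : ∀ a (x : G), χ a x * χ a x⁻¹ = 1 := fun a x => by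
    rw [← map_mul, mul_inv_cancel, map_one]
  have : N.Normal := ⟨fun x hx g => by
    rw [hN] at hx ⊢
    intro a
    rw [Subgroup.coe_mul, Subgroup.coe_mul, map_mul, map_mul, hx a, mul_one, Subgroup.coe_inv,
      hinv]⟩
  have hc : ∀ x y : G1, x * y * x⁻¹ * y⁻¹ ∈ N := fun x y => by
    rw [hN]
    intro a
    simp only [Subgroup.coe_mul, Subgroup.coe_inv, map_mul]
    linear_combination (χ a y * χ a (y : G)⁻¹) * hinv a x + hinv a y
  obtain ⟨K0, k, π0, hK0, -, hsurj, hker⟩ := exists_pi N hc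
  let K : Subgroup G := K0.map G1.subtype
  let ψ : K0 ≃* K := Subgroup.equivMapOfInjective K0 G1.subtype G1.subtype_injective
  have hψ : ∀ g : K, (((ψ.symm g : K0) : G1) : G) = g := fun g => by
    conv_rhs => rw [← ψ.apply_symm_apply g]
    rfl
  have hK : K.FiniteIndex := ⟨by
    rw [Subgroup.index_map_subtype]
    exact mul_ne_zero hK0.index_ne_zero hG1.index_ne_zero⟩
  have hKG : K ≤ G1 := Subgroup.map_subtype_le _
  have hγ : ∃ γ0 : K, ∀ q, (γ0 : G) ∈ E q → (E q).FiniteIndex := by
    by_contra hcon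
    push Not at hcon
    have hcov : ⋃ q ∈ (Finset.univ.filter fun q => ¬ (E q).FiniteIndex),
        (fun _ => (1 : K)) q • (((E q).subgroupOf K : Subgroup K) : Set K) = Set.univ := by
      refine Set.eq_univ_of_forall fun g => ?_
      obtain ⟨q, hq1, hq2⟩ := hcon g
      simp only [Set.mem_iUnion, one_smul]
      exact ⟨q, by simpa using hq2, hq1⟩
    obtain ⟨q, hq, hfi⟩ := Subgroup.exists_finiteIndex_of_leftCoset_cover hcov
    apply (Finset.mem_filter.1 hq).2
    have h1 : (((E q).subgroupOf K).map K.subtype).FiniteIndex := ⟨by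
      rw [Subgroup.index_map_subtype]
      exact mul_ne_zero hfi.index_ne_zero hK.index_ne_zero⟩
    refine Subgroup.finiteIndex_of_le (H := ((E q).subgroupOf K).map K.subtype) ?_
    rw [Subgroup.subgroupOf_map_subtype]
    exact inf_le_left
  obtain ⟨γ0, hγ0⟩ := hγ
  refine ⟨K, k, π0.comp ψ.symm.toMonoidHom, γ0, hK, hsurj.comp ψ.symm.surjective, fun g => ?_,
    fun a b hab g => ?_⟩
  · show π0 (ψ.symm g) = 1 ↔ _
    rw [hker, hN, hψ]
  · have h1 := hγ0 (a, b) hab
    have h2 : (g : G) ∈ E (a, b) := (Subgroup.mem_iInf.1 (hKG g.2)) ⟨(a, b), h1⟩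
    exact h2

end Vale.Agent.P188.PM
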