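import Vale.Agent.P188.M.PZ

/-! P188 part M, file LKM1: a finite-index subgroup has a common eigenvector.

PLAN. Induction on `m`. `H = e.ker`, `t` from `exists_gen`; the induction hypothesis and `exists_norm`
give a normal `K1 ≤ H` with a common eigenvector. `K1` is finitely generated (`PolyZ.fg`, `PolyZ.sub`).
The set of weights `χ : K1 → ℂ` having a nonzero common eigenvector is finite: a weight is
multiplicative, so it is determined by its values on a finite generating set, and these values are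
eigenvalues (`Module.End.finite_hasEigenvalue`). If `v` has weight `χ` then `ρ (t ^ j) v` has weight
`x ↦ χ (t ^ (-j) x t ^ j)`; pigeonhole gives `i < j` with the same weight, so `ρ (t ^ (j - i))`
preserves the nonzero weight space `W` of that weight and has an eigenvector in it
(`Module.End.exists_eigenvalue` for the restriction). The set of `g` having this vector as an
eigenvector is a subgroup containing `K1` and `t ^ (j - i)`; `fi_sup`,
`Subgroup.finiteIndex_of_le`. -/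

namespace Vale.Agent.P188.PM

universe u

section
variable {G : Type*} [Group G] {V : Type*} [AddCommGroup V] [Module ℂ V]
  (ρ : G →* Module.End ℂ V)

theorem inv_LKM1 {g : G} {v : V} {c : ℂ} (h : ρ g v = c • v) : ρ g⁻¹ v = c⁻¹ • v := by
  have h1 : c • ρ g⁻¹ v = v := by
    rw [← map_smul, ← h, ← Module.End.mul_apply, ← map_mul, inv_mul_cancel, map_one,
      Module.End.one_apply]
  by_cases hc : c = 0
  · rw [hc, zero_smul] at h1
    rw [← h1, map_zero, smul_zero]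
  · rw [eq_inv_smul_iff₀ hc, h1]

/-- the elements acting on `v` and `w` by the same scalar -/
def same_LKM1 (v w : V) : Subgroup G where
  carrier := {g | ∃ c : ℂ, ρ g v = c • v ∧ ρ g w = c • w}
  one_mem' := ⟨1, by simp, by simp⟩
  mul_mem' := by
    rintro g h ⟨c, h1, h2⟩ ⟨d, h3, h4⟩
    refine ⟨d * c, ?_, ?_⟩
    · rw [map_mul, Module.End.mul_apply, h3, map_smul, h1, mul_smul]
    · rw [map_mul, Module.End.mul_apply, h4, map_smul, h2, mul_smul]
  inv_mem' := by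
    rintro g ⟨c, h1, h2⟩
    exact ⟨c⁻¹, inv_LKM1 ρ h1, inv_LKM1 ρ h2⟩

theorem conj_LKM1 {g s : G} {v : V} {c : ℂ} (h : ρ (s⁻¹ * g * s) v = c • v) :
    ρ g (ρ s v) = c • ρ s v := by
  rw [← map_smul, ← h, ← Module.End.mul_apply, ← Module.End.mul_apply, ← map_mul, ← map_mul]
  congr 2
  group

theorem step_LKM1 [FiniteDimensional ℂ V] (K : Subgroup G) [hK : K.Normal] (hf : K.FG) {v : V}
    (hv : v ≠ 0) (h : ∀ g ∈ K, ∃ c : ℂ, ρ g v = c • v) (t : G) :
    ∃ k : ℕ, k ≠ 0 ∧ ∃ w : V, w ≠ 0 ∧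
      ∀ g ∈ K ⊔ Subgroup.zpowers (t ^ k), ∃ c : ℂ, ρ g w = c • w := by
  obtain ⟨S, hS, hfin⟩ := (Subgroup.fg_iff _).1 hf
  have hSK : ∀ s ∈ S, s ∈ K := fun s hs => hS ▸ Subgroup.subset_closure hs
  have hc : ∀ s g : G, g ∈ K → s⁻¹ * g * s ∈ K := fun s g hg => hK.conj_mem' g hg s
  have hne : ∀ s : G, ρ s v ≠ 0 := fun s h0 => hv (by
    have h1 := congrArg (ρ s⁻¹) h0
    rwa [map_zero, ← Module.End.mul_apply, ← map_mul, inv_mul_cancel, map_one,
      Module.End.one_apply] at h1)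
  have h1 : ∀ (j : ℕ) (s : S), ∃ c : ℂ, ρ s (ρ (t ^ j) v) = c • ρ (t ^ j) v := fun j s =>
    (h _ (hc (t ^ j) s (hSK s s.2))).imp fun c => conj_LKM1 ρ
  choose χ hχ using h1
  have := hfin.to_subtype
  have h2 : (Set.univ.pi fun s : S => {μ | (ρ s).HasEigenvalue μ}).Finite :=
    Set.Finite.pi fun s => Module.End.finite_hasEigenvalue _
  have h0 : ∀ j, χ j ∈ Set.univ.pi fun s : S => {μ | (ρ s).HasEigenvalue μ} := fun j s _ =>
    Module.End.hasEigenvalue_of_hasEigenvector ⟨Module.End.mem_eigenspace_iff.2 (hχ j s), hne _⟩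
  obtain ⟨i, j, hij, e⟩ := Set.Finite.exists_lt_map_eq_of_forall_mem h0 h2
  obtain ⟨k, rfl⟩ := Nat.exists_eq_add_of_lt hij
  set u := ρ (t ^ i) v
  set τ := t ^ (k + 1)
  have e1 : ρ (t ^ (i + k + 1)) v = ρ τ u := by
    rw [← Module.End.mul_apply, ← map_mul, ← pow_add, add_assoc, add_comm]
  have h3 : K ≤ same_LKM1 ρ u (ρ τ u) := by
    rw [← hS, Subgroup.closure_le]
    intro s hs
    exact ⟨χ i ⟨s, hs⟩, hχ i ⟨s, hs⟩, by rw [e, ← e1]; exact hχ _ ⟨s, hs⟩⟩
  let W : Submodule ℂ V :=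
    { carrier := {w | ∀ g ∈ K, ∀ c : ℂ, ρ g u = c • u → ρ g w = c • w}
      add_mem' := fun h1 h2 g hg c hc => by rw [map_add, h1 g hg c hc, h2 g hg c hc, smul_add]
      zero_mem' := fun g _ c _ => by simp
      smul_mem' := fun a w h1 g hg c hc => by rw [map_smul, h1 g hg c hc, smul_comm] }
  have hu : u ∈ W := fun _ _ _ h => h
  have hτu : ρ τ u ≠ 0 := e1 ▸ hne _
  have hW : ∀ w ∈ W, ρ τ w ∈ W := fun w hw g hg c hcu => by
    obtain ⟨c1, k1, k2⟩ := h3 hg
    obtain ⟨c2, k3, -⟩ := h3 (hc τ g hg)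
    have k4 : c1 = c := smul_left_injective ℂ (hne _) (k1.symm.trans hcu)
    have k5 : c1 = c2 := smul_left_injective ℂ hτu (k2.symm.trans (conj_LKM1 ρ k3))
    exact conj_LKM1 ρ (hw _ (hc τ g hg) c (by rw [← k4, k5, k3]))
  have : Nontrivial W := ⟨⟨⟨u, hu⟩, 0, fun h0 => hne _ (congrArg Subtype.val h0)⟩⟩
  obtain ⟨c, hc'⟩ := Module.End.exists_eigenvalue ((ρ τ).restrict hW)
  obtain ⟨w, hw⟩ := hc'.exists_hasEigenvector
  refine ⟨k + 1, Nat.succ_ne_zero k, w, fun h0 => hw.2 (Subtype.ext h0), fun g hg => ?_⟩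
  have h4 : K ⊔ Subgroup.zpowers τ ≤ same_LKM1 ρ (w : V) w := by
    refine sup_le (fun g hg => ?_) (Subgroup.zpowers_le.2 ?_)
    · obtain ⟨c1, k1, -⟩ := h3 hg
      exact ⟨c1, w.2 g hg c1 k1, w.2 g hg c1 k1⟩
    · have k1 : ρ τ w = c • (w : V) := congrArg Subtype.val hw.apply_eq_smul
      exact ⟨c, k1, k1⟩
  exact (h4 hg).imp fun _ h => h.1

end

theorem lkm_vec {m : ℕ} {G : Type u} [Group G] (h : PolyZ m G) {V : Type*} [AddCommGroup V]
    [Module ℂ V] [FiniteDimensional ℂ V] [Nontrivial V] (ρ : G →* Module.End ℂ V) :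
    ∃ K : Subgroup G, K.FiniteIndex ∧ ∃ v : V, v ≠ 0 ∧ ∀ g ∈ K, ∃ c : ℂ, ρ g v = c • v := by
  induction m generalizing G with
  | zero =>
    have : Subsingleton G := h
    obtain ⟨v, hv⟩ := exists_ne (0 : V)
    exact ⟨⊤, inferInstance, v, hv, fun g _ => ⟨1, by simp [Subsingleton.elim g 1]⟩⟩
  | succ m ih =>
    obtain ⟨e, he⟩ := polyZ_succ.1 h
    obtain ⟨t, ht⟩ := exists_gen e
    obtain ⟨K, hK, v, hv, h1⟩ := ih he (ρ.comp e.ker.subtype)
    have := he.fg
    obtain ⟨K1, k1, k2, k3, k4⟩ := exists_norm e.ker K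
    obtain ⟨k, hk, w, hw, h2⟩ := step_LKM1 ρ K1
      ((Group.fg_iff_subgroup_fg _).1 (h.sub K1).fg) hv
      (fun g hg => h1 ⟨g, k2 hg⟩ (k4 hg)) t
    exact ⟨_, fi_sup e.ker K1 k2 t ht hk, w, hw, h2⟩

end Vale.Agent.P188.PM
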