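import Vale.Agent.P188.M.LKM1

/-! P188 part M, file LKM2: a finite-index subgroup is triangularisable.

PLAN. `lkm_basis`: induction on `n`, generalizing `G`, `V`. Take `K`, `v` from `lkm_vec`; `K` acts on
`V ⧸ span {v}` (`Submodule.mapQ`, finrank `n`), apply the induction hypothesis to the group `K`
(`PolyZ.sub`), get `K' ≤ K` (use `K'.map K.subtype`, `Subgroup.index_map_subtype` /
`Subgroup.relIndex_mul_index`) and a basis `b'` of the quotient; `b = Fin.cons v (lifts of b')`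
(`Module.Basis.mk`, `LinearIndependent.finCons'`/`basisOfLinearIndependentOfCardEqFinrank`, or
`Module.Basis.sumQuot`); the coordinate `i.succ` of `x` is the coordinate `i` of the class of `x`.
`lkm_flag`: `F i` = vectors whose coordinates `≥ i` vanish; the diagonal coefficient
`g ↦ b.repr (ρ g (b i)) i` is a homomorphism `K →* ℂ`, so it is `1` on commutators; the set of
`x ∈ K` with all diagonal coefficients `1` is a subgroup containing `⁅K, K⁆` (`commutator_le`).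
`lkm_mat`: `V = Fin n → ℂ`, `Matrix.toLinAlgEquiv'`, `P = (Pi.basisFun ..).toMatrix b`,
`Module.Basis.toMatrix_mul_toMatrix_flip`, `basis_toMatrix_mul_linearMap_toMatrix_mul_basis_toMatrix`. -/

namespace Vale.Agent.P188.PM

universe u v

theorem ext_LKM2 {n : ℕ} {V : Type v} [AddCommGroup V] [Module ℂ V] (W : Submodule ℂ V)
    (h1 : Module.finrank ℂ W = 1) (b' : Module.Basis (Fin n) ℂ (V ⧸ W)) :
    ∃ b : Module.Basis (Fin (n + 1)) ℂ V, b 0 ∈ W ∧
      (∀ j : Fin n, Submodule.Quotient.mk (b j.succ) = b' j) ∧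
      ∀ x (i : Fin n), b.repr x i.succ = b'.repr (Submodule.Quotient.mk x) i := by
  obtain ⟨e, e0, es⟩ : ∃ e : Unit ⊕ Fin n ≃ Fin (n + 1), e.symm 0 = Sum.inl () ∧
      ∀ i : Fin n, e.symm i.succ = Sum.inr i :=
    ⟨((finSuccEquiv n).trans ((Equiv.optionEquivSumPUnit _).trans (Equiv.sumComm _ _))).symm,
      by simp, fun i => by simp⟩
  obtain ⟨c⟩ : Nonempty (Module.Basis Unit ℂ W) := ⟨Module.basisUnique Unit h1⟩
  refine ⟨(c.sumQuot b').reindex e, ?_, fun j => ?_, fun x i => ?_⟩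
  · rw [Module.Basis.reindex_apply, e0, Module.Basis.sumQuot_inl]
    exact Subtype.property _
  · rw [Module.Basis.reindex_apply, es, Module.Basis.sumQuot_inr]
  · rw [Module.Basis.repr_reindex_apply, es, Module.Basis.sumQuot_repr_inr, Submodule.mkQ_apply]

theorem lkm_basis (n : ℕ) {m : ℕ} {G : Type u} [Group G] (h : PolyZ m G) {V : Type v}
    [AddCommGroup V] [Module ℂ V] [FiniteDimensional ℂ V] (hn : Module.finrank ℂ V = n)
    (ρ : G →* Module.End ℂ V) :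
    ∃ K : Subgroup G, K.FiniteIndex ∧ ∃ b : Module.Basis (Fin n) ℂ V,
      ∀ g ∈ K, ∀ i j : Fin n, j < i → b.repr (ρ g (b j)) i = 0 := by
  induction n generalizing G V with
  | zero => exact ⟨⊤, inferInstance, Module.finBasisOfFinrankEq ℂ V hn, fun _ _ i => i.elim0⟩
  | succ n ih =>
    have : Nontrivial V := Module.nontrivial_of_finrank_eq_succ hn
    obtain ⟨K, hK, v, hv, hKv⟩ := lkm_vec h ρ
    have hW : ∀ g : K, (ℂ ∙ v) ≤ (ℂ ∙ v).comap (ρ g) := fun g => by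
      obtain ⟨c, hc⟩ := hKv g g.2
      rw [Submodule.span_singleton_le_iff_mem, Submodule.mem_comap, hc]
      exact Submodule.smul_mem _ c (Submodule.mem_span_singleton_self v)
    have h1 := finrank_span_singleton (K := ℂ) hv
    have h2 := (ℂ ∙ v).finrank_quotient_add_finrank
    obtain ⟨ρ', hρ'⟩ : ∃ ρ' : K →* Module.End ℂ (V ⧸ (ℂ ∙ v)), ∀ g x,
        ρ' g (Submodule.Quotient.mk x) = Submodule.Quotient.mk (ρ g x) :=
      ⟨{ toFun := fun g => (ℂ ∙ v).mapQ (ℂ ∙ v) (ρ g) (hW g)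
         map_one' := Submodule.linearMap_qext _ (by ext x; simp)
         map_mul' := fun a b => Submodule.linearMap_qext _ (by ext x; simp) }, fun g x => rfl⟩
    obtain ⟨K', hK', b', hb'⟩ := ih (h.sub K) (by omega) ρ'
    obtain ⟨b, b0, b1, b2⟩ := ext_LKM2 _ h1 b'
    refine ⟨K'.map K.subtype, ⟨?_⟩, b, ?_⟩
    · rw [Subgroup.index_map_subtype]
      exact mul_ne_zero hK'.1 hK.1
    · rintro _ ⟨g, hg, rfl⟩ i j hji
      induction i using Fin.cases with
      | zero => exact absurd hji (Fin.not_lt_zero j)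
      | succ i =>
        rw [b2, Subgroup.coe_subtype]
        induction j using Fin.cases with
        | zero =>
          rw [(Submodule.Quotient.mk_eq_zero _).2 (Submodule.mem_comap.1 (hW g b0)), map_zero,
            Finsupp.zero_apply]
        | succ j =>
          rw [← hρ', b1]
          exact hb' g hg i j (Fin.succ_lt_succ_iff.1 hji)

theorem lkm_flag {m : ℕ} {G : Type u} [Group G] (h : PolyZ m G) {V : Type v}
    [AddCommGroup V] [Module ℂ V] [FiniteDimensional ℂ V] (ρ : G →* Module.End ℂ V) :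
    ∃ K : Subgroup G, K.FiniteIndex ∧ ∃ (F : ℕ → Submodule ℂ V) (c : ℕ), F 0 = ⊥ ∧ F c = ⊤ ∧
      ∀ x ∈ (⁅K, K⁆ : Subgroup G), ∀ i, ∀ v ∈ F (i + 1), ρ x v - v ∈ F i := by
  obtain ⟨K, hK, b, hb⟩ := lkm_basis _ h rfl ρ
  have h1 : ∀ g ∈ K, ∀ j v, (∀ k, j < k → b.repr v k = 0) →
      b.repr (ρ g v) j = b.repr v j * b.repr (ρ g (b j)) j := fun g hg j v hv => by
    conv_lhs => rw [← b.sum_repr v]
    simp only [map_sum, map_smul, Finsupp.coe_finsetSum, Finset.sum_apply, Finsupp.smul_apply,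
      smul_eq_mul]
    refine Finset.sum_eq_single j (fun k _ hk => ?_) fun hj => absurd (Finset.mem_univ j) hj
    rcases lt_or_gt_of_ne hk with hk | hk
    · rw [hb g hg j k hk, mul_zero]
    · rw [hv k hk, zero_mul]
  obtain ⟨d, hd⟩ : ∃ d : _ → G → ℂ, ∀ j g, d j g = b.repr (ρ g (b j)) j := ⟨_, fun _ _ => rfl⟩
  have h2 : ∀ j, ∀ g ∈ K, ∀ g' ∈ K, d j (g * g') = d j g * d j g' := fun j g hg g' hg' => by
    rw [hd, hd, hd, map_mul, Module.End.mul_apply, h1 g hg j _ fun k hk => hb g' hg' k j hk,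
      mul_comm]
  have h3 : ∀ j, d j 1 = 1 := fun j => by simp [hd]
  have h4 : ∀ j, ∀ g ∈ K, d j g * d j g⁻¹ = 1 := fun j g hg => by
    rw [← h2 j g hg _ (K.inv_mem hg), mul_inv_cancel, h3]
  obtain ⟨L, hL⟩ : ∃ L : Subgroup G, ∀ x, x ∈ L ↔ x ∈ K ∧ ∀ j, d j x = 1 :=
    ⟨{ carrier := {x | x ∈ K ∧ ∀ j, d j x = 1}
       one_mem' := ⟨K.one_mem, h3⟩
       mul_mem' := fun ha hb => ⟨K.mul_mem ha.1 hb.1, fun j => by
         rw [h2 j _ ha.1 _ hb.1, ha.2, hb.2, mul_one]⟩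
       inv_mem' := fun ha => ⟨K.inv_mem ha.1, fun j => by
         have := h4 j _ ha.1
         rwa [ha.2, one_mul] at this⟩ }, fun _ => Iff.rfl⟩
  have h5 : (⁅K, K⁆ : Subgroup G) ≤ L := Subgroup.commutator_le.2 fun g hg g' hg' => by
    have a1 := K.mul_mem hg hg'
    have a2 := K.mul_mem a1 (K.inv_mem hg)
    rw [commutatorElement_def]
    refine (hL _).2 ⟨K.mul_mem a2 (K.inv_mem hg'), fun j => ?_⟩
    rw [h2 j _ a2 _ (K.inv_mem hg'), h2 j _ a1 _ (K.inv_mem hg), h2 j _ hg _ hg']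
    linear_combination d j g' * d j g'⁻¹ * h4 j g hg + h4 j g' hg'
  obtain ⟨F, hF⟩ : ∃ F : ℕ → Submodule ℂ V, ∀ i v, v ∈ F i ↔
      ∀ j : Fin (Module.finrank ℂ V), i ≤ j → b.repr v j = 0 :=
    ⟨fun i => ⨅ j : Fin (Module.finrank ℂ V), ⨅ _ : i ≤ j, LinearMap.ker (b.coord j),
      fun i v => by simp [Submodule.mem_iInf]⟩
  refine ⟨K, hK, F, Module.finrank ℂ V, ?_, ?_, fun x hx i v hv => (hF _ _).2 fun j hj => ?_⟩
  · exact (Submodule.eq_bot_iff _).2 fun v hv =>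
      b.forall_coord_eq_zero_iff.1 fun j => (hF _ _).1 hv j (Nat.zero_le _)
  · exact Submodule.eq_top_iff'.2 fun v => (hF _ _).2 fun j hj => absurd j.2 (not_lt.2 hj)
  · obtain ⟨a1, a2⟩ := (hL x).1 (h5 hx)
    rw [map_sub, Finsupp.sub_apply, h1 x a1 j v fun k hk => (hF _ _).1 hv k (by
      have := Fin.lt_def.1 hk
      omega), ← hd, a2, mul_one, sub_self]

theorem lkm_mat {m n : ℕ} {G : Type u} [Group G] (h : PolyZ m G)
    (ρ : G →* Matrix (Fin n) (Fin n) ℂ) :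
    ∃ K : Subgroup G, K.FiniteIndex ∧ ∃ P P' : Matrix (Fin n) (Fin n) ℂ, P * P' = 1 ∧
      ∀ g ∈ K, ∀ a b : Fin n, b < a → (P' * ρ g * P) a b = 0 := by
  obtain ⟨K, hK, b, hb⟩ := lkm_basis n h (Module.finrank_fin_fun ℂ)
    ((Matrix.toLinAlgEquiv (Pi.basisFun ℂ (Fin n))).toMulEquiv.toMonoidHom.comp ρ)
  refine ⟨K, hK, (Pi.basisFun ℂ (Fin n)).toMatrix b, b.toMatrix (Pi.basisFun ℂ (Fin n)),
    Module.Basis.toMatrix_mul_toMatrix_flip _ _, fun g hg a c hca => ?_⟩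
  rw [← LinearMap.toMatrix_toLin (Pi.basisFun ℂ (Fin n)) (Pi.basisFun ℂ (Fin n)) (ρ g),
    basis_toMatrix_mul_linearMap_toMatrix_mul_basis_toMatrix, LinearMap.toMatrix_apply]
  exact hb g hg a c hca

end Vale.Agent.P188.PM
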