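import Vale.Agent.P188.M.Span
import Vale.Agent.P188.M.Det

/-! P188 part M, file Latt: discreteness and unimodularity from integrality.

PLAN. `fin`: the entries of `P * ϱ γ * P'` are integers bounded in terms of `R`; the map
`γ ↦ P * ϱ γ * P'` is injective (`mul_eq_one_comm`); `Set.Finite.pi`, `Set.finite_Icc`.
`uni`: `det_lattice` with `θ x = fun p => (P * x * P') p.1 p.2` on `W = nl ϱ`. Spanning: a generator is
`x = aeval (ϱ g - 1) L` (`exists_log`), conjugation by `P` is an algebra map, the matrices with integer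
entries form a subring, and `M • L` has integer coefficients for some `M ≠ 0`
(`IsLocalization.integerNormalization`, or the product of the denominators), so `M • x` is integral;
`Submodule.span_induction` / `Submodule.span_subtype..` to pass to the subtype. `T'` = conjugation by
`ϱ γ⁻¹` (`nl_conj`, `LinearMap.restrict`). -/

namespace Vale.Agent.P188.PM

universe u

variable {G : Type u} [Group G] (T : Tri G)

/-- matrices with integer entries -/
noncomputable def Z_Latt (n : ℕ) : Subring (Mat n) :=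
  ((Int.castRingHom ℂ).mapMatrix : Matrix (Fin n) (Fin n) ℤ →+* Mat n).range

theorem mem_Z_Latt {n : ℕ} {A : Mat n} : A ∈ Z_Latt n ↔ ∀ a b, ∃ m : ℤ, A a b = m := by
  constructor
  · rintro ⟨B, rfl⟩ a b
    exact ⟨B a b, rfl⟩
  · intro h
    choose B hB using h
    exact ⟨Matrix.of B, Matrix.ext fun a b => (hB a b).symm⟩

theorem Tri.mul_Latt (x y : Mat T.n) : T.P * (x * y) * T.P' = T.P * x * T.P' * (T.P * y * T.P') := by
  have h : T.P' * T.P = 1 := mul_eq_one_comm.1 T.hP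
  calc T.P * (x * y) * T.P' = T.P * x * (T.P' * T.P) * y * T.P' := by
        rw [h]; simp only [mul_assoc, one_mul, mul_one]
    _ = _ := by simp only [mul_assoc]

theorem Tri.inj_Latt {x y : Mat T.n} (e : T.P * x * T.P' = T.P * y * T.P') : x = y := by
  have h : T.P' * T.P = 1 := mul_eq_one_comm.1 T.hP
  have k : ∀ x : Mat T.n, T.P' * (T.P * x * T.P') * T.P = x := fun x => by
    rw [mul_assoc, mul_assoc, h, mul_one, ← mul_assoc, h, one_mul]
  rw [← k x, e, k]

theorem Tri.int_Latt (g : G) : T.P * T.ϱ g * T.P' ∈ Z_Latt T.n := mem_Z_Latt.2 (T.int g)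

theorem Tri.pow_Latt (g : G) (i : ℕ) : T.P * (T.ϱ g - 1) ^ i * T.P' ∈ Z_Latt T.n := by
  induction i with
  | zero => rw [pow_zero, mul_one, T.hP]; exact Subring.one_mem _
  | succ i ih =>
    rw [pow_succ, T.mul_Latt, mul_sub, sub_mul, mul_one, T.hP]
    exact Subring.mul_mem _ ih (Subring.sub_mem _ (T.int_Latt g) (Subring.one_mem _))

theorem Tri.poly_Latt (g : G) (L : Polynomial ℚ) : ∃ M : ℕ, M ≠ 0 ∧
    T.P * (M • Polynomial.aeval (T.ϱ g - 1) L) * T.P' ∈ Z_Latt T.n := by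
  induction L using Polynomial.induction_on' with
  | add p q hp hq =>
    obtain ⟨M, hM, h⟩ := hp
    obtain ⟨M', hM', h'⟩ := hq
    refine ⟨M * M', mul_ne_zero hM hM', ?_⟩
    have h2 := Subring.add_mem _ (nsmul_mem h M') (nsmul_mem h' M)
    rw [map_add, smul_add, mul_add, add_mul]
    simpa only [mul_smul_comm, smul_mul_assoc, smul_smul, mul_comm M' M] using h2
  | monomial i a =>
    refine ⟨a.den, a.den_nz, ?_⟩
    have e : a.den • Polynomial.aeval (T.ϱ g - 1) (Polynomial.monomial i a) =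
        a.num • (T.ϱ g - 1) ^ i := by
      rw [Polynomial.aeval_monomial, ← Algebra.smul_def, ← Nat.cast_smul_eq_nsmul ℚ, smul_smul,
        Rat.den_mul_eq_num, Int.cast_smul_eq_zsmul]
    rw [e, mul_smul_comm, smul_mul_assoc]
    exact zsmul_mem (T.pow_Latt g i) _

/-- the coordinates -/
def Tri.th_Latt : Mat T.n →ₗ[ℝ] (Fin T.n × Fin T.n → ℂ) where
  toFun x := fun p => (T.P * x * T.P') p.1 p.2
  map_add' x y := by ext p; simp [mul_add, add_mul]
  map_smul' c x := by ext p; simp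

theorem Tri.th_iff_Latt (x : Mat T.n) :
    (∀ i, ∃ m : ℤ, T.th_Latt x i = m) ↔ T.P * x * T.P' ∈ Z_Latt T.n :=
  ⟨fun h => mem_Z_Latt.2 fun a b => h (a, b), fun h i => mem_Z_Latt.1 h i.1 i.2⟩

theorem Tri.conj_Latt (g h : G) {x : Mat T.n} (hx : ∀ i, ∃ m : ℤ, T.th_Latt x i = m) :
    ∀ i, ∃ m : ℤ, T.th_Latt (T.ϱ g * x * T.ϱ h) i = m := by
  rw [T.th_iff_Latt] at hx ⊢
  rw [T.mul_Latt, T.mul_Latt]
  exact Subring.mul_mem _ (Subring.mul_mem _ (T.int_Latt g) hx) (T.int_Latt h)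

theorem Tri.fin (R : ℝ) : {γ | ∀ a b, ‖T.ϱ γ a b‖ ≤ R}.Finite := by
  choose m hm using T.int
  have hinj : Function.Injective m := fun g h e =>
    T.inj (T.inj_Latt (Matrix.ext fun a b => by rw [hm, hm, e]))
  let B : Fin T.n → Fin T.n → ℤ := fun a b => ⌈∑ j, (∑ i, ‖T.P a i‖ * R) * ‖T.P' j b‖⌉
  have hfin : {M : Fin T.n → Fin T.n → ℤ |
      ∀ a, M a ∈ {v : Fin T.n → ℤ | ∀ b, v b ∈ Set.Icc (-B a b) (B a b)}}.Finite :=
    Set.Finite.pi' fun a => Set.Finite.pi' fun b => Set.finite_Icc _ _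
  refine (hfin.preimage hinj.injOn).subset fun γ hγ a b => ?_
  have h1 : ‖(T.P * T.ϱ γ * T.P') a b‖ ≤ ∑ j, (∑ i, ‖T.P a i‖ * R) * ‖T.P' j b‖ := by
    rw [Matrix.mul_apply]
    refine (norm_sum_le _ _).trans (Finset.sum_le_sum fun j _ => ?_)
    rw [norm_mul, Matrix.mul_apply]
    refine mul_le_mul_of_nonneg_right ((norm_sum_le _ _).trans (Finset.sum_le_sum fun i _ => ?_))
      (norm_nonneg _)
    rw [norm_mul]
    exact mul_le_mul_of_nonneg_left (hγ i j) (norm_nonneg _)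
  rw [hm, Complex.norm_intCast] at h1
  have h2 := h1.trans (Int.le_ceil _)
  exact abs_le.1 (by exact_mod_cast h2)

theorem Tri.uni (γ : G) (S : nl T.ϱ →ₗ[ℝ] nl T.ϱ)
    (hS : ∀ x, (S x : Mat T.n) = T.ϱ γ * x * T.ϱ γ⁻¹) : |LinearMap.det S| = 1 := by
  let S' : nl T.ϱ →ₗ[ℝ] nl T.ϱ :=
    ((LinearMap.mulRight ℝ (T.ϱ γ⁻¹⁻¹)).comp (LinearMap.mulLeft ℝ (T.ϱ γ⁻¹))).restrict
      fun x hx => nl_conj T.tri γ⁻¹ hx
  have hS' : ∀ x, (S' x : Mat T.n) = T.ϱ γ⁻¹ * x * T.ϱ γ⁻¹⁻¹ := fun x => rfl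
  refine det_lattice (T.th_Latt ∘ₗ (nl T.ϱ).subtype) (fun x y e => ?_) ?_ S S' (fun z => ?_)
    (fun z hz => ?_) fun z hz => ?_
  · exact Subtype.ext (T.inj_Latt (Matrix.ext fun a b => congrFun e (a, b)))
  · refine eq_top_iff.2 ?_
    rintro ⟨x, hx⟩ -
    induction hx using Submodule.span_induction with
    | mem x hx =>
      obtain ⟨hx1, g, e⟩ := id hx
      obtain ⟨L, hL, -⟩ := exists_log T.n
      obtain ⟨M, hM, h⟩ := T.poly_Latt g L
      rw [← e, hL x hx1, ← Nat.cast_smul_eq_nsmul ℝ] at h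
      refine (Submodule.smul_mem_iff _ (Nat.cast_ne_zero.2 hM : (M : ℝ) ≠ 0)).1 ?_
      exact Submodule.subset_span ((T.th_iff_Latt _).2 h)
    | zero => exact Submodule.zero_mem _
    | add x y hx hy h1 h2 => exact Submodule.add_mem _ h1 h2
    | smul c x hx h1 => exact Submodule.smul_mem _ c h1
  · refine Subtype.ext ?_
    rw [hS, hS', inv_inv, ← mul_assoc, ← mul_assoc, ← map_mul, mul_inv_cancel, map_one, one_mul,
      mul_assoc, ← map_mul, mul_inv_cancel, map_one, mul_one]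
  · rw [LinearMap.comp_apply, Submodule.subtype_apply, hS]
    exact T.conj_Latt _ _ hz
  · rw [LinearMap.comp_apply, Submodule.subtype_apply, hS']
    exact T.conj_Latt _ _ hz

end Vale.Agent.P188.PM
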