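import Vale.Agent.P188.M.LKM2

/-! P188 part M, file Malcev: a finite-index subgroup has nilpotent commutator subgroup.

PLAN. `malcev_step`: `V` = the complex vector space of functions `f : A → ℂ` with
`f (x * y) = f x + f y` (a `Submodule ℂ (A → ℂ)`), finite dimensional because `A` is finitely generated
(restriction to the generators is injective). `G` acts by `(ρ g f) x = f (g⁻¹ x g)`
(`MulAut.conjNormal g⁻¹`). `D` = elements of `A` killed by all `f ∈ V`; it is normal in `G`, and every
`e : A →* Multiplicative ℤ` gives an element of `V`. With `K`, `F`, `c` from `lkm_flag` put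
`Z i = {x ∈ A | ∀ f ∈ F i, f x = 0}` (a subgroup), `Z 0 = A`, `Z c = D`; for `n ∈ ⁅K, K⁆`, `x ∈ Z i`,
`f ∈ F (i + 1)`: `f (n x n⁻¹ x⁻¹) = (ρ n⁻¹ f - f) x = 0`. `malcev_aux`: induction on `m'`;
`PolyZ m' D` by `PolyZ.of_inj` into `e.ker`; intersect the two finite-index subgroups, monotonicity of
the iterates (`Subgroup.commutator_mono`), `Function.iterate_add_apply`. `malcev`: `A = ⊤`; the image of
`lowerCentralSeries (commutator K) j` in `G` lies in the `j`-th iterate
(`nilpotent_iff_lowerCentralSeries`, `Subgroup.map_commutator`). -/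

namespace Vale.Agent.P188.PM

universe u

/-- additive complex functions on a group -/
def addF_Malcev (A : Type*) [Group A] : Submodule ℂ (A → ℂ) where
  carrier := {f | ∀ x y, f (x * y) = f x + f y}
  zero_mem' := fun _ _ => by simp
  add_mem' := fun {f g} hf hg x y => by
    simp only [Pi.add_apply, hf x y, hg x y]
    ring
  smul_mem' := fun c f hf x y => by
    simp only [Pi.smul_apply, hf x y, smul_add]

theorem one_Malcev {A : Type*} [Group A] (f : addF_Malcev A) : f.1 1 = 0 := by
  have := f.2 1 1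
  rw [mul_one] at this
  linear_combination -this

theorem inv_Malcev {A : Type*} [Group A] (f : addF_Malcev A) (x : A) : f.1 x⁻¹ = -f.1 x := by
  have := f.2 x x⁻¹
  rw [mul_inv_cancel, one_Malcev] at this
  linear_combination -this

theorem fd_Malcev (A : Type*) [Group A] [Group.FG A] : FiniteDimensional ℂ (addF_Malcev A) := by
  obtain ⟨S, hS⟩ := Group.FG.out (G := A)
  let r : addF_Malcev A →ₗ[ℂ] (S → ℂ) :=
    { toFun := fun f s => f.1 s
      map_add' := fun _ _ => rfl
      map_smul' := fun _ _ => rfl }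
  refine Module.Finite.of_injective r ((injective_iff_map_eq_zero r).2 fun f hf => ?_)
  ext x
  have hx : x ∈ Subgroup.closure (S : Set A) := hS ▸ Subgroup.mem_top x
  change f.1 x = 0
  induction hx using Subgroup.closure_induction with
  | mem s hs => exact congrFun hf ⟨s, hs⟩
  | one => exact one_Malcev f
  | mul a b _ _ ha hb => rw [f.2, ha, hb, add_zero]
  | inv a _ ha => rw [inv_Malcev, ha, neg_zero]

/-- the conjugation action on additive functions -/
def rho_Malcev {G : Type*} [Group G] (A : Subgroup G) [A.Normal] :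
    G →* Module.End ℂ (addF_Malcev A) where
  toFun g :=
    { toFun := fun f => ⟨fun x => f.1 (MulAut.conjNormal g⁻¹ x), fun x y => by
        simp only [map_mul]; exact f.2 _ _⟩
      map_add' := fun _ _ => rfl
      map_smul' := fun _ _ => rfl }
  map_one' := by
    ext f x
    change f.1 (MulAut.conjNormal 1⁻¹ x) = f.1 x
    simp
  map_mul' g h := by
    ext f x
    change f.1 (MulAut.conjNormal (g * h)⁻¹ x) =
      f.1 (MulAut.conjNormal h⁻¹ (MulAut.conjNormal g⁻¹ x))
    rw [mul_inv_rev, map_mul, MulAut.mul_apply]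

theorem rho_apply_Malcev {G : Type*} [Group G] (A : Subgroup G) [hA : A.Normal] (g : G)
    (f : addF_Malcev A) (x : G) (hx : x ∈ A) :
    (rho_Malcev A g⁻¹ f).1 ⟨x, hx⟩ = f.1 ⟨g * x * g⁻¹, hA.conj_mem x hx g⟩ := by
  change f.1 (MulAut.conjNormal g⁻¹⁻¹ ⟨x, hx⟩) = _
  refine congrArg f.1 (Subtype.ext ?_)
  simp

theorem malcev_step {m : ℕ} {G : Type u} [Group G] (h : PolyZ m G) (A : Subgroup G) [A.Normal] :
    ∃ (D K : Subgroup G) (c : ℕ), D.Normal ∧ D ≤ A ∧ K.FiniteIndex ∧
      (∀ e : A →* Multiplicative ℤ, D.subgroupOf A ≤ e.ker) ∧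
      (fun X : Subgroup G => ⁅(⁅K, K⁆ : Subgroup G), X⁆)^[c] A ≤ D := by
  have hA : A.Normal := inferInstance
  have := (h.sub A).fg
  have := fd_Malcev A
  obtain ⟨K, hK, F, c, h0, hc, hF⟩ := lkm_flag h (rho_Malcev A)
  let Z : ℕ → Subgroup G := fun i =>
    { carrier := {x | ∃ hx : x ∈ A, ∀ f ∈ F i, f.1 ⟨x, hx⟩ = 0}
      one_mem' := ⟨A.one_mem, fun f _ => one_Malcev f⟩
      mul_mem' := by
        rintro a b ⟨ha, ha'⟩ ⟨hb, hb'⟩
        refine ⟨A.mul_mem ha hb, fun f hf => ?_⟩
        have := f.2 ⟨a, ha⟩ ⟨b, hb⟩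
        rw [ha' f hf, hb' f hf, add_zero] at this
        exact this
      inv_mem' := by
        rintro a ⟨ha, ha'⟩
        refine ⟨A.inv_mem ha, fun f hf => ?_⟩
        have := inv_Malcev f ⟨a, ha⟩
        rw [ha' f hf, neg_zero] at this
        exact this }
  have hZ : ∀ i x, x ∈ Z i ↔ ∃ hx : x ∈ A, ∀ f ∈ F i, f.1 ⟨x, hx⟩ = 0 := fun _ _ => Iff.rfl
  refine ⟨Z c, K, c, ⟨?_⟩, fun x hx => ((hZ c x).1 hx).1, hK, fun e x hx => ?_, ?_⟩
  · intro x hx g
    obtain ⟨hx, hx'⟩ := (hZ c x).1 hx
    refine (hZ c _).2 ⟨hA.conj_mem x hx g, fun f _ => ?_⟩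
    rw [← rho_apply_Malcev A g f x hx]
    exact hx' _ (hc ▸ Submodule.mem_top)
  · obtain ⟨_, hx'⟩ := (hZ c x).1 hx
    have := hx' ⟨fun y => ((Multiplicative.toAdd (e y) : ℤ) : ℂ), fun y z => by simp⟩
      (hc ▸ Submodule.mem_top)
    have h1 : ((Multiplicative.toAdd (e x) : ℤ) : ℂ) = 0 := this
    have h2 : Multiplicative.toAdd (e x) = 0 := by exact_mod_cast h1
    exact toAdd_eq_zero.1 h2
  · have key : ∀ i, (fun X : Subgroup G => ⁅(⁅K, K⁆ : Subgroup G), X⁆)^[i] A ≤ Z i := by
      intro i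
      induction i with
      | zero =>
        intro x hx
        refine (hZ 0 x).2 ⟨hx, fun f hf => ?_⟩
        rw [h0, Submodule.mem_bot] at hf
        rw [hf]
        rfl
      | succ i ih =>
        rw [Function.iterate_succ_apply', Subgroup.commutator_le]
        intro n hn x hx
        obtain ⟨hx, hx'⟩ := (hZ i x).1 (ih hx)
        refine (hZ _ _).2 ⟨A.mul_mem (hA.conj_mem x hx n) (A.inv_mem hx), fun f hf => ?_⟩
        have h1 := hx' _ (hF n⁻¹ (inv_mem hn) i f hf)
        have h2 := f.2 ⟨n * x * n⁻¹, hA.conj_mem x hx n⟩ ⟨x, hx⟩⁻¹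
        rw [inv_Malcev, ← rho_apply_Malcev A n f x hx] at h2
        refine h2.trans ?_
        rw [← sub_eq_add_neg]
        exact h1
    exact key c

theorem iter_mono_Malcev {G : Type*} [Group G] {N N' X X' : Subgroup G} (hN : N ≤ N')
    (hX : X ≤ X') (c : ℕ) :
    (fun X : Subgroup G => ⁅N, X⁆)^[c] X ≤ (fun X : Subgroup G => ⁅N', X⁆)^[c] X' := by
  induction c with
  | zero => exact hX
  | succ c ih =>
    rw [Function.iterate_succ_apply', Function.iterate_succ_apply']
    exact Subgroup.commutator_mono hN ih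

theorem malcev_aux {m : ℕ} {G : Type u} [Group G] (h : PolyZ m G) (m' : ℕ) (A : Subgroup G)
    [A.Normal] (hA : PolyZ m' A) : ∃ (K : Subgroup G) (c : ℕ), K.FiniteIndex ∧
      (fun X : Subgroup G => ⁅(⁅K, K⁆ : Subgroup G), X⁆)^[c] A = ⊥ := by
  induction m' generalizing A with
  | zero =>
    have : Subsingleton A := polyZ_zero.1 hA
    exact ⟨⊤, 0, inferInstance, Subgroup.eq_bot_of_subsingleton A⟩
  | succ m' ih =>
    obtain ⟨e, he⟩ := polyZ_succ.1 hA
    obtain ⟨D, K, c, hD, hDA, hK, hDe, hc⟩ := malcev_step h A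
    have hD' : PolyZ m' D := he.of_inj
      ((Subgroup.inclusion hDA).codRestrict e.ker fun x => hDe e x.2) fun x y hxy => by
        have := congrArg (fun z : e.ker => ((z : A) : G)) hxy
        exact Subtype.ext this
    obtain ⟨K', c', hK', hc'⟩ := ih D hD'
    refine ⟨K ⊓ K', c' + c, inferInstance, eq_bot_iff.2 ?_⟩
    rw [Function.iterate_add_apply, ← hc']
    exact iter_mono_Malcev (Subgroup.commutator_mono inf_le_right inf_le_right)
      ((iter_mono_Malcev (Subgroup.commutator_mono inf_le_left inf_le_left) le_rfl c).trans hc) c'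

theorem malcev {m : ℕ} {G : Type u} [Group G] (h : PolyZ m G) :
    ∃ K : Subgroup G, K.FiniteIndex ∧ Group.IsNilpotent (commutator K) := by
  obtain ⟨K, c, hK, hc⟩ := malcev_aux h m ⊤ (h.sub ⊤)
  refine ⟨K, hK, Subgroup.nilpotent_iff_lowerCentralSeries.2 ⟨c, ?_⟩⟩
  let f : commutator K →* G := K.subtype.comp (commutator K).subtype
  have hf : Function.Injective f := K.subtype_injective.comp (commutator K).subtype_injective
  have h1 : (⊤ : Subgroup (commutator K)).map f ≤ ⁅K, K⁆ := by
    rintro _ ⟨x, -, rfl⟩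
    rw [← Subgroup.map_subtype_commutator]
    exact ⟨x, x.2, rfl⟩
  have key : ∀ j, ((⊤ : Subgroup (commutator K)).lowerCentralSeries j).map f ≤
      (fun X : Subgroup G => ⁅(⁅K, K⁆ : Subgroup G), X⁆)^[j] ⊤ := by
    intro j
    induction j with
    | zero => exact le_top
    | succ j ih =>
      rw [Function.iterate_succ_apply', Subgroup.lowerCentralSeries_succ, Subgroup.map_commutator,
        Subgroup.commutator_comm]
      exact Subgroup.commutator_mono h1 ih
  exact (Subgroup.map_eq_bot_iff_of_injective _ hf).1 (eq_bot_iff.2 (hc ▸ key c))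

end Vale.Agent.P188.PM
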