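import Vale.Agent.P188.M.Build
import Vale.Agent.P188.M.Cofin

/-! P188 part M, file Swan2: the step above the nilpotent normal subgroup.

PLAN. `R = ℤ[H]`, `H = e.ker`, `φ = MonoidAlgebra.lift ρ`, `J = ker φ`, `n0 = span {of h - 1 | h ∈ N}`,
`nn = ⊤ * n0`; normality gives `n0 * ⊤ ≤ nn` (`(of h - 1) * of g = of g * (of (g⁻¹ h g) - 1)`), so `nn` and
`L = J ⊔ nn` are two-sided ideals, `nn ^ c ≤ ⊤ * n0 ^ c ≤ J` (`span_pow_le`), `L ^ c ≤ J ⊔ nn ^ c`.
`F w = ⊤ * L ^ w` (or `F 0 = ⊤`, `F (w + 1) = L ^ (w + 1)`; note `L ^ 0 = 1` is not `⊤`).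
`cj g x - x ∈ nn` for all `x` (`cj g (of h) - of h = (of ⁅g, h⁆ - 1) * of h`), so `cj g` preserves `L` and
its powers (`Submodule.map_pow`, `Submodule.map_mul`). `cof_ker`, `Cof.mono`, `cof_pow`.
In `hN`, `h * t ^ j ∈ N ≤ e.ker` forces `j = 0`. -/

namespace Vale.Agent.P188.PM

open MonoidAlgebra

/-- the filtration by the powers of `L` -/
noncomputable def fil_Swan2 {R : Type*} [Ring R] (L : Submodule ℤ R) : ℕ → Submodule ℤ R
  | 0 => ⊤
  | w + 1 => L * fil_Swan2 L w

theorem pow_comm_Swan2 {R : Type*} [Ring R] {n0 : Submodule ℤ R} (h : ⊤ * n0 ≤ n0 * ⊤) (w : ℕ) :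
    ⊤ * n0 ^ w ≤ n0 ^ w * ⊤ := by
  induction w with
  | zero => rw [pow_zero, mul_one, one_mul]
  | succ w ih =>
    rw [pow_succ, ← mul_assoc, mul_assoc _ n0]
    exact (mul_le_mul_left ih _).trans ((mul_assoc _ _ _).trans_le (mul_le_mul_right h _))

theorem fil_le_Swan2 {R : Type*} [Ring R] {n0 J : Submodule ℤ R} (h : ⊤ * n0 ≤ n0 * ⊤)
    (hl : ⊤ * J ≤ J) (hr : J * ⊤ ≤ J) (w : ℕ) :
    fil_Swan2 (J ⊔ n0 * ⊤) w ≤ J ⊔ n0 ^ w * ⊤ := by
  induction w with
  | zero =>
    rw [pow_zero, one_mul]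
    exact le_sup_right
  | succ w ih =>
    rw [fil_Swan2, Submodule.sup_mul]
    refine sup_le (((mul_le_mul_right le_top _).trans hr).trans le_sup_left)
      ((mul_le_mul_right ih _).trans ?_)
    rw [Submodule.mul_sup]
    refine sup_le_sup ((mul_le_mul_left le_top _).trans hl) ?_
    rw [pow_succ', mul_assoc, mul_assoc, ← mul_assoc ⊤]
    refine mul_le_mul_right ((mul_le_mul_left (pow_comm_Swan2 h w) _).trans ?_) _
    rw [mul_assoc]
    exact mul_le_mul_right le_top _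

theorem comm_Swan2 {H : Type*} [Group H] (N : Subgroup H) [hN : N.Normal] :
    ⊤ * Submodule.span ℤ {y | ∃ h ∈ N, y = of ℤ H h - 1} ≤
      Submodule.span ℤ {y | ∃ h ∈ N, y = of ℤ H h - 1} * ⊤ := by
  refine Submodule.mul_le.2 fun r hr z hz => ?_
  clear hr
  induction hz using Submodule.span_induction with
  | mem z hz =>
    obtain ⟨h, hh, rfl⟩ := hz
    induction r using MonoidAlgebra.induction_on with
    | of g =>
      have e : of ℤ H g * (of ℤ H h - 1) = (of ℤ H (g * h * g⁻¹) - 1) * of ℤ H g := by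
        rw [mul_sub, sub_mul, ← map_mul, ← map_mul, inv_mul_cancel_right, mul_one, one_mul]
      rw [e]
      exact Submodule.mul_mem_mul (Submodule.subset_span ⟨_, hN.conj_mem h hh g, rfl⟩) trivial
    | add a b ha hb =>
      rw [add_mul]
      exact add_mem ha hb
    | smul k a ha =>
      rw [smul_mul_assoc]
      exact Submodule.smul_mem _ _ ha
  | zero => simp
  | add a b _ _ ha hb =>
    rw [mul_add]
    exact add_mem ha hb
  | smul k a _ ha =>
    rw [mul_smul_comm]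
    exact Submodule.smul_mem _ _ ha

theorem swan2 {G : Type*} [Group G] (e : G →* Multiplicative ℤ) (t : G)
    (ht : e t = Multiplicative.ofAdd 1) [Group.FG e.ker] (N : Subgroup G) [N.Normal]
    (hN : N ≤ e.ker) (hc : ∀ x y : G, x * y * x⁻¹ * y⁻¹ ∈ N)
    (h : Lin e.ker (N.subgroupOf e.ker)) : Lin G N := by
  obtain ⟨n, c, ρ, hρ, hu⟩ := h
  have : @Algebra.FiniteType ℤ (MonoidAlgebra ℤ e.ker) _ _ (Ring.toIntAlgebra _) := by
    rw [Subsingleton.elim (Ring.toIntAlgebra _) MonoidAlgebra.algebra]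
    exact MonoidAlgebra.finiteType_of_fg (R := ℤ) (M := e.ker)
  set n0 := Submodule.span ℤ {y | ∃ h ∈ N.subgroupOf e.ker, y = of ℤ e.ker h - 1} with hn0
  have h1 : ⊤ * n0 ≤ n0 * ⊤ := comm_Swan2 _
  set φ := lift ℤ (Matrix (Fin n) (Fin n) ℤ) e.ker ρ with hφ
  set J := LinearMap.ker φ.toLinearMap with hJ
  have mJ : ∀ x, x ∈ J ↔ φ x = 0 := fun x => Iff.rfl
  have jl : ⊤ * J ≤ J := Submodule.mul_le.2 fun r _ x hx => by
    rw [mJ, map_mul, (mJ x).1 hx, mul_zero]
  have jr : J * ⊤ ≤ J := Submodule.mul_le.2 fun x hx r _ => by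
    rw [mJ, map_mul, (mJ x).1 hx, zero_mul]
  have nr : n0 * ⊤ * ⊤ ≤ n0 * ⊤ := (mul_assoc _ _ _).trans_le (mul_le_mul_right le_top _)
  have ll : ∀ r, ∀ x ∈ J ⊔ n0 * ⊤, r * x ∈ J ⊔ n0 * ⊤ := fun r x hx => by
    refine (?_ : ⊤ * (J ⊔ n0 * ⊤) ≤ _) (Submodule.mul_mem_mul trivial hx)
    rw [Submodule.mul_sup, ← mul_assoc]
    exact sup_le_sup jl ((mul_le_mul_left h1 _).trans nr)
  have lr : ∀ r, ∀ x ∈ J ⊔ n0 * ⊤, x * r ∈ J ⊔ n0 * ⊤ := fun r x hx => by
    refine (?_ : (J ⊔ n0 * ⊤) * ⊤ ≤ _) (Submodule.mul_mem_mul hx trivial)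
    rw [Submodule.sup_mul]
    exact sup_le_sup jr nr
  have hcj : ∀ (g : G) x, cj e.ker g x - x ∈ n0 * ⊤ := fun g x => by
    induction x using MonoidAlgebra.induction_on with
    | of h =>
      have e1 : cj e.ker g (of ℤ e.ker h) - of ℤ e.ker h =
          (of ℤ e.ker (MulAut.conjNormal g h * h⁻¹) - 1) * of ℤ e.ker h := by
        rw [cj_of, sub_mul, ← map_mul, inv_mul_cancel_right, one_mul]
      rw [e1]
      exact Submodule.mul_mem_mul (Submodule.subset_span ⟨_, hc g h, rfl⟩) trivial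
    | add a b ha hb =>
      rw [map_add, add_sub_add_comm]
      exact add_mem ha hb
    | smul k a ha =>
      rw [map_smul, ← smul_sub]
      exact Submodule.smul_mem _ _ ha
  have hL : Cof (J ⊔ n0 * ⊤) := (cof_ker φ.toLinearMap).mono le_sup_left
  refine swan_build e t ht ρ hρ (fil_Swan2 (J ⊔ n0 * ⊤)) c rfl (fun w => ?_) (fun w h x hx => ?_)
    (fun w g => ?_) (fun w => ?_) (fun x hx => ?_) N fun h j hj w x hx => ?_
  · induction w with
    | zero => exact le_top
    | succ w ih => exact mul_le_mul_right ih _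
  · cases w with
    | zero => trivial
    | succ w =>
      refine Submodule.mul_induction_on hx (fun l hl y hy => ?_) fun a b ha hb => ?_
      · rw [← mul_assoc]
        exact Submodule.mul_mem_mul (ll _ l hl) hy
      · rw [mul_add]
        exact add_mem ha hb
  · induction w with
    | zero => exact fun _ _ => trivial
    | succ w ih =>
      refine fun x hx => Submodule.mul_induction_on hx (fun l hl y hy => ?_) fun a b ha hb => ?_
      · rw [map_mul, ← sub_add_cancel (cj e.ker g l) l]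
        exact Submodule.mul_mem_mul (add_mem (Submodule.mem_sup_right (hcj g l)) hl) (ih y hy)
      · rw [map_add]
        exact add_mem ha hb
  · have h2 : ∀ w, (J ⊔ n0 * ⊤) ^ w ≤ fil_Swan2 (J ⊔ n0 * ⊤) w := fun w => by
      induction w with
      | zero => exact le_top
      | succ w ih => exact (pow_succ' _ _).trans_le (mul_le_mul_right ih _)
    cases w with
    | zero => exact hL.mono le_top
    | succ w => exact (cof_pow _ ll lr hL w).mono (h2 _)
  · refine (mJ x).1 (sup_le le_rfl (le_trans (mul_le_mul_left ?_ _) jr)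
      (fil_le_Swan2 h1 jl jr c hx))
    exact fun y hy => span_pow_le ρ _ c hu hy
  · have h2 : j = 0 := by
      have h3 : e (h * t ^ j) = 1 := hN hj
      rw [map_mul, show e h = 1 from h.2, one_mul, map_zpow, ht, ← ofAdd_zsmul, smul_eq_mul,
        mul_one] at h3
      exact h3
    subst h2
    rw [zpow_zero, mul_one] at hj
    have h3 : cj e.ker (t ^ (0 : ℤ)) = AlgHom.id ℤ _ :=
      MonoidAlgebra.algHom_ext (fun a => (cj_of e.ker _ a).trans (by simp)) (Subsingleton.elim _ _)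
    rw [h3, AlgHom.id_apply, ← sub_one_mul, ← mul_one (_ - 1)]
    exact Submodule.mul_mem_mul (Submodule.mem_sup_right
      (Submodule.mul_mem_mul (Submodule.subset_span ⟨h, hj, rfl⟩) trivial)) hx

end Vale.Agent.P188.PM
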