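import Vale.Agent.P188.M.Swan1
import Vale.Agent.P188.M.Swan2
import Vale.Agent.P188.M.Malcev
import Vale.Agent.P188.M.Gen

/-! P188 part M, file Lin: poly-`ℤ` groups are virtually integral linear (Auslander-Swan).

PLAN. `lin_nilp`: induction on `m` (trivial group: `n = 0`); `norm_e`; if the kernel is `⊤` use
`Lin.of_inj` with `G →* e.ker`; else `swan1` (`PolyZ.of_inj`, `PolyZ.fg`; subgroups of nilpotent groups
are nilpotent). `lin_ab`: induction on `k` generalizing `G`; `k = 0`: `π.ker = ⊤`. Step: `e` = last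
coordinate of `π`, `π'` = the other coordinates on `e.ker`, `π'.ker = π.ker.subgroupOf e.ker`, which is
isomorphic to `π.ker`; `norm_e`, `swan2`. `exists_lin`: `malcev`, `exists_pi` for `K` and
`commutator K`, then `π.ker` embeds in `commutator K`, `lin_nilp`, `lin_ab`. -/

namespace Vale.Agent.P188.PM

universe u

theorem Lin.of_inj {G H : Type*} [Group G] [Group H] {N : Subgroup G} (h : Lin G N) (f : H →* G)
    (hf : Function.Injective f) {N' : Subgroup H} (hN : ∀ x ∈ N', f x ∈ N) : Lin H N' := by
  obtain ⟨n, c, ρ, hρ, hc⟩ := h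
  refine ⟨n, c, ρ.comp f, hρ.comp hf, fun l hl hlen => ?_⟩
  have h1 := hc (l.map f) (fun x hx => by
    obtain ⟨y, hy, rfl⟩ := List.mem_map.1 hx
    exact hN y (hl y hy)) (by rwa [List.length_map])
  rw [List.map_map] at h1
  exact h1

theorem of_top_Lin {G : Type*} [Group G] {H N : Subgroup G} {N' : Subgroup H} (hH : H = ⊤)
    (h : Lin H N') (hN : ∀ x ∈ N, ∀ hx : x ∈ H, (⟨x, hx⟩ : H) ∈ N') : Lin G N :=
  h.of_inj ((MonoidHom.id G).codRestrict H fun _ => hH ▸ Subgroup.mem_top _)
    (fun _ _ hxy => congrArg Subtype.val hxy) fun x hx => hN x hx _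

theorem lin_nilp {m : ℕ} {G : Type u} [Group G] (h : PolyZ m G) [Group.IsNilpotent G] :
    Lin G ⊤ := by
  induction m generalizing G with
  | zero =>
    have : Subsingleton G := h
    exact ⟨0, 0, 1, fun _ _ _ => Subsingleton.elim _ _, fun _ _ _ => Subsingleton.elim _ _⟩
  | succ m ih =>
    obtain ⟨e, he⟩ := polyZ_succ.1 h
    rcases norm_e e with h1 | ⟨e', t, h1, ht⟩
    · exact of_top_Lin h1 (ih he) fun _ _ _ => trivial
    · have h2 : PolyZ m e'.ker :=
        he.of_inj (Subgroup.inclusion h1.le) (Subgroup.inclusion_injective _)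
      have := h2.fg
      exact swan1 e' t ht (ih h2)

theorem lin_ab (k : ℕ) {m : ℕ} {G : Type u} [Group G] (h : PolyZ m G)
    (π : G →* Multiplicative (Fin k → ℤ)) (hN : Lin π.ker ⊤) : Lin G π.ker := by
  induction k generalizing G with
  | zero =>
    exact of_top_Lin (eq_top_iff.2 fun _ _ => MonoidHom.mem_ker.2 (Subsingleton.elim _ _)) hN
      fun _ _ _ => trivial
  | succ k ih =>
    let e : G →* Multiplicative ℤ := MonoidHom.mk' (fun g => Multiplicative.ofAdd ((π g).toAdd 0))
      fun x y => by rw [map_mul, toAdd_mul, Pi.add_apply, ofAdd_add]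
    let π0 : G →* Multiplicative (Fin k → ℤ) :=
      MonoidHom.mk' (fun g => Multiplicative.ofAdd fun i => (π g).toAdd i.succ) fun x y => by
        rw [map_mul, toAdd_mul, ← ofAdd_add]
        rfl
    have hle : π.ker ≤ e.ker := fun x hx => by
      change Multiplicative.ofAdd ((π x).toAdd 0) = 1
      rw [MonoidHom.mem_ker.1 hx]
      rfl
    have key : ∀ H : Subgroup G, H = e.ker → Lin H (π.ker.subgroupOf H) := by
      rintro H rfl
      have hk : (π0.comp e.ker.subtype).ker = π.ker.subgroupOf e.ker := by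
        ext x
        constructor
        · intro hx
          have h0 : (π x).toAdd 0 = 0 := x.2
          have h1 : (fun i : Fin k => (π x).toAdd i.succ) = 0 := hx
          refine MonoidHom.mem_ker.2 (Multiplicative.toAdd.injective (funext fun i => ?_))
          exact Fin.cases h0 (fun i => congrFun h1 i) i
        · intro hx
          have h1 : π x = 1 := hx
          change (Multiplicative.ofAdd fun i : Fin k => (π x).toAdd i.succ) = 1
          rw [h1]
          rfl
      rw [← hk]
      refine ih (h.sub _) _ (hN.of_inj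
        ((e.ker.subtype.comp (π0.comp e.ker.subtype).ker.subtype).codRestrict π.ker fun x => ?_)
        (fun x y hxy => Subtype.ext (Subtype.ext (congrArg (fun z : π.ker => (z : G)) hxy)))
        fun _ _ => trivial)
      exact hk.le x.2
    rcases norm_e e with h1 | ⟨e', t, h1, ht⟩
    · exact of_top_Lin h1 (key _ rfl) fun _ hx _ => hx
    · have := (h.sub e'.ker).fg
      refine swan2 e' t ht π.ker (hle.trans h1.ge) (fun x y => ?_) (key _ h1)
      rw [MonoidHom.mem_ker, map_mul, map_mul, map_mul, map_inv, map_inv, mul_comm (π x) (π y),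
        mul_inv_cancel_right, mul_inv_cancel]

theorem exists_lin {m : ℕ} {G : Type u} [Group G] (h : PolyZ m G) :
    ∃ K : Subgroup G, K.FiniteIndex ∧ ∃ K' : Subgroup K, K'.FiniteIndex ∧
      ∃ (n : ℕ) (ρ : K' →* Matrix (Fin n) (Fin n) ℤ), Function.Injective ρ := by
  obtain ⟨K, hK, hnil⟩ := malcev h
  have := (h.sub K).fg
  obtain ⟨K', k, π, hK', -, -, hπ⟩ := exists_pi (commutator K) fun x y =>
    Subgroup.commutator_mem_commutator (Subgroup.mem_top x) (Subgroup.mem_top y)
  have h1 : Lin (commutator K) ⊤ := lin_nilp ((h.sub K).sub (commutator K))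
  have h2 : Lin π.ker ⊤ := h1.of_inj
    ((K'.subtype.comp π.ker.subtype).codRestrict (commutator K) fun x => (hπ x).1 x.2)
    (fun x y hxy => Subtype.ext (Subtype.ext (congrArg (fun z : commutator K => (z : K)) hxy)))
    fun _ _ => trivial
  obtain ⟨n, -, ρ, hρ, -⟩ := lin_ab k ((h.sub K).sub K') π h2
  exact ⟨K, hK, K', hK', n, ρ, hρ⟩

end Vale.Agent.P188.PM
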