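import Vale.Agent.P188.Geo
import Vale.Agent.P188.M.GDefs

/-! P188 part M: matrix definitions (finished file, do not change). -/

namespace Vale.Agent.P188.PM

open IsNilpotent (exp)
open scoped InnerProductSpace

universe u

/-- a multiplicative filtration with `F c = 0` -/
structure Filt {A : Type*} [Ring A] [Algebra ℚ A] (F : ℕ → Submodule ℚ A) (c : ℕ) : Prop where
  one : (1 : A) ∈ F 0
  mul : ∀ {i j : ℕ} {x y : A}, x ∈ F i → y ∈ F j → x * y ∈ F (i + j)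
  anti : ∀ j, F (j + 1) ≤ F j
  bot : ∀ x ∈ F c, x = 0

/-- the inner derivation -/
def ad {A : Type*} [Ring A] [Algebra ℚ A] (x : A) : Module.End ℚ A :=
  LinearMap.mulLeft ℚ x - LinearMap.mulRight ℚ x

theorem ad_apply {A : Type*} [Ring A] [Algebra ℚ A] (x y : A) : ad x y = x * y - y * x := rfl

/-- complex matrices -/
abbrev Mat (n : ℕ) := Matrix (Fin n) (Fin n) ℂ

/-- the superdiagonal filtration: `Fl n 0` upper triangular, `Fl n 1` strictly upper triangular -/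
def Fl (n j : ℕ) : Submodule ℝ (Mat n) where
  carrier := {x | ∀ a b : Fin n, b.val < a.val + j → x a b = 0}
  add_mem' := fun {x y} hx hy a b h => by rw [Matrix.add_apply, hx a b h, hy a b h, add_zero]
  zero_mem' := fun _ _ _ => rfl
  smul_mem' := fun c x hx a b h => by rw [Matrix.smul_apply, hx a b h, smul_zero]

theorem mem_Fl {n j : ℕ} {x : Mat n} :
    x ∈ Fl n j ↔ ∀ a b : Fin n, b.val < a.val + j → x a b = 0 := Iff.rfl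

/-- the commutator, as a real bilinear map -/
noncomputable def cm (n : ℕ) : Mat n →ₗ[ℝ] Mat n →ₗ[ℝ] Mat n :=
  LinearMap.mul ℝ (Mat n) - (LinearMap.mul ℝ (Mat n)).flip

theorem cm_apply {n : ℕ} (x y : Mat n) : cm n x y = x * y - y * x := rfl

/-- entrywise multiplication -/
def hd {n : ℕ} (φ : Fin n → Fin n → ℂ) : Mat n →ₗ[ℝ] Mat n where
  toFun x := Matrix.of fun a b => φ a b * x a b
  map_add' x y := by ext a b; simp [mul_add]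
  map_smul' c x := by ext a b; simp [mul_left_comm]

theorem hd_apply {n : ℕ} (φ : Fin n → Fin n → ℂ) (x : Mat n) (a b : Fin n) :
    hd φ x a b = φ a b * x a b := rfl

/-- `x` is block diagonal for the partition given by `q` -/
def Sp {n : ℕ} {β : Type*} (q : Fin n → β) (x : Mat n) : Prop := ∀ a b, q a ≠ q b → x a b = 0

open Classical in
/-- the block diagonal part -/
noncomputable def mk {n : ℕ} {β : Type*} (q : Fin n → β) : Mat n →ₗ[ℝ] Mat n :=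
  hd fun a b => if q a = q b then 1 else 0

/-- the real span of the logarithms of the unipotent elements -/
noncomputable def nl {G : Type*} [Group G] {n : ℕ} (ϱ : G →* Mat n) : Submodule ℝ (Mat n) :=
  Submodule.span ℝ {x | x ∈ Fl n 1 ∧ ∃ g, exp x = ϱ g}

/-- a triangular, integral, adapted representation -/
structure Tri (G : Type u) [Group G] where
  n : ℕ
  k : ℕ
  ϱ : G →* Mat n
  P : Mat n
  P' : Mat n
  π : G →* Multiplicative (Fin k → ℤ)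
  gen : Fin k → G
  γ0 : G
  pz : ∃ m, PolyZ m G
  tri : ∀ g, ϱ g ∈ Fl n 0
  inj : Function.Injective ϱ
  hP : P * P' = 1
  int : ∀ g a b, ∃ m : ℤ, (P * ϱ g * P') a b = m
  π_gen : ∀ l, π (gen l) = Multiplicative.ofAdd (Pi.single l 1)
  ker : ∀ g, π g = 1 ↔ ∀ a, ϱ g a a = 1
  gener : ∀ a b, ϱ γ0 a a = ϱ γ0 b b → ∀ g, ϱ g a a = ϱ g b b
  adapt : Sp (fun a => ϱ γ0 a a) (ϱ γ0)

/-- the diagonal characters -/
def Tri.q {G : Type u} [Group G] (T : Tri G) (a : Fin T.n) : G → ℂ := fun g => T.ϱ g a a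

/-- the matrix of the element `(x, v)` of the model group -/
noncomputable def psi {n k : ℕ} (μ : Fin n → Eu k) (y : Eu k →ₗ[ℝ] Mat n) (x : Mat n)
    (v : Eu k) : Mat n :=
  exp (x + y v) * Matrix.diagonal fun a => ((Real.exp ⟪μ a, v⟫_ℝ : ℝ) : ℂ)

/-- the split matrix model of `Γ` -/
structure Mod (Γ : Type u) [Group Γ] where
  n : ℕ
  k : ℕ
  ϱ : Γ →* Mat n
  ht : Γ → Eu k
  μ : Fin n → Eu k
  κ : Γ → Fin n → ℂ
  W : Submodule ℝ (Mat n)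
  y : Eu k →ₗ[ℝ] Mat n
  W_le : W ≤ Fl n 1
  y_mem : ∀ v, y v ∈ Fl n 1
  lie : ∀ x ∈ W, ∀ x' ∈ W, ∀ v v', cm n (x + y v) (x' + y v') ∈ W
  y_μ : ∀ v, Sp μ (y v)
  y_κ : ∀ γ v, Sp (κ γ) (y v)
  W_μ : ∀ φ : Eu k → ℝ, ∀ x ∈ W, hd (fun a b => (φ (μ a - μ b) : ℂ)) x ∈ W
  W_κ : ∀ γ, ∀ x ∈ W, hd (fun a b => κ γ a / κ γ b) x ∈ W
  W_ϱ : ∀ γ, ∀ x ∈ W, ϱ γ * x * ϱ γ⁻¹ ∈ W
  κ_mul : ∀ γ γ' a, κ (γ * γ') a = κ γ a * κ γ' a
  κ_norm : ∀ γ a, ‖κ γ a‖ = 1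
  ht_mul : ∀ γ γ', ht (γ * γ') = ht γ + ht γ'
  dec : ∀ γ, ∃ x ∈ W, ϱ γ = psi μ y x (ht γ) * Matrix.diagonal (κ γ)
  fin : ∀ R : ℝ, {γ | ∀ a b, ‖ϱ γ a b‖ ≤ R}.Finite
  ht_cob : ∃ R : ℝ, ∀ v, ∃ γ, ‖v - ht γ‖ ≤ R
  cob : ∃ K : Set (Mat n), IsCompact K ∧ K ⊆ W ∧ ∀ x ∈ W, ∃ γ, ht γ = 0 ∧ (∀ a, κ γ a = 1) ∧
    ∃ b ∈ K, exp x = ϱ γ * exp b
  uni : ∀ γ (T : W →ₗ[ℝ] W), (∀ x, (T x : Mat n) = ϱ γ * x * ϱ γ⁻¹) → |LinearMap.det T| = 1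

/-- orthonormal coordinates by weight vectors on `W × Eu k` -/
structure Crd {Γ : Type u} [Group Γ] (D : Mod Γ) where
  d : ℕ
  pr : Eu d →ₗ[ℝ] Mat D.n
  a0 : Eu d →ₗ[ℝ] Eu D.k
  w : Fin d → Eu D.k
  pr_mem : ∀ z, pr z ∈ D.W
  surj : ∀ x ∈ D.W, ∀ v, ∃ z, pr z = x ∧ a0 z = v
  norm : ∀ z, ‖z‖ ^ 2 = ∑ a, ∑ b, ‖pr z a b‖ ^ 2 + ‖a0 z‖ ^ 2
  pr_wt : ∀ i a b, pr (EuclideanSpace.single i 1) a b ≠ 0 → D.μ a - D.μ b = w i
  a0_wt : ∀ i, w i ≠ 0 → a0 (EuclideanSpace.single i 1) = 0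

/-- the element of the nilshadow -/
noncomputable def Crd.j {Γ : Type u} [Group Γ] {D : Mod Γ} (C : Crd D) : Eu C.d →ₗ[ℝ] Mat D.n :=
  C.pr + D.y ∘ₗ C.a0

theorem Crd.j_apply {Γ : Type u} [Group Γ] {D : Mod Γ} (C : Crd D) (z : Eu C.d) :
    C.j z = C.pr z + D.y (C.a0 z) := rfl

/-- the model group `M` realises the matrix model -/
structure Rz {Γ : Type u} [Group Γ] (D : Mod Γ) (M : Geo) where
  pr : M.G →ₗ[ℝ] Mat D.n
  a0 : M.G →ₗ[ℝ] Eu D.k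
  pr_mem : ∀ z, pr z ∈ D.W
  surj : ∀ x ∈ D.W, ∀ v, ∃ z, pr z = x ∧ a0 z = v
  norm : ∀ z, ‖z‖ ^ 2 = ∑ a, ∑ b, ‖pr z a b‖ ^ 2 + ‖a0 z‖ ^ 2
  a0_mul : ∀ z z', a0 (z * z') = a0 z + a0 z'
  psi_mul : ∀ z z', psi D.μ D.y (pr (z * z')) (a0 (z * z')) =
    psi D.μ D.y (pr z) (a0 z) * psi D.μ D.y (pr z') (a0 z')

/-- the action of `Γ` on the model group: `z ↦ α γ * κ γ z` -/
structure Act {Γ : Type u} [Group Γ] {D : Mod Γ} {M : Geo} (R : Rz D M) where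
  α : Γ → M.G
  κ : Γ → M.G ≃* M.G
  norm_κ : ∀ γ z, ‖κ γ z‖ = ‖z‖
  a0_κ : ∀ γ z, R.a0 (κ γ z) = R.a0 z
  coc : ∀ γ γ', α (γ * γ') = α γ * κ γ (α γ')
  a0_α : ∀ γ, R.a0 (α γ) = D.ht γ
  psi_α : ∀ γ, D.ϱ γ = psi D.μ D.y (R.pr (α γ)) (D.ht γ) * Matrix.diagonal (D.κ γ)

end Vale.Agent.P188.PM
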