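import Vale.Agent.P188.M.OB
import Vale.Agent.P188.M.Det
import Vale.Agent.P188.M.Fil2

/-! P188 part M, file Uni: the weights add up to zero.

PLAN. Fix `γ`, `v = ht γ`, `ϱ γ = exp X * diagonal (exp ⟪μ a, v⟫) * diagonal (κ γ)`, `X = x + y v` (`D.dec`). On `W`
conjugation by `ϱ γ` is `S1 ∘ S2 ∘ S3` with `S1` conjugation by `exp X` (`conj_mem`, `D.lie` with `v' = 0`),
`S2 = hd (exp ⟪μ a - μ b, v⟫)` (`D.W_μ`), `S3 = hd (κ a / κ b)` (`diag_conj`; the inverse matrix is determined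
by `ϱ γ * ϱ γ⁻¹ = 1`). `det S1 = 1`: `(S1 - 1) ^ j` maps `W` into `Fl n j` (`conj_sub_mem`), `det_unip`.
`det S2 = ∏ exp ⟪w i, v⟫`: `Crd.lift`, `Crd.diag`, `Crd.ext`, `det_diag`. `|det S3| = 1`: `Crd.lift`, `C.norm`,
`det_iso`. So `⟪∑ w i, ht γ⟫ = 0` for all `γ`; by `ht_cob` the functional `⟪∑ w i, ·⟫` is bounded. -/

namespace Vale.Agent.P188.PM

open IsNilpotent (exp)
open scoped InnerProductSpace

universe u

theorem inner_ht_Uni {Γ : Type u} [Group Γ] {D : Mod Γ} (C : Crd D) (γ : Γ) :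
    ⟪∑ i, C.w i, D.ht γ⟫_ℝ = 0 := by
  obtain ⟨x, hx, e⟩ := D.dec γ
  set v := D.ht γ
  have hX : x + D.y v ∈ Fl D.n 1 := (Fl D.n 1).add_mem (D.W_le hx) (D.y_mem v)
  set X := x + D.y v with hXd
  have hW : D.W ≤ Fl D.n 0 := D.W_le.trans (Fl_le (Nat.zero_le 1))
  have κ0 : ∀ a, D.κ γ a ≠ 0 := fun a h => by simpa [h] using D.κ_norm γ a
  let φ : Eu D.k → ℝ := fun t => Real.exp ⟪t, v⟫_ℝ
  have φ0 : ∀ t, ((φ t : ℝ) : ℂ) ≠ 0 := fun t => Complex.ofReal_ne_zero.2 (Real.exp_ne_zero _)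
  have hinv : D.ϱ γ⁻¹ = Matrix.diagonal (fun a => (D.κ γ a)⁻¹) *
      (Matrix.diagonal (fun a => ((φ (D.μ a) : ℝ) : ℂ)⁻¹) * exp (-X)) := by
    have h1 : D.ϱ γ * (Matrix.diagonal (fun a => (D.κ γ a)⁻¹) *
        (Matrix.diagonal (fun a => ((φ (D.μ a) : ℝ) : ℂ)⁻¹) * exp (-X))) = 1 := by
      rw [e, psi, mul_assoc, mul_assoc, ← mul_assoc (Matrix.diagonal (D.κ γ)),
        Matrix.diagonal_mul_diagonal, ← mul_assoc (Matrix.diagonal fun a => _ * _),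
        Matrix.diagonal_mul_diagonal, ← mul_assoc (Matrix.diagonal _),
        Matrix.diagonal_mul_diagonal]
      have h2 : (fun a => ((Real.exp ⟪D.μ a, v⟫_ℝ : ℝ) : ℂ) *
          (D.κ γ a * (D.κ γ a)⁻¹ * ((φ (D.μ a) : ℝ) : ℂ)⁻¹)) = fun _ => 1 := by
        funext a
        rw [mul_inv_cancel₀ (κ0 a), one_mul]
        exact mul_inv_cancel₀ (φ0 _)
      rw [h2, Matrix.diagonal_one, one_mul]
      exact (exp_mul_neg hX).1
    rw [← mul_one (D.ϱ γ⁻¹), ← h1, ← mul_assoc, ← map_mul, inv_mul_cancel, map_one, one_mul]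
  let S1 : D.W →ₗ[ℝ] D.W :=
    (LinearMap.mulRight ℝ (exp (-X)) ∘ₗ LinearMap.mulLeft ℝ (exp X)).restrict fun z hz =>
      conj_mem D.W hW hX (fun z hz => by simpa only [map_zero, add_zero] using D.lie x hx z hz v 0) hz
  let S2 : D.W →ₗ[ℝ] D.W := (hd fun a b => (φ (D.μ a - D.μ b) : ℂ)).restrict (D.W_μ φ)
  let S3 : D.W →ₗ[ℝ] D.W := (hd fun a b => D.κ γ a / D.κ γ b).restrict (D.W_κ γ)
  have hu := D.uni γ (S1 ∘ₗ S2 ∘ₗ S3) fun z => by
    change exp X * hd (fun a b => (φ (D.μ a - D.μ b) : ℂ)) (hd (fun a b => D.κ γ a / D.κ γ b) z) *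
      exp (-X) = _
    have h3 : (fun a b => (φ (D.μ a - D.μ b) : ℂ)) =
        fun a b => ((φ (D.μ a) : ℝ) : ℂ) * ((φ (D.μ b) : ℝ) : ℂ)⁻¹ := by
      funext a b
      simp only [φ, inner_sub_left, Real.exp_sub, div_eq_mul_inv,
        Complex.ofReal_mul, Complex.ofReal_inv]
    simp only [div_eq_mul_inv]
    rw [h3, ← diag_conj, ← diag_conj, hinv, e, psi]
    simp only [mul_assoc]
    rfl
  have d1 : LinearMap.det S1 = 1 := by
    have key : ∀ (j : ℕ) (z : D.W), (((S1 - 1) ^ j) z : Mat D.n) ∈ Fl D.n j := by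
      intro j z
      induction j with
      | zero => exact hW z.2
      | succ j ih =>
        rw [pow_succ', Module.End.mul_apply]
        exact conj_sub_mem hX ih
    exact det_unip S1 ⟨D.n, LinearMap.ext fun z => Subtype.ext (Fl_bot (key _ z))⟩
  have d2 : LinearMap.det S2 = Real.exp ⟪∑ i, C.w i, v⟫_ℝ := by
    obtain ⟨S, hS, hd⟩ := C.lift S2
    rw [← hd, sum_inner, Real.exp_sum]
    refine det_diag S _ fun z i => ?_
    obtain ⟨h1, h2⟩ := C.diag φ (z := z) (z' := WithLp.toLp 2 fun i => φ (C.w i) * z i) fun _ => rfl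
    rw [C.ext (z := S z) ((hS z).1.trans h1.symm) ((hS z).2.trans (by simp [h2, φ]))]
  have d3 : |LinearMap.det S3| = 1 := by
    obtain ⟨S, hS, hd⟩ := C.lift S3
    rw [← hd]
    refine det_iso S fun z => ?_
    rw [← sq_eq_sq₀ (norm_nonneg _) (norm_nonneg _), C.norm, C.norm, (hS z).1, (hS z).2]
    congr 1
    refine Finset.sum_congr rfl fun a _ => Finset.sum_congr rfl fun b _ => ?_
    change ‖D.κ γ a / D.κ γ b * C.pr z a b‖ ^ 2 = _
    rw [norm_mul, norm_div, D.κ_norm, D.κ_norm, div_one, one_mul]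
  rw [LinearMap.det_comp, LinearMap.det_comp, d1, d2, one_mul, abs_mul, d3, mul_one,
    abs_of_pos (Real.exp_pos _), Real.exp_eq_one_iff] at hu
  exact hu

theorem Crd.unimod {Γ : Type u} [Group Γ] {D : Mod Γ} (C : Crd D) : ∑ i, C.w i = 0 := by
  obtain ⟨R, hR⟩ := D.ht_cob
  have h := inner_ht_Uni C
  generalize ∑ i, C.w i = s at h
  by_contra hs
  have s0 : 0 < ‖s‖ := norm_pos_iff.2 hs
  obtain ⟨γ, hγ⟩ := hR (((R + 1) / ‖s‖) • s)
  have h1 := real_inner_le_norm s (((R + 1) / ‖s‖) • s - D.ht γ)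
  rw [inner_sub_right, h, sub_zero, inner_smul_right, real_inner_self_eq_norm_mul_norm,
    ← mul_assoc, div_mul_cancel₀ _ s0.ne'] at h1
  nlinarith

end Vale.Agent.P188.PM
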