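import Vale.Agent.P188.M.Mk1
import Vale.Agent.P188.M.Uni

/-! P188 part M, file Mk2: the model group.

PLAN. `C` from `exists_crd`, `br`, `star` from `exists_br`, `k'`, `p` from `exists_red C.w`;
`M = { d := C.d, k := k', br, wt i := p (C.w i), a := p ∘ₗ C.a0, star, c := D.n + 1, .. }`, `pr = C.pr`,
`a0 = C.a0` (`M.G` unfolds to `Eu C.d`). The coordinates of `z'' = M.del (M.A z) z'` are
`exp ⟪w i, a0 z⟫ * z' i` (`Geo.co_del`), so `Crd.diag` gives `a0 z'' = a0 z'` and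
`j z'' = d * j z' * d'` for `d = diagonal (exp ⟪μ a, a0 z⟫)`, `d'` its inverse (`Sp.hd_eq` with `D.y_μ`,
`diag_conj`); `exp_st`, `exp_conj_mat`, `Matrix.diagonal_mul_diagonal`. -/

namespace Vale.Agent.P188.PM

open IsNilpotent (exp)
open scoped InnerProductSpace

universe u

theorem psi_Mk2 {Γ : Type u} [Group Γ] {D : Mod Γ} (C : Crd D) {z z' z'' t : Eu C.d}
    (h : ∀ i, z'' i = Real.exp ⟪C.w i, C.a0 z⟫_ℝ * z' i) (h3 : C.j t = st (C.j z) (C.j z''))
    (h4 : C.a0 t = C.a0 z + C.a0 z'') : C.a0 t = C.a0 z + C.a0 z' ∧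
    psi D.μ D.y (C.pr t) (C.a0 t) =
      psi D.μ D.y (C.pr z) (C.a0 z) * psi D.μ D.y (C.pr z') (C.a0 z') := by
  obtain ⟨e1, e2⟩ := C.diag (fun v => Real.exp ⟪v, C.a0 z⟫_ℝ) h
  have e3 : C.a0 z'' = C.a0 z' := by simpa using e2
  have e4 : C.a0 t = C.a0 z + C.a0 z' := by rw [h4, e3]
  refine ⟨e4, ?_⟩
  set d : Fin D.n → ℂ := fun a => ((Real.exp ⟪D.μ a, C.a0 z⟫_ℝ : ℝ) : ℂ) with hd1
  set d' : Fin D.n → ℂ := fun a => ((Real.exp (-⟪D.μ a, C.a0 z⟫_ℝ) : ℝ) : ℂ) with hd2
  have f1 : (fun a b => ((Real.exp ⟪D.μ a - D.μ b, C.a0 z⟫_ℝ : ℝ) : ℂ)) =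
      fun a b => d a * d' b := by
    funext a b
    rw [hd1, hd2, inner_sub_left, sub_eq_add_neg, Real.exp_add, Complex.ofReal_mul]
  have f2 : ∀ a, d a * d' a = 1 := fun a => by
    rw [← congrFun (congrFun f1 a) a]
    simp
  have f3 : Matrix.diagonal d * Matrix.diagonal d' = 1 := by
    rw [Matrix.diagonal_mul_diagonal, ← Matrix.diagonal_one]
    congr 1
    funext a
    exact f2 a
  have f4 : Matrix.diagonal d' * Matrix.diagonal d = 1 := by
    rw [Matrix.diagonal_mul_diagonal, ← Matrix.diagonal_one]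
    congr 1
    funext a
    rw [mul_comm]
    exact f2 a
  have f5 : C.j z'' = Matrix.diagonal d * C.j z' * Matrix.diagonal d' := by
    rw [diag_conj, C.j_apply, C.j_apply, map_add, e1, e3, f1]
    congr 1
    refine ((D.y_μ _).hd_eq fun a b hab => ?_).symm
    rw [← congrFun (congrFun f1 a) b, hab]
    simp
  have f6 : (Matrix.diagonal fun a => ((Real.exp ⟪D.μ a, C.a0 t⟫_ℝ : ℝ) : ℂ)) =
      Matrix.diagonal d *
        Matrix.diagonal fun a => ((Real.exp ⟪D.μ a, C.a0 z'⟫_ℝ : ℝ) : ℂ) := by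
    rw [Matrix.diagonal_mul_diagonal, e4]
    congr 1
    funext a
    rw [hd1, inner_add_right, Real.exp_add, Complex.ofReal_mul]
  unfold psi
  rw [← C.j_apply, ← C.j_apply, ← C.j_apply, h3, exp_st (C.j_mem z) (C.j_mem z''), f5,
    exp_conj_mat f3 (C.j_mem z'), f6]
  simp only [Matrix.mul_assoc]
  rw [← Matrix.mul_assoc (Matrix.diagonal d'), f4, Matrix.one_mul]

theorem exists_rz {Γ : Type u} [Group Γ] (D : Mod Γ) : ∃ M : Geo, Nonempty (Rz D M) := by
  obtain ⟨C⟩ := exists_crd D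
  obtain ⟨br, star, h1, h2, hb, h3, h4⟩ := C.exists_br
  obtain ⟨k', p, hp, hpw, hsp⟩ := exists_red C.w
  let M : Geo :=
    { d := C.d
      k := k'
      br := br
      wt := fun i => p (C.w i)
      a := p ∘ₗ C.a0
      star := star
      c := D.n + 1
      br_self := Crd.br_self h1 h2
      jacobi := Crd.br_jacobi h1 h2
      nil := Crd.br_nil h1 h2
      br_wt := fun i j m h => by rw [Crd.br_wt h1 h2 i j m h, map_add]
      a_br := fun x y => by rw [LinearMap.comp_apply, h2, map_zero]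
      a_wt := fun i hi => by
        rw [LinearMap.comp_apply, C.a0_wt i fun h => hi (by rw [h, map_zero]), map_zero]
      a_surj := fun v => by
        obtain ⟨v', rfl⟩ := hp v
        obtain ⟨z, -, hz⟩ := C.surj 0 D.W.zero_mem v'
        exact ⟨z, by rw [LinearMap.comp_apply, hz]⟩
      unimod := by rw [← map_sum, C.unimod, map_zero]
      wt_span := hsp
      star_assoc := Crd.star_assoc h1 h2 h3 h4
      bch := hb
      conj := Crd.star_conj h1 h2 h3 h4 }
  have key : ∀ z z' : M.G, C.a0 (z * z') = C.a0 z + C.a0 z' ∧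
      psi D.μ D.y (C.pr (z * z')) (C.a0 (z * z')) =
        psi D.μ D.y (C.pr z) (C.a0 z) * psi D.μ D.y (C.pr z') (C.a0 z') := by
    intro z z'
    refine psi_Mk2 C (z'' := M.del (M.A z) z') (fun i => ?_) (h3 _ _) (h4 _ _)
    rw [← hpw]
    exact M.co_del (M.A z) z' i
  exact ⟨M, ⟨{
    pr := C.pr
    a0 := C.a0
    pr_mem := C.pr_mem
    surj := C.surj
    norm := C.norm
    a0_mul := fun z z' => (key z z').1
    psi_mul := fun z z' => (key z z').2 }⟩⟩

end Vale.Agent.P188.PM
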