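import Vale.Agent.P188.M.Ys
import Vale.Agent.P188.M.Latt

/-! P188 part M, file ModMk: the split matrix model.

PLAN. `ht γ = WithLp.toLp 2 fun l => ((π γ).toAdd l : ℝ)`, `μ a = toLp 2 fun l => Real.log ‖ϱ (gen l) a a‖`,
`κ γ a = ϱ γ a a / ‖ϱ γ a a‖`, `y v = ∑ l, v l • y l`, `W = nl ϱ`. `norm_d`: `top_of_gen`. `W_μ`: for a fixed
weight `w` the mask `hd (if μ a - μ b = w then 1 else 0)` preserves `W`: induction over the finset of
coordinates `l`, `T.mask (gen l)` with `f z = if Real.log ‖z‖ = w l then 1 else 0`, `hd_hd`; then sum over the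
finitely many `w = μ a - μ b` with the real coefficients `φ w`. `W_κ`: `T.mask γ` with `f z = z / ‖z‖`.
`ht_cob`: round the coordinates (`π` is onto: `top_of_gen`-like, or `γ` from `∏ gen l ^ j l`; use that the
range of `π` is a subgroup containing the `Pi.single l 1`). `cob`: `nl_cocompact'`, `T.ker`. -/

namespace Vale.Agent.P188.PM

open IsNilpotent (exp)
open scoped InnerProductSpace

universe u

variable {G : Type u} [Group G] (T : Tri G)

theorem Tri.surj : Function.Surjective T.π := by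
  intro v
  have h := top_of_gen (MonoidHom.id (Multiplicative (Fin T.k → ℤ)))
    (fun l => Multiplicative.ofAdd (Pi.single l 1)) (fun _ => rfl) T.π.range
    (fun g hg => (show g = 1 from hg) ▸ T.π.range.one_mem) (fun l => ⟨T.gen l, T.π_gen l⟩) v
  exact h

theorem Tri.norm_d (γ : G) (a : Fin T.n) : ‖T.ϱ γ a a‖ =
    Real.exp (∑ l, Real.log ‖T.ϱ (T.gen l) a a‖ * (((T.π γ).toAdd l : ℤ) : ℝ)) := by
  let f : G → ℝ := fun γ => ∑ l, Real.log ‖T.ϱ (T.gen l) a a‖ * (((T.π γ).toAdd l : ℤ) : ℝ)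
  have f_mul : ∀ g h, f (g * h) = f g + f h := fun g h => by
    simp only [f, map_mul, toAdd_mul, Pi.add_apply, Int.cast_add, mul_add, Finset.sum_add_distrib]
  have f_inv : ∀ g, f g⁻¹ = -f g := fun g => by
    simp only [f, map_inv, toAdd_inv, Pi.neg_apply, Int.cast_neg, mul_neg, Finset.sum_neg_distrib]
  have f_ker : ∀ g, T.π g = 1 → ‖T.ϱ g a a‖ = Real.exp (f g) := fun g hg => by
    simp [f, hg, (T.ker g).1 hg a]
  let S : Subgroup G :=
    { carrier := {g | ‖T.ϱ g a a‖ = Real.exp (f g)}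
      mul_mem' := fun {g h} hg hh => by
        change ‖T.ϱ (g * h) a a‖ = _
        rw [T.d_mul, norm_mul, hg, hh, f_mul, Real.exp_add]
      one_mem' := f_ker 1 (map_one _)
      inv_mem' := fun {g} hg => by
        change ‖T.ϱ g⁻¹ a a‖ = _
        rw [T.d_inv, norm_inv, hg, f_inv, Real.exp_neg] }
  refine top_of_gen T.π T.gen T.π_gen S f_ker (fun l => ?_) γ
  change ‖T.ϱ (T.gen l) a a‖ = Real.exp (f (T.gen l))
  have : f (T.gen l) = Real.log ‖T.ϱ (T.gen l) a a‖ := by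
    simp [f, T.π_gen, Pi.single_apply]
  rw [this, Real.exp_log (norm_pos_iff.2 (T.d_ne _ a))]

/-- the weights -/
noncomputable def Tri.mu_ModMk (a : Fin T.n) : Eu T.k :=
  WithLp.toLp 2 fun l => Real.log ‖T.ϱ (T.gen l) a a‖

/-- the heights -/
noncomputable def Tri.ht_ModMk (γ : G) : Eu T.k :=
  WithLp.toLp 2 fun l => (((T.π γ).toAdd l : ℤ) : ℝ)

open Classical in
theorem Tri.mask_ModMk (w : Eu T.k) (s : Finset (Fin T.k)) {x : Mat T.n} (hx : x ∈ nl T.ϱ) :
    hd (fun a b => if ∀ l ∈ s, (T.mu_ModMk a - T.mu_ModMk b) l = w l then 1 else 0) x ∈ nl T.ϱ := by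
  induction s using Finset.induction_on with
  | empty =>
    convert hx using 1
    ext a b
    simp [hd_apply]
  | insert l s _ ih =>
    have := T.mask (T.gen l) (fun z => if Real.log ‖z‖ = w l then 1 else 0) (fun z => by
      rw [RCLike.norm_conj]
      split_ifs <;> simp) ih
    rw [hd_hd] at this
    convert this using 5 with a b
    rw [norm_div, Real.log_div (norm_ne_zero_iff.2 (T.d_ne _ a)) (norm_ne_zero_iff.2 (T.d_ne _ b)),
      ite_zero_mul_ite_zero, mul_one]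
    exact if_congr (Finset.forall_mem_insert ..) rfl rfl

theorem Tri.wmu_ModMk (φ : Eu T.k → ℝ) {x : Mat T.n} (hx : x ∈ nl T.ϱ) :
    hd (fun a b => (φ (T.mu_ModMk a - T.mu_ModMk b) : ℂ)) x ∈ nl T.ϱ := by
  classical
  let s : Finset (Eu T.k) :=
    Finset.univ.image fun p : Fin T.n × Fin T.n => T.mu_ModMk p.1 - T.mu_ModMk p.2
  have := Submodule.sum_mem (nl T.ϱ) fun w (_ : w ∈ s) =>
    Submodule.smul_mem _ (φ w) (T.mask_ModMk w Finset.univ hx)
  convert this using 1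
  ext a b
  rw [Matrix.sum_apply, Finset.sum_eq_single (T.mu_ModMk a - T.mu_ModMk b)]
  · simp [hd_apply]
  · intro w _ hw
    rw [Matrix.smul_apply, hd_apply, if_neg fun h => hw (PiLp.ext fun l =>
      (h l (Finset.mem_univ l)).symm), zero_mul, smul_zero]
  · exact fun h => absurd (Finset.mem_image_of_mem _ (Finset.mem_univ (a, b))) h

theorem Tri.cob_ModMk : ∃ R : ℝ, ∀ v, ∃ γ, ‖v - T.ht_ModMk γ‖ ≤ R := by
  refine ⟨√T.k, fun v => ?_⟩
  obtain ⟨γ, hγ⟩ := T.surj (Multiplicative.ofAdd fun l => ⌊v l⌋)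
  refine ⟨γ, ?_⟩
  rw [EuclideanSpace.norm_eq]
  refine Real.sqrt_le_sqrt ?_
  have : ∀ l, ‖(v - T.ht_ModMk γ) l‖ ^ 2 ≤ 1 := fun l => by
    have e : (v - T.ht_ModMk γ) l = Int.fract (v l) := by
      rw [Tri.ht_ModMk, hγ]
      rfl
    rw [e, Real.norm_eq_abs, sq_abs]
    exact pow_le_one₀ (Int.fract_nonneg _) (Int.fract_lt_one _).le
  simpa using Finset.sum_le_sum fun l (_ : l ∈ Finset.univ) => this l

theorem Tri.exists_mod (T : Tri G) : Nonempty (Mod G) := by
  obtain ⟨y, h1, h2, h3, h4, h5⟩ := T.exists_y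
  obtain ⟨m, hm⟩ := T.pz
  let Y : Eu T.k →ₗ[ℝ] Mat T.n :=
    ∑ l, (EuclideanSpace.proj l : Eu T.k →L[ℝ] ℝ).toLinearMap.smulRight (y l)
  have hY : ∀ v, Y v = ∑ l, v l • y l := fun v => by simp [Y]
  have hYs : ∀ v, Sp T.q (Y v) := fun v => hY v ▸ Sp.sum _ fun l _ => (h2 l).smul _
  have hYm : ∀ x ∈ nl T.ϱ, ∀ v, x + Y v ∈ nl T.ϱ ⊔ Submodule.span ℝ (Set.range y) :=
    fun x hx v => Submodule.add_mem_sup hx (hY v ▸ Submodule.sum_mem _ fun l _ =>
      Submodule.smul_mem _ _ (Submodule.subset_span ⟨l, rfl⟩))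
  have hn : ∀ γ a, ((‖T.ϱ γ a a‖ : ℝ) : ℂ) ≠ 0 := fun γ a =>
    Complex.ofReal_ne_zero.2 (norm_ne_zero_iff.2 (T.d_ne γ a))
  have hq : ∀ {a b}, T.q a = T.q b → ∀ g, T.ϱ g a a = T.ϱ g b b := fun h g => congrFun h g
  refine ⟨{ n := T.n, k := T.k, ϱ := T.ϱ, ht := T.ht_ModMk, μ := T.mu_ModMk
            κ := fun γ a => T.ϱ γ a a / (‖T.ϱ γ a a‖ : ℝ), W := nl T.ϱ, y := Y
            W_le := nl_le _
            y_mem := fun v => hY v ▸ Submodule.sum_mem _ fun l _ => Submodule.smul_mem _ _ (h1 l)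
            lie := fun x hx x' hx' v v' => T.lie_y h3 h4 _ (hYm x hx v) _ (hYm x' hx' v')
            y_μ := fun v => (hYs v).mono fun a b h => ?_
            y_κ := fun γ v => (hYs v).mono fun a b h => by rw [hq h]
            W_μ := fun φ x hx => T.wmu_ModMk φ hx
            W_κ := fun γ x hx => ?_
            W_ϱ := fun γ x hx => nl_conj T.tri γ hx
            κ_mul := fun γ γ' a => ?_
            κ_norm := fun γ a => ?_
            ht_mul := fun γ γ' => ?_
            dec := fun γ => ?_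
            fin := T.fin
            ht_cob := T.cob_ModMk
            cob := ?_
            uni := T.uni }⟩
  · simp only [Tri.mu_ModMk, hq h]
  · have := T.mask γ (fun z => z / (‖z‖ : ℝ)) (fun z => by
      rw [RCLike.norm_conj, map_div₀, Complex.conj_ofReal]) hx
    convert this using 5 with a b
    rw [norm_div, Complex.ofReal_div, div_div_div_comm]
  · rw [T.d_mul, norm_mul, Complex.ofReal_mul, mul_div_mul_comm]
  · rw [norm_div, Complex.norm_real, norm_norm, div_self (norm_ne_zero_iff.2 (T.d_ne γ a))]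
  · ext l
    simp [Tri.ht_ModMk]
  · obtain ⟨x, hx, e⟩ := T.dec h1 h2 h3 h4 h5 γ
    refine ⟨x, hx, e.trans ?_⟩
    rw [psi, hY, Matrix.mul_assoc, Matrix.diagonal_mul_diagonal]
    congr 2
    funext a
    have : ⟪T.mu_ModMk a, T.ht_ModMk γ⟫_ℝ =
        ∑ l, Real.log ‖T.ϱ (T.gen l) a a‖ * (((T.π γ).toAdd l : ℤ) : ℝ) := by
      simp [Tri.mu_ModMk, Tri.ht_ModMk, PiLp.inner_apply, mul_comm]
    rw [this, ← T.norm_d, mul_div_cancel₀ _ (hn γ a)]
  · obtain ⟨K, k1, k2, k3⟩ := nl_cocompact' hm T.tri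
    refine ⟨K, k1, k2, fun x hx => ?_⟩
    obtain ⟨g, hg, hb⟩ := k3 x hx
    refine ⟨g, ?_, fun a => by simp [hg a], hb⟩
    ext l
    simp [Tri.ht_ModMk, (T.ker g).2 hg]

end Vale.Agent.P188.PM
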