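import Vale.Agent.P188.M.Act

/-! P188 part M, file Prp: the action is proper and cobounded.

PLAN. `proper`: `z ↦ psi (pr z) (a0 z)` is continuous on `M.G` (`continuousOn_exp`,
`LinearMap.continuous_of_finiteDimensional`), so its entries are bounded on the compact ball; `‖κ γ a‖ = 1`;
`D.fin`. `cobdd`: take `γ` with `‖a0 z - ht γ‖ ≤ R0`, `z1 = (κ γ).symm ((α γ)⁻¹ * z)`, `r = a0 z1 = a0 z - ht γ`,
`s` with `pr s = 0`, `a0 s = r` (`‖s‖ = ‖r‖`), `z2 = z1 * s⁻¹` has `a0 z2 = 0`, `psi x 0 = exp x`; `D.cob` gives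
`γ'`, `b`; `zb` with `pr zb = b`, `a0 zb = 0`; `z2 = α γ' * zb` by `Rz.ext`; so
`z = α (γ * γ') * κ γ zb * κ γ s`. The function `b ↦ ∑ ‖b a a'‖ ^ 2` is bounded on `K`. -/

namespace Vale.Agent.P188.PM

open IsNilpotent (exp)
open scoped InnerProductSpace

universe u

variable {Γ : Type u} [Group Γ] {D : Mod Γ} {M : Geo} {R : Rz D M} (A : Act R)

theorem cont_Prp (R : Rz D M) : Continuous fun z => psi D.μ D.y (R.pr z) (R.a0 z) := by
  have h1 := R.pr.continuous_of_finiteDimensional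
  have h2 := R.a0.continuous_of_finiteDimensional
  have h3 := D.y.continuous_of_finiteDimensional
  refine Continuous.matrix_mul (continuousOn_exp.comp_continuous (h1.add (h3.comp h2)) fun z =>
    (Fl D.n 1).add_mem (D.W_le (R.pr_mem z)) (D.y_mem _)) (Continuous.matrix_diagonal ?_)
  fun_prop

theorem psi_zero_Prp (x : Mat D.n) : psi D.μ D.y x 0 = exp x := by simp [psi]

theorem a0_inv_Prp (R : Rz D M) (z : M.G) : R.a0 z⁻¹ = -R.a0 z := by
  have h1 := R.a0_mul 1 1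
  rw [mul_one, left_eq_add] at h1
  rw [eq_neg_iff_add_eq_zero, ← R.a0_mul, inv_mul_cancel, h1]

theorem Act.proper (r : ℝ) : {γ | ‖A.α γ‖ ≤ r}.Finite := by
  have := FiniteDimensional.proper ℝ M.G
  have hc : Continuous fun z => ∑ a, ∑ b, ‖psi D.μ D.y (R.pr z) (R.a0 z) a b‖ :=
    continuous_finsetSum _ fun a _ => continuous_finsetSum _ fun b _ =>
      ((cont_Prp R).matrix_elem a b).norm
  obtain ⟨C, hC⟩ := (isCompact_closedBall (0 : M.G) r).bddAbove_image hc.continuousOn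
  refine (D.fin C).subset fun γ hγ a b => le_trans ?_
    (hC ⟨A.α γ, mem_closedBall_zero_iff.2 hγ, rfl⟩)
  rw [A.psi_α, Matrix.mul_diagonal, norm_mul, D.κ_norm, mul_one, ← A.a0_α]
  exact (Finset.single_le_sum (f := fun b => ‖psi D.μ D.y _ _ a b‖) (fun _ _ => norm_nonneg _)
    (Finset.mem_univ b)).trans (Finset.single_le_sum (f := fun a => ∑ b, ‖psi D.μ D.y _ _ a b‖)
      (fun _ _ => Finset.sum_nonneg fun _ _ => norm_nonneg _) (Finset.mem_univ a))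

theorem Act.cobdd : ∃ r : ℝ, ∀ z : M.G, ∃ γ b b', ‖b‖ ≤ r ∧ ‖b'‖ ≤ r ∧ z = A.α γ * b * b' := by
  obtain ⟨R0, h0⟩ := D.ht_cob
  obtain ⟨K, hK, hKW, hcob⟩ := D.cob
  have hc : Continuous fun x : Mat D.n => ∑ a, ∑ b, ‖x a b‖ ^ 2 := by fun_prop
  obtain ⟨C, hC⟩ := hK.bddAbove_image hc.continuousOn
  refine ⟨max R0 √C, fun z => ?_⟩
  obtain ⟨γ, hγ⟩ := h0 (R.a0 z)
  obtain ⟨z1, h1⟩ := (A.κ γ).surjective ((A.α γ)⁻¹ * z)
  have h2 : R.a0 z1 = R.a0 z - D.ht γ := by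
    rw [← A.a0_κ γ, h1, R.a0_mul, a0_inv_Prp, A.a0_α, neg_add_eq_sub]
  obtain ⟨s, s1, s2⟩ := R.surj 0 D.W.zero_mem (R.a0 z1)
  have h3 : R.a0 (z1 * s⁻¹) = 0 := by rw [R.a0_mul, a0_inv_Prp, s2, add_neg_cancel]
  obtain ⟨γ', g1, g2, b, hb, g3⟩ := hcob _ (R.pr_mem (z1 * s⁻¹))
  obtain ⟨zb, b1, b2⟩ := R.surj b (hKW hb) 0
  have h4 : z1 * s⁻¹ = A.α γ' * zb := by
    refine R.ext (by rw [h3, R.a0_mul, A.a0_α, g1, b2, add_zero]) ?_
    rw [R.psi_mul (A.α γ'), h3, psi_zero_Prp, g3, b1, b2, psi_zero_Prp, A.psi_α, A.a0_α,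
      show D.κ γ' = fun _ => 1 from funext g2, Matrix.diagonal_one, mul_one]
  refine ⟨γ * γ', A.κ γ zb, A.κ γ s, le_max_of_le_right ?_, le_max_of_le_left ?_, ?_⟩
  · rw [A.norm_κ]
    refine Real.le_sqrt_of_sq_le ?_
    rw [R.norm, b1, b2, norm_zero, zero_pow two_ne_zero, add_zero]
    exact hC ⟨b, hb, rfl⟩
  · have h5 := R.norm s
    rw [s1, s2, h2] at h5
    simp only [Matrix.zero_apply, norm_zero, zero_pow two_ne_zero, Finset.sum_const_zero,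
      zero_add] at h5
    rwa [A.norm_κ, (pow_left_inj₀ (norm_nonneg _) (norm_nonneg _) two_ne_zero).1 h5]
  · rw [A.coc, mul_assoc, mul_assoc, ← map_mul, ← map_mul, ← mul_assoc (A.α γ'), ← h4,
      inv_mul_cancel_right, h1, mul_inv_cancel_left]

end Vale.Agent.P188.PM
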