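import Vale.Agent.P188.Len

/-! P188 part M, file SM: Svarc-Milnor, and passage to finite-index overgroups.

PLAN. `isQI_of_act`: `κ γ` and its inverse preserve `M.Q`, so `ln (κ γ z) = ln z` (`wlen_spec`, `wlen_le`);
`(α x)⁻¹ * α x' = κ x (α (x⁻¹ * x'))`; `isQI_of_coarse` with `exists_ln_le` (closed balls are compact),
`isCompact_ball` (bounded), `ln_mul`, `ln_inv`. `HasGeo.of_sub`: `K` is finitely generated
(`Subgroup.fg_of_index_ne_zero`, `Group.fg_iff'`), `isQI_subtype`, `IsQI.inv` with a choice of nearest points,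
`IsQI.comp`, `closure_Q`. -/

namespace Vale.Agent.P188.PM

/-- `Γ` is quasi-isometric to a model group, for every finite generating set -/
def HasGeo (Γ : Type*) [Group Γ] : Prop :=
  ∀ T : Finset Γ, Subgroup.closure (T : Set Γ) = ⊤ →
    ∃ (M : Geo) (K C : ℝ) (α : Γ → M.G), IsQI (T : Set Γ) M.Q K C α

theorem ln_le_SM (M : Geo) (e : M.G ≃* M.G) (h : ∀ z, ‖e z‖ = ‖z‖) (z : M.G) :
    M.ln (e z) ≤ M.ln z := by
  obtain ⟨l, h1, h2, h3⟩ := wlen_spec M.closure_Q z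
  have hQ : ∀ x ∈ M.Q, e x ∈ M.Q := fun x hx => by
    rw [Geo.Q, mem_closedBall_zero_iff] at hx ⊢
    rwa [h]
  have h4 := wlen_le (S := M.Q) (l := l.map e) fun x hx => by
    obtain ⟨y, hy, rfl⟩ := List.mem_map.1 hx
    exact (h2 y hy).imp (hQ y) fun h5 => map_inv e y ▸ hQ _ h5
  rw [← map_list_prod, h3, List.length_map, h1] at h4
  unfold Geo.ln
  exact_mod_cast h4

theorem ln_eq_SM (M : Geo) (e : M.G ≃* M.G) (h : ∀ z, ‖e z‖ = ‖z‖) (z : M.G) :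
    M.ln (e z) = M.ln z := by
  refine le_antisymm (ln_le_SM M e h z) ?_
  have := ln_le_SM M e.symm (fun z => by rw [← h, e.apply_symm_apply]) (e z)
  rwa [e.symm_apply_apply] at this

theorem isQI_of_act {Γ : Type*} [Group Γ] (M : Geo) (α : Γ → M.G) (κ : Γ → M.G ≃* M.G)
    (h1 : ∀ γ z, ‖κ γ z‖ = ‖z‖) (h2 : ∀ γ γ', α (γ * γ') = α γ * κ γ (α γ'))
    (h3 : ∀ r : ℝ, {γ | ‖α γ‖ ≤ r}.Finite)
    (h4 : ∃ r : ℝ, ∀ z : M.G, ∃ γ b b', ‖b‖ ≤ r ∧ ‖b'‖ ≤ r ∧ z = α γ * b * b') : HasGeo Γ := by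
  intro T hT
  obtain ⟨r, hr⟩ := h4
  obtain ⟨R, hR⟩ := M.exists_ln_le (isCompact_closedBall (0 : M.G) r)
  obtain ⟨D, hD⟩ := (T.finite_toSet.image fun s => M.ln (α s)).bddAbove
  have e : ∀ x x', wdist M.Q (α x) (α x') = M.ln (α (x⁻¹ * x')) := fun x x' => by
    have := h2 x (x⁻¹ * x')
    rw [mul_inv_cancel_left] at this
    rw [M.wdist_eq, this, inv_mul_cancel_left, ln_eq_SM M _ (h1 x)]
  obtain ⟨K, C, h⟩ := isQI_of_coarse hT M.closure_Q α (max D (R + R)) (fun x s hs => by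
      rw [e, inv_mul_cancel_left]
      exact le_max_of_le_left (hD ⟨s, hs, rfl⟩))
    (fun ρ => by
      obtain ⟨ρ', hρ⟩ := (M.isCompact_ball ρ).isBounded.exists_norm_le
      obtain ⟨R', hR'⟩ := ((h3 ρ').image fun x => (wlen (T : Set Γ) x : ℝ)).bddAbove
      exact ⟨R', fun x x' h => hR' ⟨x⁻¹ * x', hρ _ ((e x x').symm.trans_le h), rfl⟩⟩)
    fun z => by
      obtain ⟨γ, b, b', hb, hb', rfl⟩ := hr z
      refine ⟨γ, le_max_of_le_right ?_⟩
      rw [wdist_comm, M.wdist_eq, mul_assoc, inv_mul_cancel_left]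
      exact (M.ln_mul _ _).trans (add_le_add (hR b (mem_closedBall_zero_iff.2 hb))
        (hR b' (mem_closedBall_zero_iff.2 hb')))
  exact ⟨M, K, C, α, h⟩

theorem HasGeo.of_sub {Γ : Type*} [Group Γ] (K : Subgroup Γ) [K.FiniteIndex] (h : HasGeo K) :
    HasGeo Γ := by
  intro T hT
  have : Group.FG Γ := ⟨⟨T, hT⟩⟩
  obtain ⟨T', hT'⟩ := Group.FG.out (G := K)
  obtain ⟨M, K1, C1, α, h1⟩ := h T' hT'
  obtain ⟨K2, C2, h2⟩ := isQI_subtype hT K T' hT'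
  choose F hF using h2.2.2.2
  exact ⟨M, _, _, _, ((h2.inv hT' hT h2.2.1 hF).1).comp M.closure_Q h1⟩

end Vale.Agent.P188.PM
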