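import Vale.Agent.P188.M.Conj
import Vale.Agent.P188.M.LKM2
import Vale.Agent.P188.M.Gen

/-! P188 part M, file TriMk: a triangular adapted representation of a finite-index subgroup.

PLAN. `ρ' = (Int.castRingHom ℂ).mapMatrix ∘ ρ`; `lkm_mat` gives `K`, `P`, `P'`; `ϱ1 g = P' * ρ' g * P` on `K`
(`mul_eq_one_comm`); `χ a g = ϱ1 g a a` is a homomorphism (`diag_mul`); `exists_generic` (`PolyZ.sub`,
`PolyZ.fg`) gives `K'`, `π`, `γ0`; `exists_adapt` gives `z`; `ϱ g = exp z * ϱ1 g * exp (-z)` has the same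
diagonal (`diag_mul`, `exp_diag`); the new matrices are `P * exp (-z)` and `exp z * P'`. -/

namespace Vale.Agent.P188.PM

open IsNilpotent (exp)

universe u

/-- conjugation of a matrix representation -/
def cjr_TriMk {n : ℕ} {G : Type*} [Group G] (σ : G →* Mat n) (A B : Mat n) (h : A * B = 1) :
    G →* Mat n where
  toFun g := B * σ g * A
  map_one' := by rw [map_one, mul_one, mul_eq_one_comm.mp h]
  map_mul' g g' := by
    rw [map_mul]
    calc B * (σ g * σ g') * A = B * σ g * 1 * σ g' * A := by noncomm_ring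
      _ = B * σ g * (A * B) * σ g' * A := by rw [h]
      _ = B * σ g * A * (B * σ g' * A) := by noncomm_ring

theorem cjr_apply_TriMk {n : ℕ} {G : Type*} [Group G] (σ : G →* Mat n) (A B : Mat n)
    (h : A * B = 1) (g : G) : cjr_TriMk σ A B h g = B * σ g * A := rfl

theorem cjr_back_TriMk {n : ℕ} {G : Type*} [Group G] (σ : G →* Mat n) (A B : Mat n)
    (h : A * B = 1) (g : G) : A * cjr_TriMk σ A B h g * B = σ g := by
  rw [cjr_apply_TriMk]
  calc A * (B * σ g * A) * B = (A * B) * σ g * (A * B) := by noncomm_ring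
    _ = σ g := by rw [h, one_mul, mul_one]

/-- the diagonal characters of a triangular representation -/
def chi_TriMk {n : ℕ} {G : Type*} [Group G] (σ : G →* Mat n) (h : ∀ g, σ g ∈ Fl n 0)
    (a : Fin n) : G →* ℂ where
  toFun g := σ g a a
  map_one' := by rw [map_one, Matrix.one_apply_eq]
  map_mul' g g' := by rw [map_mul, diag_mul (h g) (h g')]

theorem exists_tri {m n : ℕ} {G : Type u} [Group G] (h : PolyZ m G)
    (ρ : G →* Matrix (Fin n) (Fin n) ℤ) (hρ : Function.Injective ρ) :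
    ∃ K : Subgroup G, K.FiniteIndex ∧ ∃ K' : Subgroup K, K'.FiniteIndex ∧ Nonempty (Tri K') := by
  let ρ' : G →* Mat n :=
    ((Int.castRingHom ℂ).mapMatrix : Matrix (Fin n) (Fin n) ℤ →+* Mat n).toMonoidHom.comp ρ
  have hρ' : ∀ g a b, ρ' g a b = ((ρ g a b : ℤ) : ℂ) := fun g a b => rfl
  have hinj : Function.Injective ρ' := by
    intro g g' e
    apply hρ
    ext a b
    have := congrFun (congrFun e a) b
    rw [hρ', hρ'] at this
    exact_mod_cast this
  obtain ⟨K, hK, P, P', hP, htri⟩ := lkm_mat h ρ'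
  let ϱ1 : K →* Mat n := cjr_TriMk (ρ'.comp K.subtype) P P' hP
  have h1 : ∀ g, ϱ1 g ∈ Fl n 0 := fun g a b hab => htri g g.2 a b (by simpa using hab)
  have hfg : Group.FG K := (h.sub K).fg
  obtain ⟨K', k, π, γ0, hK', hsurj, hker, hgen⟩ := exists_generic (chi_TriMk ϱ1 h1)
  have hne : ∀ a, ϱ1 γ0 a a ≠ 0 :=
    diag_ne (g' := ϱ1 (γ0 : K)⁻¹) (by rw [← map_mul, mul_inv_cancel, map_one]) (h1 _)
  obtain ⟨z, hz, hs⟩ := exists_adapt (h1 γ0) hne
  have hz' : -z ∈ Fl n 1 := (Fl n 1).neg_mem hz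
  let ϱ : K' →* Mat n := cjr_TriMk (ϱ1.comp K'.subtype) (exp (-z)) (exp z) (exp_mul_neg hz).2
  have hϱ : ∀ g : K', ϱ g = exp z * ϱ1 g * exp (-z) := fun g => rfl
  have h2 : ∀ g, ϱ g ∈ Fl n 0 := fun g => by
    rw [hϱ]
    exact Fl_mul (i := 0) (j := 0) (Fl_mul (i := 0) (j := 0) (exp_mem_Fl hz) (h1 _)) (exp_mem_Fl hz')
  have hd : ∀ (g : K') a, ϱ g a a = ϱ1 g a a := fun g a => by
    rw [hϱ, diag_mul (Fl_mul (i := 0) (j := 0) (exp_mem_Fl hz) (h1 _)) (exp_mem_Fl hz'),
      diag_mul (exp_mem_Fl hz) (h1 _), exp_diag hz, exp_diag hz', one_mul, mul_one]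
  have hback : ∀ g : K', P * exp (-z) * ϱ g * (exp z * P') = ρ' ((g : K) : G) := fun g => by
    have e1 := cjr_back_TriMk (ϱ1.comp K'.subtype) (exp (-z)) (exp z) (exp_mul_neg hz).2 g
    have e2 := cjr_back_TriMk (ρ'.comp K.subtype) P P' hP (g : K)
    calc P * exp (-z) * ϱ g * (exp z * P') = P * (exp (-z) * ϱ g * exp z) * P' := by noncomm_ring
      _ = P * ϱ1 g * P' := by rw [e1]; rfl
      _ = _ := e2
  choose gen hgen' using fun l : Fin k => hsurj (Multiplicative.ofAdd (Pi.single l 1))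
  refine ⟨K, hK, K', hK', ⟨{
    n := n
    k := k
    ϱ := ϱ
    P := P * exp (-z)
    P' := exp z * P'
    π := π
    gen := gen
    γ0 := γ0
    pz := ⟨m, (h.sub K).sub K'⟩
    tri := h2
    inj := ?_
    hP := ?_
    int := fun g a b => ⟨ρ ((g : K) : G) a b, by rw [hback, hρ']⟩
    π_gen := hgen'
    ker := fun g => by simp only [hd]; exact hker g
    gener := fun a b e g => by
      simp only [hd] at e ⊢
      exact hgen a b e g
    adapt := ?_ }⟩⟩
  · intro g g' e
    have := hback g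
    rw [e, hback g'] at this
    exact Subtype.ext (Subtype.ext (hinj this).symm)
  · calc P * exp (-z) * (exp z * P') = P * (exp (-z) * exp z) * P' := by noncomm_ring
      _ = 1 := by rw [(exp_mul_neg hz).2, mul_one, hP]
  · simp only [hd]
    exact hs

end Vale.Agent.P188.PM
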