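import Vale.Agent.P188.M.Virt
import Vale.Agent.P188.M.Lin
import Vale.Agent.P188.M.TriMk
import Vale.Agent.P188.M.ModMk
import Vale.Agent.P188.M.Mk2
import Vale.Agent.P188.M.Prp
import Vale.Agent.P188.M.SM

/-! Part M (sub-project): every finitely generated virtually polycyclic group is quasi-isometric
to a model group.  Plan: notes/P188_M.md. -/

namespace Vale.Agent.P188

open PM in
theorem exists_geo {Γ : Type*} [Group Γ] (T : Finset Γ)
    (hT : Subgroup.closure (T : Set Γ) = ⊤) (h : VirtPolycyclic Γ) :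
    ∃ (M : Geo) (K C : ℝ) (α : Γ → M.G), IsQI (T : Set Γ) M.Q K C α := by
  obtain ⟨K0, f0, h0⟩ := h
  obtain ⟨K1, m, f1, h1⟩ := polyZ_of_polycyclic h0
  obtain ⟨K2, f2, K3, f3, n, ρ, hρ⟩ := exists_lin h1
  obtain ⟨K4, f4, K5, f5, ⟨t⟩⟩ := exists_tri ((h1.sub K2).sub K3) ρ hρ
  obtain ⟨D⟩ := t.exists_mod
  obtain ⟨M, ⟨R⟩⟩ := exists_rz D
  obtain ⟨A⟩ := R.exists_act
  have h5 : HasGeo K5 := isQI_of_act M A.α A.κ A.norm_κ A.coc A.proper A.cobdd
  exact (((((h5.of_sub K5).of_sub K4).of_sub K3).of_sub K2).of_sub K1).of_sub K0 T hT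

end Vale.Agent.P188
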