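import Vale.Agent.P188.M.OB
import Vale.Agent.P188.M.Bch2

/-! P188 part M, file Mk1: bracket and product in coordinates.

PLAN. `exists_br`: take a linear left inverse `s` of the injective map `z ↦ (pr z, a0 z)`
(`LinearMap.exists_leftInverse_of_injective`), `br z z' = s (cm (j z) (j z'), 0)` (`D.lie`, `C.surj`);
`LieBr_pull` gives `f`, `star x y = x + y + f x y`, `a0 (f x y) = 0` by `LieBr.mem`. The other statements:
`Crd.ext_j`; `j z ∈ Fl n 1`; `br_nil`: the value of `j` lies in `Fl n l.length` (`cm_mem_Fl`); `br_wt`: for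
`z = br X_i X_j`, `pr z` is supported where `μ a - μ b = w i + w j` (so is `j X_i` for `w i`: `pr_wt`, `a0_wt`,
`D.y_μ`); `Crd.diag` with the indicator of `w i + w j` and `Crd.ext`. `star_assoc`, `star_conj`: `exp_st`,
`exp_inj_Fl`, `exp_conj_mat`, `exp_conj_cm`. -/

namespace Vale.Agent.P188.PM

open IsNilpotent (exp)

universe u

variable {Γ : Type u} [Group Γ] {D : Mod Γ} (C : Crd D)

theorem Crd.j_mem (z : Eu C.d) : C.j z ∈ Fl D.n 1 := by
  exact (Fl D.n 1).add_mem (D.W_le (C.pr_mem z)) (D.y_mem _)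

theorem Crd.exists_br : ∃ (br : Eu C.d →ₗ[ℝ] Eu C.d →ₗ[ℝ] Eu C.d) (star : Eu C.d → Eu C.d → Eu C.d),
    (∀ x y, C.j (br x y) = cm D.n (C.j x) (C.j y)) ∧ (∀ x y, C.a0 (br x y) = 0) ∧
    LieBr br (fun x y => star x y - x - y) ∧ (∀ x y, C.j (star x y) = st (C.j x) (C.j y)) ∧
    ∀ x y, C.a0 (star x y) = C.a0 x + C.a0 y := by
  obtain ⟨s, hs⟩ := (C.pr.prod C.a0).exists_leftInverse_of_injective
    (LinearMap.ker_eq_bot.2 fun z z' h => C.ext (congrArg Prod.fst h) (congrArg Prod.snd h))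
  let br : Eu C.d →ₗ[ℝ] Eu C.d →ₗ[ℝ] Eu C.d :=
    ((cm D.n).compl₁₂ C.j C.j).compr₂ (s ∘ₗ LinearMap.inl ℝ _ _)
  have key : ∀ x y, C.pr (br x y) = cm D.n (C.j x) (C.j y) ∧ C.a0 (br x y) = 0 := fun x y => by
    obtain ⟨z, hz, hz'⟩ := C.surj _ (D.lie _ (C.pr_mem x) _ (C.pr_mem y) (C.a0 x) (C.a0 y)) 0
    have e : br x y = z := by
      have e1 : s (C.pr z, C.a0 z) = z := LinearMap.congr_fun hs z
      rw [hz, hz'] at e1
      exact e1
    rw [e]
    exact ⟨hz, hz'⟩
  have h1 : ∀ x y, C.j (br x y) = cm D.n (C.j x) (C.j y) := fun x y => by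
    rw [C.j_apply, (key x y).1, (key x y).2, map_zero, add_zero]
  obtain ⟨f, hf, hf'⟩ := LieBr_pull br (cm D.n) C.j h1 (bf_lie D.n)
  refine ⟨br, fun x y => x + y + f x y, h1, fun x y => (key x y).2, ?_, fun x y => ?_,
    fun x y => ?_⟩
  · have e : (fun x y => x + y + f x y - x - y) = f := by
      funext x y
      abel
    rw [e]
    exact hf
  · rw [map_add, map_add, hf', st]
  · have e : f x y ∈ LinearMap.ker C.a0 :=
      hf.mem ⊤ (LinearMap.ker C.a0) (fun _ _ _ _ => trivial) (fun x _ y _ => (key x y).2)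
        trivial trivial
    rw [map_add, map_add, LinearMap.mem_ker.1 e, add_zero]

variable {C} {br : Eu C.d →ₗ[ℝ] Eu C.d →ₗ[ℝ] Eu C.d} {star : Eu C.d → Eu C.d → Eu C.d}
  (h1 : ∀ x y, C.j (br x y) = cm D.n (C.j x) (C.j y)) (h2 : ∀ x y, C.a0 (br x y) = 0)
  (h3 : ∀ x y, C.j (star x y) = st (C.j x) (C.j y))
  (h4 : ∀ x y, C.a0 (star x y) = C.a0 x + C.a0 y)

include h1 h2

theorem Crd.br_self (x : Eu C.d) : br x x = 0 := by
  refine C.ext_j ?_ ?_
  · rw [h1, cm_apply, sub_self, map_zero]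
  · rw [h2, map_zero]

theorem Crd.br_jacobi (x y z : Eu C.d) : br x (br y z) = br (br x y) z + br y (br x z) := by
  refine C.ext_j ?_ ?_
  · simp only [map_add, h1, cm_apply]
    noncomm_ring
  · rw [map_add, h2, h2, h2, add_zero]

theorem Crd.br_nil (l : List (Eu C.d)) (hl : D.n + 1 ≤ l.length) (y : Eu C.d) :
    l.foldr (fun x z => br x z) y = 0 := by
  have key : ∀ l : List (Eu C.d), C.j (l.foldr (fun x z => br x z) y) ∈ Fl D.n l.length := by
    intro l
    induction l with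
    | nil => exact Fl_le (Nat.zero_le 1) (C.j_mem y)
    | cons x l ih =>
      rw [List.foldr_cons, h1, List.length_cons, add_comm]
      exact cm_mem_Fl (C.j_mem x) ih
  refine C.ext_j ?_ ?_
  · rw [map_zero]
    exact Fl_bot (Fl_le (by omega) (key l))
  · rcases l with _ | ⟨x, l⟩
    · simp at hl
    · rw [List.foldr_cons, h2, map_zero]

theorem Crd.br_wt (i j m : Fin C.d)
    (h : br (EuclideanSpace.single i 1) (EuclideanSpace.single j 1) m ≠ 0) :
    C.w m = C.w i + C.w j := by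
  classical
  have hj : ∀ i a b, C.j (EuclideanSpace.single i 1) a b ≠ 0 → D.μ a - D.μ b = C.w i := by
    intro i a b hab
    by_cases hp : C.pr (EuclideanSpace.single i 1) a b = 0
    · rw [C.j_apply, Matrix.add_apply, hp, zero_add] at hab
      have e1 : D.μ a = D.μ b := by
        by_contra hc
        exact hab (D.y_μ _ a b hc)
      have e2 : C.w i = 0 := by
        by_contra hc
        rw [C.a0_wt i hc, map_zero] at hab
        exact hab rfl
      rw [e1, e2, sub_self]
    · exact C.pr_wt i a b hp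
  have hm : ∀ i j a b, D.μ a - D.μ b ≠ C.w i + C.w j →
      (C.j (EuclideanSpace.single i 1) * C.j (EuclideanSpace.single j 1)) a b = 0 := by
    intro i j a b hab
    rw [Matrix.mul_apply]
    refine Finset.sum_eq_zero fun c _ => ?_
    by_contra hc
    apply hab
    rw [← hj i a c (left_ne_zero_of_mul hc), ← hj j c b (right_ne_zero_of_mul hc)]
    abel
  set z := br (EuclideanSpace.single i 1) (EuclideanSpace.single j 1) with hz
  have ha : C.a0 z = 0 := h2 _ _
  have hp : ∀ a b, D.μ a - D.μ b ≠ C.w i + C.w j → C.pr z a b = 0 := by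
    intro a b hab
    have e : C.pr z = C.j z := by rw [C.j_apply, ha, map_zero, add_zero]
    rw [e, hz, h1, cm_apply, Matrix.sub_apply, hm i j a b hab,
      hm j i a b (by rwa [add_comm]), sub_self]
  let φ : Eu D.k → ℝ := fun t => if t = C.w i + C.w j then 1 else 0
  obtain ⟨e1, e2⟩ := C.diag φ (z := z) (z' := WithLp.toLp 2 fun m => φ (C.w m) * z m)
    (fun _ => rfl)
  have e : (WithLp.toLp 2 fun m => φ (C.w m) * z m : Eu C.d) = z := by
    refine C.ext ?_ ?_
    · rw [e1]
      ext a b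
      rw [hd_apply]
      by_cases hab : D.μ a - D.μ b = C.w i + C.w j
      · simp [φ, hab]
      · rw [hp a b hab, mul_zero]
    · rw [e2, ha, smul_zero]
  have e3 : φ (C.w m) * z m = z m := congrArg (fun v : Eu C.d => v m) e
  by_contra hc
  simp only [φ, if_neg hc, zero_mul] at e3
  exact h e3.symm

include h3 h4

theorem Crd.star_assoc (x y z : Eu C.d) : star (star x y) z = star x (star y z) := by
  refine C.ext_j ?_ ?_
  · have hx := C.j_mem x
    have hy := C.j_mem y
    have hz := C.j_mem z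
    rw [h3, h3, h3, h3]
    refine exp_inj_Fl (st_mem_Fl (st_mem_Fl hx hy) hz) (st_mem_Fl hx (st_mem_Fl hy hz)) ?_
    rw [exp_st (st_mem_Fl hx hy) hz, exp_st hx (st_mem_Fl hy hz), exp_st hx hy, exp_st hy hz,
      mul_assoc]
  · rw [h4, h4, h4, h4, add_assoc]

theorem Crd.star_conj (x y : Eu C.d) : star (star x y) (-x) =
    ∑ j ∈ Finset.range (D.n + 1), ((j.factorial : ℝ)⁻¹) • ((br x) ^ j) y := by
  refine C.ext_j ?_ ?_
  · have hx := C.j_mem x
    have hy := C.j_mem y
    have hx' : -C.j x ∈ Fl D.n 1 := (Fl D.n 1).neg_mem hx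
    have key : ∀ i : ℕ, C.j (((br x) ^ i) y) = ((cm D.n (C.j x)) ^ i) (C.j y) := by
      intro i
      induction i with
      | zero => rfl
      | succ i ih => rw [pow_succ', pow_succ', Module.End.mul_apply, Module.End.mul_apply, h1, ih]
    rw [h3, h3, map_neg, map_sum]
    simp only [map_smul, key]
    rw [← exp_conj_cm hx (Fl_le (Nat.zero_le 1) hy) (Nat.le_succ _)]
    refine exp_inj_Fl (st_mem_Fl (st_mem_Fl hx hy) hx')
      (Fl_mul (Fl_mul (exp_mem_Fl hx) hy) (exp_mem_Fl hx')) ?_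
    rw [exp_st (st_mem_Fl hx hy) hx', exp_st hx hy, exp_conj_mat (exp_mul_neg hx).1 hy]
  · rw [h4, h4, map_neg, map_sum, Finset.sum_range_succ', Finset.sum_eq_zero]
    · simp
    · intro i _
      rw [map_smul, pow_succ', Module.End.mul_apply, h2, smul_zero]

end Vale.Agent.P188.PM
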