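import Vale.Agent.P188.M.Fil

/-! P188 part M, file OB: orthonormal weight coordinates.

PLAN. `exists_ob`: `V t = {x : S | x i = 0 whenever ω i ≠ t}` for `t` in the finite set `range ω` is an
orthogonal family of subspaces of `S` with sum `⊤` (`DirectSum.IsInternal` from
`OrthogonalFamily.isInternal_iff` or `isInternal_submodule_of_iSupIndep_of_iSup_eq_top`);
`DirectSum.IsInternal.subordinateOrthonormalBasis`, `subordinateOrthonormalBasis_subordinate`;
`b = S.subtype ∘ basis.repr.symm`. `exists_crd`: `ι = (Fin n × Fin n × Bool) ⊕ Fin k`,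
`ω (inl (a, b, _)) = μ a - μ b`, `ω (inr _) = 0`; `pr0 : EuclideanSpace ℝ ι → Mat n` has entries
`x (inl (a, b, true)) + x (inl (a, b, false)) * I`, `a00 x l = x (inr l)`; `S = W.comap pr0`; masks by `D.W_μ`
with `φ` an indicator. `Crd.ext`: the norm formula for the difference. `Crd.diag`: linearity, check on
`EuclideanSpace.single i 1`. `Crd.lift`: `z ↦ (pr z, a0 z)` is a linear equivalence onto `W × Eu k`;
`LinearMap.det_conj`, `LinearMap.det_prodMap`. -/

namespace Vale.Agent.P188.PM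

universe u

theorem exists_ob {ι β : Type*} [Fintype ι] [DecidableEq β] (ω : ι → β)
    (S : Submodule ℝ (EuclideanSpace ℝ ι))
    (hS : ∀ t, ∀ x ∈ S, (WithLp.toLp 2 fun i => if ω i = t then x i else 0) ∈ S) :
    ∃ (d : ℕ) (b : Eu d →ₗ[ℝ] EuclideanSpace ℝ ι) (w : Fin d → β), (∀ z, ‖b z‖ = ‖z‖) ∧
      LinearMap.range b = S ∧ ∀ j i, b (EuclideanSpace.single j 1) i ≠ 0 → ω i = w j := by
  classical
  let V : (Finset.univ.image ω) → Submodule ℝ S := fun t =>
    { carrier := {x | ∀ i, ω i ≠ t → x.1 i = 0}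
      add_mem' := fun {x y} hx hy i h => by
        change x.1 i + y.1 i = 0
        rw [hx i h, hy i h, add_zero]
      zero_mem' := fun _ _ => rfl
      smul_mem' := fun c x hx i h => by
        change c * x.1 i = 0
        rw [hx i h, mul_zero] }
  have h1 : OrthogonalFamily ℝ (fun t => V t) fun t => (V t).subtypeₗᵢ := by
    intro t t' h x y
    change inner ℝ x.1.1 y.1.1 = 0
    rw [PiLp.inner_apply]
    refine Finset.sum_eq_zero fun i _ => ?_
    by_cases c : ω i = t
    · rw [y.2 i fun e => h (Subtype.ext (c.symm.trans e)), inner_zero_right]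
    · rw [x.2 i c, inner_zero_left]
  have h2 : DirectSum.IsInternal V := by
    rw [h1.isInternal_iff, Submodule.orthogonal_eq_bot_iff, eq_top_iff]
    intro x _
    have e : x = ∑ t : Finset.univ.image ω,
        (⟨WithLp.toLp 2 fun i => if ω i = t then x.1 i else 0, hS t x x.2⟩ : S) := by
      ext i
      simp only [AddSubmonoidClass.coe_finsetSum, WithLp.ofLp_sum, Finset.sum_apply]
      rw [Finset.sum_eq_single ⟨ω i, Finset.mem_image_of_mem _ (Finset.mem_univ i)⟩
        (fun t _ h => if_neg fun e => h (Subtype.ext e.symm)) fun h => absurd (Finset.mem_univ _) h,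
        if_pos rfl]
    rw [e]
    exact Submodule.sum_mem _ fun t _ => Submodule.mem_iSup_of_mem t fun i h => if_neg h
  let B := h2.subordinateOrthonormalBasis rfl h1
  refine ⟨_, S.subtype ∘ₗ B.repr.symm.toLinearEquiv.toLinearMap,
    fun j => (h2.subordinateOrthonormalBasisIndex rfl j h1).1, fun z => B.repr.symm.norm_map z, ?_,
    fun j i h => ?_⟩
  · rw [LinearMap.range_comp_of_range_eq_top _ (LinearEquiv.range _), Submodule.range_subtype]
  · by_contra c
    refine h ?_
    change (B.repr.symm (EuclideanSpace.single j 1)).1 i = 0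
    rw [B.repr_symm_single]
    exact h2.subordinateOrthonormalBasis_subordinate rfl j h1 i c


variable {Γ : Type u} [Group Γ] {D : Mod Γ}

/-- the matrix part of the real coordinates -/
def pr_OB (n k : ℕ) : EuclideanSpace ℝ ((Fin n × Fin n × Bool) ⊕ Fin k) →ₗ[ℝ] Mat n where
  toFun x := Matrix.of fun a b => ⟨x (.inl (a, b, true)), x (.inl (a, b, false))⟩
  map_add' _ _ := rfl
  map_smul' c x := by
    ext a b
    apply Complex.ext <;> simp

/-- the vector part of the real coordinates -/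
def a0_OB (n k : ℕ) : EuclideanSpace ℝ ((Fin n × Fin n × Bool) ⊕ Fin k) →ₗ[ℝ] Eu k where
  toFun x := WithLp.toLp 2 fun l => x (.inr l)
  map_add' _ _ := rfl
  map_smul' _ _ := rfl

theorem norm_OB {n k : ℕ} (x : EuclideanSpace ℝ ((Fin n × Fin n × Bool) ⊕ Fin k)) :
    ‖x‖ ^ 2 = ∑ a, ∑ b, ‖pr_OB n k x a b‖ ^ 2 + ‖a0_OB n k x‖ ^ 2 := by
  rw [EuclideanSpace.real_norm_sq_eq, EuclideanSpace.real_norm_sq_eq, Fintype.sum_sum_type]
  congr 1
  simp only [Fintype.sum_prod_type, Fintype.sum_bool, Complex.sq_norm, Complex.normSq_apply]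
  simp only [sq]
  rfl

theorem sum_OB {d : ℕ} (z : Eu d) : z = ∑ i, z i • EuclideanSpace.single i (1 : ℝ) := by
  simpa using ((EuclideanSpace.basisFun (Fin d) ℝ).sum_repr z).symm

theorem exists_crd (D : Mod Γ) : Nonempty (Crd D) := by
  classical
  obtain ⟨d, b, w, h1, h2, h3⟩ := exists_ob
    (Sum.elim (fun p : Fin D.n × Fin D.n × Bool => D.μ p.1 - D.μ p.2.1) fun _ : Fin D.k => 0)
    (D.W.comap (pr_OB D.n D.k)) fun t x hx => by
      have h := D.W_μ (fun v => if v = t then 1 else 0) _ hx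
      rw [Submodule.mem_comap]
      convert h using 1
      ext a b
      rw [hd_apply]
      change (⟨if D.μ a - D.μ b = t then _ else 0, if D.μ a - D.μ b = t then _ else 0⟩ : ℂ) = _
      split_ifs
      · rw [Complex.ofReal_one, one_mul]
        rfl
      · rw [Complex.ofReal_zero, zero_mul]
        rfl
  refine ⟨⟨d, pr_OB D.n D.k ∘ₗ b, a0_OB D.n D.k ∘ₗ b, w, fun z => ?_, fun x hx v => ?_, fun z => ?_,
    fun i a c h => ?_, fun i h => ?_⟩⟩
  · exact h2.le (LinearMap.mem_range_self b z)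
  · let u : EuclideanSpace ℝ ((Fin D.n × Fin D.n × Bool) ⊕ Fin D.k) := WithLp.toLp 2
      (Sum.elim (fun p => if p.2.2 then (x p.1 p.2.1).re else (x p.1 p.2.1).im) v)
    have hu : pr_OB D.n D.k u = x := rfl
    obtain ⟨z, hz⟩ := h2.ge (Submodule.mem_comap.2 (hu.symm ▸ hx) : u ∈ _)
    exact ⟨z, (congrArg (pr_OB D.n D.k) hz).trans hu, congrArg (a0_OB D.n D.k) hz⟩
  · rw [← h1, norm_OB]
    rfl
  · by_contra c'
    exact h (Complex.ext (not_not.1 fun e => c' (h3 i (.inl (a, c, true)) e))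
      (not_not.1 fun e => c' (h3 i (.inl (a, c, false)) e)))
  · ext l
    exact not_not.1 fun e => h (h3 i (.inr l) e).symm


theorem Crd.ext (C : Crd D) {z z' : Eu C.d} (h1 : C.pr z = C.pr z') (h2 : C.a0 z = C.a0 z') :
    z = z' := by
  have h := C.norm (z - z')
  rw [map_sub, map_sub, h1, h2, sub_self, sub_self] at h
  simpa [sub_eq_zero] using h


theorem Crd.ext_j (C : Crd D) {z z' : Eu C.d} (h1 : C.j z = C.j z') (h2 : C.a0 z = C.a0 z') :
    z = z' := by
  rw [C.j_apply, C.j_apply, h2, add_left_inj] at h1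
  exact C.ext h1 h2


theorem Crd.diag (C : Crd D) (φ : Eu D.k → ℝ) {z z' : Eu C.d} (h : ∀ i, z' i = φ (C.w i) * z i) :
    C.pr z' = hd (fun a b => (φ (D.μ a - D.μ b) : ℂ)) (C.pr z) ∧ C.a0 z' = φ 0 • C.a0 z := by
  rw [sum_OB z', sum_OB z]
  simp only [map_sum, map_smul, h, Finset.smul_sum]
  refine ⟨Finset.sum_congr rfl fun i _ => ?_, Finset.sum_congr rfl fun i _ => ?_⟩
  · rw [mul_comm, mul_smul]
    congr 1
    ext a b
    rw [hd_apply, Matrix.smul_apply, Complex.real_smul]
    by_cases c : C.pr (EuclideanSpace.single i 1) a b = 0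
    · rw [c, mul_zero, mul_zero]
    · rw [C.pr_wt i a b c]
  · rw [smul_smul]
    by_cases c : C.w i = 0
    · rw [c]
    · rw [C.a0_wt i c, smul_zero, smul_zero]


theorem Crd.lift (C : Crd D) (S : D.W →ₗ[ℝ] D.W) : ∃ S' : Eu C.d →ₗ[ℝ] Eu C.d,
    (∀ z, C.pr (S' z) = S ⟨C.pr z, C.pr_mem z⟩ ∧ C.a0 (S' z) = C.a0 z) ∧
      LinearMap.det S' = LinearMap.det S := by
  let e : Eu C.d ≃ₗ[ℝ] D.W × Eu D.k := LinearEquiv.ofBijective
    ((C.pr.codRestrict D.W C.pr_mem).prod C.a0)
    ⟨fun z z' h => C.ext (congrArg (fun p => (p.1 : Mat D.n)) h) (congrArg Prod.snd h),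
      fun p => by
        obtain ⟨z, h1, h2⟩ := C.surj p.1 p.1.2 p.2
        exact ⟨z, Prod.ext (Subtype.ext h1) h2⟩⟩
  refine ⟨e.symm.toLinearMap ∘ₗ S.prodMap LinearMap.id ∘ₗ e.symm.symm.toLinearMap, fun z => ?_, ?_⟩
  · have h := e.apply_symm_apply (S.prodMap LinearMap.id (e z))
    exact ⟨congrArg (fun p => (p.1 : Mat D.n)) h, congrArg Prod.snd h⟩
  · rw [LinearMap.det_conj, LinearMap.det_prodMap, LinearMap.det_id, mul_one]


end Vale.Agent.P188.PM
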