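import Vale.Agent.P188.M.GDefs

/-! P188 part M, file Quot: integral matrices from an invariant cofinite subgroup.

PLAN. `exists_quot_rep`: `Q = (M ⧸ I) ⧸ Submodule.torsion ℤ (M ⧸ I)` is finite and torsion free, so free
(`Module.free_of_finite_type_torsion_free'`); `q` = coordinates in `Module.finBasis` composed with the
two quotient maps. Take a linear section `s` of `q` (`LinearMap.exists_rightInverse_of_surjective`, or
`Module.projective_lifting_property`), `σ g = LinearMap.toMatrix' (q ∘ A g ∘ s)`; the kernel of `q` is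
invariant, so `q (A g x) = q (A g (s (q x)))`; matrices with the same `mulVec` are equal.
`lin_of_fil`: `I = F c`; by induction on the list, `(l.map ..).prod *ᵥ q x = q y` with
`y ∈ F l.length`, for every `x`. -/

namespace Vale.Agent.P188.PM

open Matrix

theorem exists_q_Quot {M : Type*} [AddCommGroup M] (I : Submodule ℤ M) (hB : Cof I) :
    ∃ (n : ℕ) (q : M →ₗ[ℤ] (Fin n → ℤ)), Function.Surjective q ∧
      ∀ x, q x = 0 ↔ ∃ k : ℤ, k ≠ 0 ∧ k • x ∈ I := by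
  obtain ⟨B, hB, hBI⟩ := hB
  have : Module.Finite ℤ (M ⧸ I) := ⟨by
    rw [← (Submodule.map_mkQ_eq_top I B).2 (by rw [sup_comm, hBI])]
    exact hB.map _⟩
  let b := Module.finBasis ℤ ((M ⧸ I) ⧸ Submodule.torsion ℤ (M ⧸ I))
  refine ⟨_, b.equivFun.toLinearMap ∘ₗ (Submodule.torsion ℤ (M ⧸ I)).mkQ ∘ₗ I.mkQ,
    b.equivFun.surjective.comp ((Submodule.mkQ_surjective _).comp I.mkQ_surjective), fun x => ?_⟩
  rw [LinearMap.comp_apply, LinearEquiv.coe_coe, LinearEquiv.map_eq_zero_iff, LinearMap.comp_apply,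
    Submodule.mkQ_apply, Submodule.Quotient.mk_eq_zero, Submodule.mem_torsion_iff]
  constructor
  · rintro ⟨⟨k, hk⟩, h⟩
    refine ⟨k, nonZeroDivisors.ne_zero hk, (Submodule.Quotient.mk_eq_zero I).1 ?_⟩
    rw [Submodule.Quotient.mk_smul]
    exact h
  · rintro ⟨k, hk, h⟩
    refine ⟨⟨k, mem_nonZeroDivisors_of_ne_zero hk⟩, ?_⟩
    have := (Submodule.Quotient.mk_eq_zero I).2 h
    rwa [Submodule.Quotient.mk_smul] at this

theorem ext_Quot {M : Type*} [AddCommGroup M] {n : ℕ} {q : M →ₗ[ℤ] (Fin n → ℤ)}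
    (hq : Function.Surjective q) {X Y : Matrix (Fin n) (Fin n) ℤ}
    (h : ∀ x, X *ᵥ q x = Y *ᵥ q x) : X = Y :=
  Matrix.toLin'.injective (LinearMap.ext fun v => by
    obtain ⟨x, rfl⟩ := hq v
    exact h x)

theorem exists_quot_rep {G M : Type*} [Group G] [AddCommGroup M] (A : G →* Module.End ℤ M)
    (I : Submodule ℤ M) (hI : ∀ g, ∀ x ∈ I, A g x ∈ I) (hB : Cof I) :
    ∃ (n : ℕ) (σ : G →* Matrix (Fin n) (Fin n) ℤ) (q : M →ₗ[ℤ] (Fin n → ℤ)),
      Function.Surjective q ∧ (∀ x ∈ I, q x = 0) ∧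
      (∀ x, q x = 0 → ∃ k : ℤ, k ≠ 0 ∧ k • x ∈ I) ∧ ∀ g x, q (A g x) = σ g *ᵥ q x := by
  obtain ⟨n, q, hq, hk⟩ := exists_q_Quot I hB
  obtain ⟨s, hs⟩ := q.exists_rightInverse_of_surjective (LinearMap.range_eq_top.2 hq)
  have key : ∀ g x, q (A g x) = LinearMap.toMatrix' (q ∘ₗ A g ∘ₗ s) *ᵥ q x := fun g x => by
    have h1 : q (x - s (q x)) = 0 := by
      rw [map_sub, ← LinearMap.comp_apply q s, hs, LinearMap.id_apply, sub_self]
    obtain ⟨k, k0, h2⟩ := (hk _).1 h1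
    have h3 : q (A g (x - s (q x))) = 0 := (hk _).2 ⟨k, k0, by
      rw [← map_smul]
      exact hI g _ h2⟩
    rw [map_sub, map_sub, sub_eq_zero] at h3
    rw [h3, LinearMap.toMatrix'_mulVec]
    rfl
  refine ⟨n, ⟨⟨fun g => LinearMap.toMatrix' (q ∘ₗ A g ∘ₗ s), ext_Quot hq fun x => ?_⟩,
    fun g h => ext_Quot hq fun x => ?_⟩, q, hq,
    fun x hx => (hk x).2 ⟨1, one_ne_zero, by rwa [one_smul]⟩, fun x => (hk x).1, key⟩
  · rw [← key, map_one, Matrix.one_mulVec]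
    rfl
  · rw [← Matrix.mulVec_mulVec, ← key, ← key, ← key, map_mul]
    rfl

theorem lin_of_fil {G M : Type*} [Group G] [AddCommGroup M] (A : G →* Module.End ℤ M)
    (F : ℕ → Submodule ℤ M) (c : ℕ) (h0 : F 0 = ⊤) (anti : ∀ w, F (w + 1) ≤ F w)
    (hI : ∀ g, ∀ x ∈ F c, A g x ∈ F c) (hB : Cof (F c)) (N : Subgroup G)
    (hN : ∀ u ∈ N, ∀ w, ∀ x ∈ F w, A u x - x ∈ F (w + 1))
    (faith : ∀ g, (∀ x, ∃ k : ℤ, k ≠ 0 ∧ k • (A g x - x) ∈ F c) → g = 1) : Lin G N := by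
  obtain ⟨n, σ, q, hq, h1, h2, h3⟩ := exists_quot_rep A (F c) hI hB
  refine ⟨n, c, σ, (injective_iff_map_eq_one σ).2 fun g hg => faith g fun x => h2 _ ?_,
    fun l hl hc => ?_⟩
  · rw [map_sub, h3, hg, Matrix.one_mulVec, sub_self]
  · have key : ∀ l : List G, (∀ x ∈ l, x ∈ N) → ∀ x, ∃ y ∈ F l.length,
        (l.map fun x => σ x - 1).prod *ᵥ q x = q y := by
      intro l
      induction l with
      | nil => exact fun _ x => ⟨x, h0 ▸ Submodule.mem_top, Matrix.one_mulVec _⟩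
      | cons u l ih =>
        intro hl x
        obtain ⟨y, hy, e⟩ := ih (fun x hx => hl x (List.mem_cons_of_mem _ hx)) x
        refine ⟨A u y - y, hN u (hl u List.mem_cons_self) _ y hy, ?_⟩
        rw [List.map_cons, List.prod_cons, ← Matrix.mulVec_mulVec, e, Matrix.sub_mulVec,
          Matrix.one_mulVec, map_sub, h3]
    refine ext_Quot hq fun x => ?_
    obtain ⟨y, hy, e⟩ := key l hl x
    rw [e, Matrix.zero_mulVec]
    exact h1 y (antitone_nat_of_succ_le anti hc hy)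

end Vale.Agent.P188.PM
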