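import Vale.Agent.P188.M.Build
import Vale.Agent.P188.M.Cofin

/-! P188 part M, file Swan1: the step inside a nilpotent group.

PLAN. `R = ℤ[H]`, `H = e.ker`, `Z j = lowerCentralSeries G j`, `Z s = ⊥` with `s ≥ 1`. Inductive predicate
`Wt : ℕ → R → Prop`: `Wt 0 x`; `Wt (j + 1) (of h - 1)` if `(h : G) ∈ Z j`; `Wt w 0`; closed under sums,
negatives, `Wt v x → Wt w y → Wt (v + w) (x * y)`, `Wt (w + 1) x → Wt w x`. `F w = {x | Wt w x}`.
(a) `cj g` preserves `Wt w`. (b) `Wt w x → Wt (w + 1) (cj g x - x)`: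
`cj g (of h) - of h = (of ⁅g, h⁆ - 1) * of h`, `τ (x y) - x y = (τ x - x) τ y + x (τ y - y)`;
`MonoidAlgebra.induction_on` for `w = 0`. Then `of h * τ x - x = (of h - 1) * τ x + (τ x - x)`.
(c) with `L = span {of h - 1}` (a two-sided ideal: `of g * (of h - 1) = (of (g h) - 1) - (of g - 1)`;
cofinite with `B = span {1}`): `L ^ w ≤ F w` (so `cof_pow`, `Cof.mono`), and
`Wt w x → x ∈ ⊤ * L ^ ((w + s - 1) / s)` (these ideals decrease and multiply; note `L ^ 0 = 1 ≠ ⊤`), so
`F (c * s) ≤ ⊤ * L ^ c`, `span_pow_le`. -/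

namespace Vale.Agent.P188.PM

section

variable {G : Type*} [Group G]

/-- weights in the group ring -/
inductive Wt_Swan1 (H : Subgroup G) : ℕ → MonoidAlgebra ℤ H → Prop
  | base (x) : Wt_Swan1 H 0 x
  | gen (j : ℕ) (h : H) : (h : G) ∈ (⊤ : Subgroup G).lowerCentralSeries j →
      Wt_Swan1 H (j + 1) (MonoidAlgebra.of ℤ H h - 1)
  | zero (w) : Wt_Swan1 H w 0
  | add {w x y} : Wt_Swan1 H w x → Wt_Swan1 H w y → Wt_Swan1 H w (x + y)
  | neg {w x} : Wt_Swan1 H w x → Wt_Swan1 H w (-x)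
  | mul {v w x y} : Wt_Swan1 H v x → Wt_Swan1 H w y → Wt_Swan1 H (v + w) (x * y)
  | down {w x} : Wt_Swan1 H (w + 1) x → Wt_Swan1 H w x

variable {H : Subgroup G}

theorem left_Swan1 {w : ℕ} {x : MonoidAlgebra ℤ H} (r : MonoidAlgebra ℤ H) (h : Wt_Swan1 H w x) :
    Wt_Swan1 H w (r * x) := by
  have := (Wt_Swan1.base r).mul h
  rwa [zero_add] at this

theorem smul_Swan1 {w : ℕ} {x : MonoidAlgebra ℤ H} (r : ℤ) (h : Wt_Swan1 H w x) :
    Wt_Swan1 H w (r • x) := by
  rw [zsmul_eq_mul]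
  exact left_Swan1 _ h

/-- the filtration by weights -/
def F_Swan1 (H : Subgroup G) (w : ℕ) : Submodule ℤ (MonoidAlgebra ℤ H) where
  carrier := {x | Wt_Swan1 H w x}
  zero_mem' := Wt_Swan1.zero w
  add_mem' := Wt_Swan1.add
  smul_mem' := fun r _ h => smul_Swan1 r h

theorem cj_Swan1 [H.Normal] (g : G) {w : ℕ} {x : MonoidAlgebra ℤ H} (h : Wt_Swan1 H w x) :
    Wt_Swan1 H w (cj H g x) := by
  induction h with
  | base x => exact .base _
  | gen j h hh =>
    rw [map_sub, map_one, cj_of]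
    refine .gen j _ ?_
    rw [MulAut.conjNormal_apply]
    exact Subgroup.Normal.conj_mem inferInstance _ hh g
  | zero w => rw [map_zero]; exact .zero w
  | add _ _ h1 h2 => rw [map_add]; exact h1.add h2
  | neg _ h1 => rw [map_neg]; exact h1.neg
  | mul _ _ h1 h2 => rw [map_mul]; exact h1.mul h2
  | down _ h1 => exact h1.down

theorem cj_sub_Swan1 [H.Normal] (g : G) (h : H) :
    cj H g (MonoidAlgebra.of ℤ H h) - MonoidAlgebra.of ℤ H h =
      (MonoidAlgebra.of ℤ H (MulAut.conjNormal g h * h⁻¹) - 1) * MonoidAlgebra.of ℤ H h := by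
  rw [cj_of, sub_mul, one_mul, ← map_mul, inv_mul_cancel_right]

theorem step_Swan1 [H.Normal] (g : G) {w : ℕ} {x : MonoidAlgebra ℤ H} (h : Wt_Swan1 H w x) :
    Wt_Swan1 H (w + 1) (cj H g x - x) := by
  induction h with
  | base x =>
    induction x using MonoidAlgebra.induction_on with
    | of h =>
      rw [cj_sub_Swan1]
      exact (Wt_Swan1.gen 0 _ (Subgroup.mem_top _)).mul (.base _)
    | add x y hx hy =>
      rw [map_add, add_sub_add_comm]
      exact hx.add hy
    | smul r x hx =>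
      rw [map_smul, ← smul_sub]
      exact smul_Swan1 r hx
  | gen j h hh =>
    rw [map_sub, map_one, sub_sub_sub_cancel_right, cj_sub_Swan1]
    refine (Wt_Swan1.gen (j + 1) _ ?_).mul (.base _)
    rw [Subgroup.lowerCentralSeries_succ, Subgroup.commutator_comm, Subgroup.coe_mul,
      MulAut.conjNormal_apply, Subgroup.coe_inv]
    exact Subgroup.commutator_mem_commutator (Subgroup.mem_top g) hh
  | zero w => rw [map_zero, sub_zero]; exact .zero _
  | add _ _ h1 h2 => rw [map_add, add_sub_add_comm]; exact h1.add h2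
  | neg _ h1 => rw [map_neg, ← neg_sub', ]; exact h1.neg
  | @mul v w x y hx hy h1 h2 =>
    have e : cj H g (x * y) - x * y = (cj H g x - x) * cj H g y + x * (cj H g y - y) := by
      rw [map_mul]; noncomm_ring
    rw [e]
    refine Wt_Swan1.add ?_ (hx.mul h2)
    have := h1.mul (cj_Swan1 g hy)
    rwa [add_right_comm] at this
  | down _ h1 => exact h1.down

/-- the augmentation ideal -/
noncomputable def L_Swan1 (H : Subgroup G) : Submodule ℤ (MonoidAlgebra ℤ H) :=
  Submodule.span ℤ {y | ∃ h ∈ (⊤ : Subgroup H), y = MonoidAlgebra.of ℤ H h - 1}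

theorem mem_L_Swan1 (h : H) : MonoidAlgebra.of ℤ H h - 1 ∈ L_Swan1 H :=
  Submodule.subset_span ⟨h, Subgroup.mem_top h, rfl⟩

theorem L_left_Swan1 (r : MonoidAlgebra ℤ H) : ∀ x ∈ L_Swan1 H, r * x ∈ L_Swan1 H := by
  intro x hx
  induction hx using Submodule.span_induction with
  | mem y hy =>
    obtain ⟨h, -, rfl⟩ := hy
    induction r using MonoidAlgebra.induction_on with
    | of g =>
      have := sub_mem (mem_L_Swan1 (g * h)) (mem_L_Swan1 g)
      rwa [sub_sub_sub_cancel_right, map_mul, ← mul_sub_one] at this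
    | add a b ha hb => rw [add_mul]; exact add_mem ha hb
    | smul c a ha => rw [smul_mul_assoc]; exact Submodule.smul_mem _ c ha
  | zero => rw [mul_zero]; exact zero_mem _
  | add a b _ _ ha hb => rw [mul_add]; exact add_mem ha hb
  | smul c a _ ha => rw [mul_smul_comm]; exact Submodule.smul_mem _ c ha

theorem L_right_Swan1 (r : MonoidAlgebra ℤ H) : ∀ x ∈ L_Swan1 H, x * r ∈ L_Swan1 H := by
  intro x hx
  induction hx using Submodule.span_induction with
  | mem y hy =>
    obtain ⟨h, -, rfl⟩ := hy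
    induction r using MonoidAlgebra.induction_on with
    | of g =>
      have := sub_mem (mem_L_Swan1 (h * g)) (mem_L_Swan1 g)
      rwa [sub_sub_sub_cancel_right, map_mul, ← sub_one_mul] at this
    | add a b ha hb => rw [mul_add]; exact add_mem ha hb
    | smul c a ha => rw [mul_smul_comm]; exact Submodule.smul_mem _ c ha
  | zero => rw [zero_mul]; exact zero_mem _
  | add a b _ _ ha hb => rw [add_mul]; exact add_mem ha hb
  | smul c a _ ha => rw [smul_mul_assoc]; exact Submodule.smul_mem _ c ha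

theorem L_cof_Swan1 : Cof (L_Swan1 H) := by
  refine ⟨Submodule.span ℤ {1}, Submodule.fg_span (Set.finite_singleton _), eq_top_iff.2 ?_⟩
  intro x _
  induction x using MonoidAlgebra.induction_on with
  | of g =>
    have := Submodule.add_mem_sup (Submodule.mem_span_singleton_self (R := ℤ)
      (1 : MonoidAlgebra ℤ H)) (mem_L_Swan1 g)
    rwa [add_sub_cancel] at this
  | add a b ha hb => exact add_mem (ha Submodule.mem_top) (hb Submodule.mem_top)
  | smul c a ha => exact Submodule.smul_mem _ c (ha Submodule.mem_top)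

theorem L_pow_Swan1 (w : ℕ) : L_Swan1 H ^ w ≤ F_Swan1 H w := by
  induction w with
  | zero => exact fun x _ => Wt_Swan1.base x
  | succ w ih =>
    rw [pow_succ, Submodule.mul_le]
    intro x hx y hy
    have h1 : L_Swan1 H ≤ F_Swan1 H 1 := Submodule.span_le.2 <| by
      rintro _ ⟨h, -, rfl⟩
      exact Wt_Swan1.gen 0 h (Subgroup.mem_top _)
    exact Wt_Swan1.mul (ih hx) (h1 hy)

theorem le_top_mul_Swan1 (P : Submodule ℤ (MonoidAlgebra ℤ H)) : P ≤ ⊤ * P := fun x hx => by
  have := Submodule.mul_mem_mul (Submodule.mem_top (x := (1 : MonoidAlgebra ℤ H))) hx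
  rwa [one_mul] at this

theorem T_mul_Swan1 (a b : ℕ) :
    (⊤ * L_Swan1 H ^ a) * (⊤ * L_Swan1 H ^ b) ≤ ⊤ * L_Swan1 H ^ (a + b) := by
  have h1 : L_Swan1 H ^ a * ⊤ ≤ ⊤ * L_Swan1 H ^ a := by
    cases a with
    | zero => rw [pow_zero, one_mul, mul_one]
    | succ a =>
      refine le_trans ?_ (le_top_mul_Swan1 _)
      rw [pow_succ, mul_assoc]
      exact mul_le_mul_right (Submodule.mul_le.2 fun x hx y _ => L_right_Swan1 y x hx) _
  calc (⊤ * L_Swan1 H ^ a) * (⊤ * L_Swan1 H ^ b)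
      = ⊤ * (L_Swan1 H ^ a * ⊤) * L_Swan1 H ^ b := by simp only [mul_assoc]
    _ ≤ ⊤ * (⊤ * L_Swan1 H ^ a) * L_Swan1 H ^ b := mul_le_mul_left (mul_le_mul_right h1 _) _
    _ = (⊤ * ⊤) * L_Swan1 H ^ (a + b) := by simp only [mul_assoc, pow_add]
    _ ≤ _ := mul_le_mul_left le_top _

theorem Wt_mem_Swan1 {s : ℕ} (hs0 : 0 < s) (hs : (⊤ : Subgroup G).lowerCentralSeries s = ⊥)
    {w : ℕ} {x : MonoidAlgebra ℤ H} (h : Wt_Swan1 H w x) :
    ∀ k, k * s < w + s → x ∈ ⊤ * L_Swan1 H ^ k := by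
  have h0 : ∀ y : MonoidAlgebra ℤ H, y ∈ ⊤ * L_Swan1 H ^ 0 := fun y => by
    rw [pow_zero, mul_one]; exact Submodule.mem_top
  induction h with
  | base x =>
    intro k hk
    have : k = 0 := by
      rcases k with _ | k
      · rfl
      · rw [add_mul] at hk; omega
    rw [this]
    exact h0 x
  | gen j h hh =>
    intro k hk
    by_cases hj : j < s
    · rcases k with _ | _ | k
      · exact h0 _
      · rw [zero_add, pow_one]
        exact le_top_mul_Swan1 _ (mem_L_Swan1 h)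
      · rw [add_mul, add_mul] at hk; omega
    · have h1 := Subgroup.lowerCentralSeries_antitone (S := (⊤ : Subgroup G)) (not_lt.1 hj) hh
      rw [hs, Subgroup.mem_bot, OneMemClass.coe_eq_one] at h1
      rw [h1, map_one, sub_self]
      exact zero_mem _
  | zero w => exact fun _ _ => zero_mem _
  | add _ _ h1 h2 => exact fun k hk => add_mem (h1 k hk) (h2 k hk)
  | neg _ h1 => exact fun k hk => neg_mem (h1 k hk)
  | @mul v w x y _ _ h1 h2 =>
    intro k hk
    have e1 := Nat.div_add_mod (v + s - 1) s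
    have e2 := Nat.mod_lt (v + s - 1) hs0
    rw [mul_comm] at e1
    set a := (v + s - 1) / s
    by_cases hka : k ≤ a
    · have := Nat.mul_le_mul_right s hka
      exact T_mul_Swan1 k 0 (Submodule.mul_mem_mul (h1 k (by omega)) (h0 y))
    · obtain ⟨b, rfl⟩ := Nat.exists_eq_add_of_le (not_le.1 hka).le
      rw [add_mul] at hk
      exact T_mul_Swan1 a b (Submodule.mul_mem_mul (h1 a (by omega)) (h2 b (by omega)))
  | down _ h1 => exact fun k hk => h1 k (by omega)

end

theorem swan1 {G : Type*} [Group G] [Group.IsNilpotent G] (e : G →* Multiplicative ℤ) (t : G)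
    (ht : e t = Multiplicative.ofAdd 1) [Group.FG e.ker] (h : Lin e.ker ⊤) : Lin G ⊤ := by
  obtain ⟨n, c, ρ, hρ, hc⟩ := h
  obtain ⟨s0, hs0⟩ := Subgroup.nilpotent_iff_lowerCentralSeries.1 ‹Group.IsNilpotent G›
  have hs : (⊤ : Subgroup G).lowerCentralSeries (s0 + 1) = ⊥ := eq_bot_iff.2
    (hs0 ▸ Subgroup.lowerCentralSeries_antitone (S := (⊤ : Subgroup G)) s0.le_succ)
  have hft : Algebra.FiniteType ℤ (MonoidAlgebra ℤ e.ker) :=
    MonoidAlgebra.finiteType_iff_group_fg.2 inferInstance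
  have : @Algebra.FiniteType ℤ (MonoidAlgebra ℤ e.ker) _ _ (Ring.toIntAlgebra _) := by
    have e1 : Ring.toIntAlgebra (MonoidAlgebra ℤ e.ker) = MonoidAlgebra.algebra :=
      Subsingleton.elim _ _
    rw [e1]
    exact hft
  refine swan_build e t ht ρ hρ (F_Swan1 e.ker) (c * (s0 + 1))
    (eq_top_iff.2 fun x _ => Wt_Swan1.base x) (fun w x hx => Wt_Swan1.down hx)
    (fun w h x hx => left_Swan1 _ hx) (fun w g x hx => cj_Swan1 g hx)
    (fun w => (cof_pow _ L_left_Swan1 L_right_Swan1 L_cof_Swan1 w).mono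
      fun x hx => Wt_Swan1.down (L_pow_Swan1 _ hx)) (fun x hx => ?_) ⊤ fun h j _ w x hx => ?_
  · refine Submodule.mul_induction_on
      (Wt_mem_Swan1 (s := s0 + 1) s0.succ_pos hs hx c (by omega))
      (fun r _ y hy => ?_) fun a b ha hb => ?_
    · have h0 := span_pow_le ρ ⊤ c hc hy
      have h1 : MonoidAlgebra.lift ℤ (Matrix (Fin n) (Fin n) ℤ) e.ker ρ y = 0 := by
        have e1 : Ring.toIntAlgebra (Matrix (Fin n) (Fin n) ℤ) = Matrix.instAlgebra :=
          Subsingleton.elim _ _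
        rw [e1] at h0
        exact h0
      rw [map_mul, h1, mul_zero]
    · rw [map_add, ha, hb, add_zero]
  · have e1 : MonoidAlgebra.of ℤ e.ker h * cj e.ker (t ^ j) x - x =
        (MonoidAlgebra.of ℤ e.ker h - 1) * cj e.ker (t ^ j) x + (cj e.ker (t ^ j) x - x) := by
      noncomm_ring
    rw [e1]
    refine Wt_Swan1.add ?_ (step_Swan1 _ hx)
    have := (Wt_Swan1.gen 0 h (Subgroup.mem_top _)).mul (cj_Swan1 (t ^ j) hx)
    rwa [zero_add, add_comm] at this

end Vale.Agent.P188.PM
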