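import Vale.Agent.P188.M.PZ

/-! P188 part M, file Virt: virtually polycyclic groups are virtually poly-`ℤ`.

PLAN. `virt_step`: `H` is finitely generated (it has the finitely generated finite-index subgroup `K`:
add coset representatives). `exists_norm` gives `K1`. If some `t ^ k`, `k ≠ 0`, lies in `H`, then `H` has
finite index and `K1` works (length `m + 1`, trivial `e`). Otherwise `G ⧸ H` is infinite cyclic
(`zpowers` of the image of `t`; `intCyclicMulEquiv`, `zmultiplesHom`, or define `e g` as the unique `j`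
with `g * (t ^ j)⁻¹ ∈ H`); take `K1 ⊔ zpowers t` (`fi_sup` with `k = 1`); the kernel of `e` on it is
`K1` (`Subgroup.mem_sup_of_normal_left` or `Subgroup.normal_mul`), `PolyZ.of_inj`.
`polyZ_of_polycyclic`: induction on `i ≤ m` for the groups `s i`, using
`Subgroup.subgroupOfEquivOfLe` and a generator of the cyclic quotient. -/

namespace Vale.Agent.P188.PM

universe u

theorem fg_Virt {G : Type u} [Group G] (K : Subgroup G) [K.FiniteIndex] (h : Group.FG K) :
    Group.FG G := by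
  obtain ⟨S, hS, hf⟩ := (Subgroup.fg_iff K).1 ((Group.fg_iff_subgroup_fg K).1 h)
  refine Group.fg_iff.2 ⟨S ∪ Set.range fun q : G ⧸ K => q.out, ?_, hf.union (Set.finite_range _)⟩
  refine eq_top_iff.2 fun g _ => ?_
  obtain ⟨k, hk⟩ := QuotientGroup.mk_out_eq_mul K g
  rw [← mul_inv_cancel_right g k, ← hk]
  refine mul_mem (Subgroup.subset_closure (Or.inr ⟨_, rfl⟩)) (inv_mem ?_)
  exact Subgroup.closure_mono Set.subset_union_left (hS.ge k.2)

theorem hom_Virt {G : Type u} [Group G] (H : Subgroup G) [hH : H.Normal] (t : G)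
    (ht : ∀ g : G, ∃ j : ℤ, g * (t ^ j)⁻¹ ∈ H) (h0 : ∀ j : ℤ, t ^ j ∈ H → j = 0) :
    ∃ e : G →* Multiplicative ℤ, ∀ g, e g = 1 → g ∈ H := by
  choose J hJ using ht
  refine ⟨MonoidHom.mk' (fun g => Multiplicative.ofAdd (J g)) fun g g' => ?_, fun g hg => ?_⟩
  · have h1 := mul_mem (inv_mem (hJ (g * g'))) (mul_mem (hJ g) (hH.conj_mem _ (hJ g') (t ^ J g)))
    have h2 : t ^ (J (g * g') - (J g + J g')) ∈ H := by
      convert h1 using 1
      group
    rw [sub_eq_zero.1 (h0 _ h2), ofAdd_add]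
  · have h1 : J g = 0 := hg
    simpa [h1] using hJ g

theorem equiv_Virt {A B : Type u} [Group A] [Group B] (φ : A ≃* B) (K : Subgroup B)
    (hK : K.FiniteIndex) {m : ℕ} (h : PolyZ m K) :
    (K.comap φ.toMonoidHom).FiniteIndex ∧ PolyZ m (K.comap φ.toMonoidHom) :=
  ⟨⟨by rw [K.index_comap_of_surjective φ.surjective]; exact hK.1⟩,
    h.of_inj (φ.toMonoidHom.subgroupComap K) fun _ _ e =>
      Subtype.ext (φ.injective (congrArg Subtype.val e))⟩

theorem virt_step {G : Type u} [Group G] (H : Subgroup G) [H.Normal] (t : G)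
    (ht : ∀ g : G, ∃ j : ℤ, g * (t ^ j)⁻¹ ∈ H) (K : Subgroup H) [K.FiniteIndex] {m : ℕ}
    (hK : PolyZ m K) : ∃ K' : Subgroup G, K'.FiniteIndex ∧ PolyZ (m + 1) K' := by
  have : Group.FG H := fg_Virt K hK.fg
  obtain ⟨K1, _, hle, _, hK1⟩ := exists_norm H K
  have hP : ∀ (L : Subgroup G) (M : Subgroup L), (∀ x ∈ M, (x : G) ∈ K1) → PolyZ m M :=
    fun L M hM => hK.of_inj (((L.subtype.comp M.subtype).codRestrict H
      fun x => hle (hM _ x.2)).codRestrict K fun x => hK1 (hM _ x.2)) fun _ _ e =>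
        Subtype.ext (Subtype.ext (congrArg (fun x : K => ((x : H) : G)) e))
  by_cases h0 : ∀ j : ℤ, t ^ j ∈ H → j = 0
  · obtain ⟨e, he⟩ := hom_Virt H t ht h0
    refine ⟨K1 ⊔ Subgroup.zpowers (t ^ 1), fi_sup H K1 hle t ht one_ne_zero,
      e.comp (Subgroup.subtype _), hP _ _ fun x hx => ?_⟩
    obtain ⟨y, hy, _, ⟨j, rfl⟩, e1⟩ := Subgroup.mem_sup_of_normal_left.1 x.2
    have h1 := mul_mem (inv_mem (hle hy)) (he x hx)
    rw [← e1, inv_mul_cancel_left, pow_one] at h1
    rw [← e1, h0 j h1]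
    simpa using hy
  · push Not at h0
    obtain ⟨j, hj, hj0⟩ := h0
    have h1 : (H.subgroupOf H).FiniteIndex := by
      rw [Subgroup.subgroupOf_self]
      infer_instance
    have h2 := fi_sup H H le_rfl t ht (Int.natAbs_ne_zero.2 hj0)
    rw [sup_eq_left.2 (Subgroup.zpowers_le_of_mem (by
      rcases Int.natAbs_eq j with e | e
      · rwa [e, zpow_natCast] at hj
      · rwa [e, zpow_neg, inv_mem_iff, zpow_natCast] at hj))] at h2
    refine ⟨K1, ⟨?_⟩, 1, hP _ _ fun x _ => x.2⟩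
    rw [← Subgroup.relIndex_mul_index hle]
    exact mul_ne_zero Subgroup.FiniteIndex.index_ne_zero h2.1

theorem polyZ_of_polycyclic {G : Type u} [Group G] (h : IsPolycyclic G) :
    ∃ (K : Subgroup G) (m : ℕ), K.FiniteIndex ∧ PolyZ m K := by
  obtain ⟨m, s, h0, hm, hs⟩ := h
  have key : ∀ i ≤ m, ∃ (K : Subgroup (s i)) (m' : ℕ), K.FiniteIndex ∧ PolyZ m' K := by
    intro i
    induction i with
    | zero =>
      refine fun _ => ⟨⊤, 0, inferInstance, ?_⟩
      rw [h0]
      exact (inferInstance : Subsingleton (⊤ : Subgroup (⊥ : Subgroup G)))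
    | succ i ih =>
      intro hi
      obtain ⟨K, m', hK, hP⟩ := ih (by omega)
      obtain ⟨hle, _, hc⟩ := hs i hi
      obtain ⟨h1, h2⟩ := equiv_Virt (Subgroup.subgroupOfEquivOfLe hle) K hK hP
      obtain ⟨τ, hτ⟩ := hc.exists_generator
      obtain ⟨t, rfl⟩ := QuotientGroup.mk_surjective τ
      obtain ⟨K', h3, h4⟩ := virt_step _ t (fun g => by
        obtain ⟨j, hj⟩ := hτ g
        refine ⟨j, (QuotientGroup.eq_one_iff _).1 ?_⟩
        rw [QuotientGroup.mk_mul, QuotientGroup.mk_inv, QuotientGroup.mk_zpow, ← hj,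
          mul_inv_cancel]) _ h2
      exact ⟨K', _, h3, h4⟩
  obtain ⟨K, m', hK, hP⟩ := key m le_rfl
  exact ⟨_, m', equiv_Virt (Subgroup.topEquiv.symm.trans (MulEquiv.subgroupCongr hm.symm)) K hK hP⟩

end Vale.Agent.P188.PM
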