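import Vale.Agent.P188.M.Cent
import Vale.Agent.P188.M.Gen

/-! P188 part M, file Ys: the nilshadow `W + span y` and the decomposition of `ϱ γ`.

PLAN. `exists_y`: `c l = exp (z l) * ϱ (gen l)` from `cent`, `d l` its diagonal, `u l = c l * diagonal (d l)⁻¹`,
`exp (y l) = u l` (`exp_surj`, `Sp.log`). All `diagonal (ϱ g a a)` commute with `Sp T.q` matrices (`Sp.comm`).
Conjugation by `u l` preserves `W` (`Cos.conj`, `diag_conj_mem`), so `cm_mem_of_conj` gives the third claim.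
Fourth claim: `u l ^ s * u l' * (u l)⁻¹ ^ s = (c l ^ s * c l' * (c l)⁻¹ ^ s) * diagonal (d l')⁻¹ =
exp x * u l'` (`Cos.mul`, `.pow`, `.inv`, `.congr`, `.div`), so `exp_conj_mat`, `exp_st`, `exp_inj_Fl`,
`st_sub_line` give `u l ^ s * y l' * (u l)⁻¹ ^ s - y l' ∈ W`. `lie_y`: bilinearity. `dec`: the `γ` with this
property form a subgroup (`st_sub_mem` with `W ⊔ span (range y)` and `W`; `exp_conj_mat` for the diagonal
matrices), `top_of_gen`, `of_diag`. -/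

namespace Vale.Agent.P188.PM

open IsNilpotent (exp)

universe u

variable {G : Type u} [Group G] (T : Tri G)

/-- the diagonal part -/
def Tri.D_Ys (g : G) : Mat T.n := Matrix.diagonal fun a => T.ϱ g a a

theorem Tri.D_mul_Ys (g h : G) : T.D_Ys g * T.D_Ys h = T.D_Ys (g * h) := by
  simp only [Tri.D_Ys, Matrix.diagonal_mul_diagonal, T.d_mul]

theorem Tri.D_one_Ys {g : G} (h : ∀ a, T.ϱ g a a = 1) : T.D_Ys g = 1 := by
  simp only [Tri.D_Ys, h, Matrix.diagonal_one]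

theorem Tri.D_inv_Ys (g : G) : T.D_Ys g * T.D_Ys g⁻¹ = 1 := by
  rw [T.D_mul_Ys, mul_inv_cancel]
  exact T.D_one_Ys fun a => by rw [map_one, Matrix.one_apply_eq]

theorem Tri.D_inv'_Ys (g : G) : T.D_Ys g⁻¹ * T.D_Ys g = 1 := by
  simpa only [inv_inv] using T.D_inv_Ys g⁻¹

theorem Tri.D_comm_Ys (g : G) {x : Mat T.n} (hx : Sp T.q x) : T.D_Ys g * x = x * T.D_Ys g :=
  hx.comm fun _ _ h => congrFun h g

theorem Tri.one_Ys (g : G) : ∃ y ∈ Fl T.n 1, Sp T.q y ∧ T.Cos g (exp y * T.D_Ys g) := by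
  obtain ⟨z, hz, hs⟩ := T.cent g
  have h0 := exp_mem_Fl (nl_le _ hz)
  have h1 : exp z * T.ϱ g ∈ Fl T.n 0 := Fl_mul h0 (T.tri g)
  have h2 : T.D_Ys g⁻¹ ∈ Fl T.n 0 := diagonal_mem_Fl _
  obtain ⟨y, hy, e⟩ := exp_surj (u := exp z * T.ϱ g * T.D_Ys g⁻¹) (Fl_mul h1 h2) fun a => by
    rw [diag_mul h1 h2, diag_mul h0 (T.tri g), exp_diag (nl_le _ hz), one_mul, Tri.D_Ys,
      Matrix.diagonal_apply_eq, T.d_inv, mul_inv_cancel₀ (T.d_ne g a)]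
  refine ⟨y, hy, Sp.log hy (by rw [e]; exact hs.mul (sp_diagonal _ _)), z, hz, ?_⟩
  rw [e, mul_assoc, T.D_inv'_Ys, mul_one]

section

variable {T} {g g' : G} {y y' : Mat T.n}

theorem Tri.inv_Ys (hy : y ∈ Fl T.n 1) : exp y * T.D_Ys g * (T.D_Ys g⁻¹ * exp (-y)) = 1 := by
  rw [mul_assoc, ← mul_assoc (T.D_Ys g), T.D_inv_Ys, one_mul, (exp_mul_neg hy).1]

theorem Tri.conj_Ys (hy : y ∈ Fl T.n 1) (hc : T.Cos g (exp y * T.D_Ys g)) {x : Mat T.n}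
    (hx : x ∈ nl T.ϱ) : exp y * x * exp (-y) ∈ nl T.ϱ := by
  have h0 : T.D_Ys g⁻¹ * x * T.D_Ys g⁻¹⁻¹ ∈ nl T.ϱ := T.diag_conj_mem g⁻¹ hx
  rw [inv_inv] at h0
  have h := hc.conj (Tri.inv_Ys hy) h0
  have e : exp y * T.D_Ys g * (T.D_Ys g⁻¹ * x * T.D_Ys g) * (T.D_Ys g⁻¹ * exp (-y)) =
      exp y * ((T.D_Ys g * T.D_Ys g⁻¹) * x * (T.D_Ys g * T.D_Ys g⁻¹)) * exp (-y) := by
    simp only [mul_assoc]
  rwa [e, T.D_inv_Ys, one_mul, mul_one] at h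

theorem Tri.cm_Ys (hy : y ∈ Fl T.n 1) (hc : T.Cos g (exp y * T.D_Ys g)) {x : Mat T.n}
    (hx : x ∈ Fl T.n 1) (h : exp y * x * exp (-y) - x ∈ nl T.ϱ) : cm T.n y x ∈ nl T.ϱ := by
  refine cm_mem_of_conj _ hy (Fl_le zero_le_one hx) fun s => ?_
  induction s with
  | zero => simp
  | succ s ih =>
    have e : exp y ^ (s + 1) * x * exp (-y) ^ (s + 1) - x =
        exp y * (exp y ^ s * x * exp (-y) ^ s - x) * exp (-y) + (exp y * x * exp (-y) - x) := by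
      rw [pow_succ', pow_succ]
      noncomm_ring
    rw [e]
    exact add_mem (Tri.conj_Ys hy hc ih) h

theorem Tri.three_Ys (hy : y ∈ Fl T.n 1) (hc : T.Cos g (exp y * T.D_Ys g)) :
    ∀ x ∈ nl T.ϱ, cm T.n y x ∈ nl T.ϱ := fun _ hx =>
  Tri.cm_Ys hy hc (nl_le _ hx) (sub_mem (Tri.conj_Ys hy hc hx) hx)

theorem Tri.four_Ys (hy : y ∈ Fl T.n 1) (hs : Sp T.q y) (hc : T.Cos g (exp y * T.D_Ys g))
    (hy' : y' ∈ Fl T.n 1) (hs' : Sp T.q y') (hc' : T.Cos g' (exp y' * T.D_Ys g')) :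
    cm T.n y y' ∈ nl T.ϱ := by
  refine Tri.cm_Ys hy hc hy' ?_
  obtain ⟨x, hx, e⟩ := (((hc.mul hc').mul (hc.inv (Tri.inv_Ys hy))).congr (h := g')
    (by rw [map_mul, map_mul, map_inv, mul_inv_cancel_comm])).div hc'
  have e1 : exp y * T.D_Ys g * (exp y' * T.D_Ys g') * (T.D_Ys g⁻¹ * exp (-y)) =
      exp y * exp y' * exp (-y) * T.D_Ys g' := by
    have a1 := T.D_comm_Ys g (hs'.ex.mul (sp_diagonal T.q fun a => T.ϱ g' a a))
    have a2 := T.D_comm_Ys g' hs.neg.ex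
    change T.D_Ys g * (exp y' * T.D_Ys g') = exp y' * T.D_Ys g' * T.D_Ys g at a1
    rw [mul_assoc (exp y), a1]
    calc _ = exp y * exp y' * (T.D_Ys g' * ((T.D_Ys g * T.D_Ys g⁻¹) * exp (-y))) := by
          simp only [mul_assoc]
      _ = _ := by rw [T.D_inv_Ys, one_mul, a2, ← mul_assoc]
  have e2 : exp y * exp y' * exp (-y) = exp x * exp y' := by
    have := congrArg (· * T.D_Ys g'⁻¹) (e1.symm.trans e)
    simpa only [mul_assoc, T.D_inv_Ys, mul_one] using this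
  have hx1 := nl_le _ hx
  rw [← exp_conj_mat (exp_mul_neg hy).1 hy', ← exp_st hx1 hy'] at e2
  rw [exp_inj_Fl (Fl_mul (Fl_mul (exp_mem_Fl hy) hy') (exp_mem_Fl (neg_mem hy)))
    (st_mem_Fl hx1 hy') e2]
  simpa using st_sub_line _ (nl_lie T.tri) (Tri.three_Ys hy' hc') hx (zero_mem _) 0 1

end

theorem Tri.exists_y : ∃ y : Fin T.k → Mat T.n, (∀ l, y l ∈ Fl T.n 1) ∧ (∀ l, Sp T.q (y l)) ∧
    (∀ l, ∀ x ∈ nl T.ϱ, cm T.n (y l) x ∈ nl T.ϱ) ∧ (∀ l l', cm T.n (y l) (y l') ∈ nl T.ϱ) ∧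
    ∀ l, T.Cos (T.gen l) (exp (y l) * Matrix.diagonal fun a => T.ϱ (T.gen l) a a) := by
  choose y h1 h2 h3 using fun l => T.one_Ys (T.gen l)
  exact ⟨y, h1, h2, fun l => Tri.three_Ys (h1 l) (h3 l),
    fun l l' => Tri.four_Ys (h1 l) (h2 l) (h3 l) (h1 l') (h2 l') (h3 l'), h3⟩

theorem Tri.lie_y {y : Fin T.k → Mat T.n} (h3 : ∀ l, ∀ x ∈ nl T.ϱ, cm T.n (y l) x ∈ nl T.ϱ)
    (h4 : ∀ l l', cm T.n (y l) (y l') ∈ nl T.ϱ) :
    ∀ x ∈ nl T.ϱ ⊔ Submodule.span ℝ (Set.range y), ∀ x' ∈ nl T.ϱ ⊔ Submodule.span ℝ (Set.range y),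
      cm T.n x x' ∈ nl T.ϱ := by
  intro x hx
  have a1 : ∀ w ∈ nl T.ϱ, nl T.ϱ ⊔ Submodule.span ℝ (Set.range y) ≤
      (nl T.ϱ).comap ((cm T.n).flip w) := fun w hw =>
    sup_le (fun v hv => nl_lie T.tri v hv w hw)
      (Submodule.span_le.2 (Set.range_subset_iff.2 fun l => h3 l w hw))
  have a2 : ∀ l, nl T.ϱ ⊔ Submodule.span ℝ (Set.range y) ≤
      (nl T.ϱ).comap ((cm T.n).flip (y l)) := fun l =>
    sup_le (fun v hv => by
        have := neg_mem (h3 l v hv)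
        rwa [cm_apply, neg_sub] at this)
      (Submodule.span_le.2 (Set.range_subset_iff.2 fun l' => h4 l' l))
  have a3 : nl T.ϱ ⊔ Submodule.span ℝ (Set.range y) ≤ (nl T.ϱ).comap (cm T.n x) :=
    sup_le (fun w hw => a1 w hw hx)
      (Submodule.span_le.2 (Set.range_subset_iff.2 fun l => a2 l hx))
  exact fun x' hx' => a3 hx'

theorem Tri.dec {y : Fin T.k → Mat T.n} (h1 : ∀ l, y l ∈ Fl T.n 1) (h2 : ∀ l, Sp T.q (y l))
    (h3 : ∀ l, ∀ x ∈ nl T.ϱ, cm T.n (y l) x ∈ nl T.ϱ) (h4 : ∀ l l', cm T.n (y l) (y l') ∈ nl T.ϱ)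
    (h5 : ∀ l, T.Cos (T.gen l) (exp (y l) * Matrix.diagonal fun a => T.ϱ (T.gen l) a a)) (γ : G) :
    ∃ x ∈ nl T.ϱ, T.ϱ γ = exp (x + ∑ l, (((T.π γ).toAdd l : ℤ) : ℝ) • y l) *
      Matrix.diagonal fun a => T.ϱ γ a a := by
  set U := nl T.ϱ ⊔ Submodule.span ℝ (Set.range y) with hU
  let Y : G → Mat T.n := fun g => ∑ l, (((T.π g).toAdd l : ℤ) : ℝ) • y l
  have hlie := T.lie_y h3 h4
  have hWU : nl T.ϱ ≤ U := le_sup_left
  have hyU : ∀ l, y l ∈ U := fun l =>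
    Submodule.mem_sup_right (Submodule.subset_span ⟨l, rfl⟩)
  have hYU : ∀ g, Y g ∈ U := fun g => sum_mem fun l _ => U.smul_mem _ (hyU l)
  have hU1 : U ≤ Fl T.n 1 :=
    sup_le (nl_le _) (Submodule.span_le.2 (Set.range_subset_iff.2 h1))
  have hYs : ∀ g, Sp T.q (Y g) := fun g => Sp.sum _ fun l _ => (h2 l).smul _
  have hst : ∀ a ∈ U, ∀ b ∈ U, st a b - a - b ∈ nl T.ϱ := fun a ha b hb =>
    st_sub_mem U _ (fun x hx x' hx' => hWU (hlie x hx x' hx')) hlie ha hb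
  have hYm : ∀ g h, Y (g * h) = Y g + Y h := fun g h => by
    simp [Y, add_smul, Finset.sum_add_distrib]
  have hYi : ∀ g, Y g⁻¹ = -Y g := fun g => by simp [Y]
  have hY0 : ∀ g, T.π g = 1 → Y g = 0 := fun g h => by simp [Y, h]
  have hYg : ∀ l, Y (T.gen l) = y l := fun l => by
    simp [Y, T.π_gen, Pi.single_apply]
  have hker : ∀ g, T.π g = 1 → ∃ x ∈ nl T.ϱ, T.ϱ g = exp (x + Y g) * T.D_Ys g := fun g h => by
    obtain ⟨x, hx, e⟩ := T.of_diag ((T.ker g).1 h)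
    exact ⟨x, hx, by rw [hY0 g h, add_zero, T.D_one_Ys ((T.ker g).1 h), mul_one, e]⟩
  have hD : ∀ g h, ∀ x ∈ nl T.ϱ, T.D_Ys g * exp (x + Y h) =
      exp (T.D_Ys g * x * T.D_Ys g⁻¹ + Y h) * T.D_Ys g := fun g h x hx => by
    have e : T.D_Ys g * (x + Y h) * T.D_Ys g⁻¹ = T.D_Ys g * x * T.D_Ys g⁻¹ + Y h := by
      rw [mul_add, add_mul, T.D_comm_Ys g (hYs h), mul_assoc (Y h), T.D_inv_Ys, mul_one]
    rw [← e, exp_conj_mat (T.D_inv_Ys g) (hU1 (add_mem (hWU hx) (hYU h))), mul_assoc,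
      T.D_inv'_Ys, mul_one]
  let S : Subgroup G :=
    { carrier := {g | ∃ x ∈ nl T.ϱ, T.ϱ g = exp (x + Y g) * T.D_Ys g}
      one_mem' := hker 1 (map_one _)
      mul_mem' := by
        rintro g h ⟨x, hx, e⟩ ⟨x', hx', e'⟩
        have hx'' : T.D_Ys g * x' * T.D_Ys g⁻¹ ∈ nl T.ϱ := T.diag_conj_mem g hx'
        have ha := add_mem (hWU hx) (hYU g)
        have hb := add_mem (hWU hx'') (hYU h)
        refine ⟨_, add_mem (add_mem (hst _ ha _ hb) hx) hx'', ?_⟩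
        rw [map_mul, e, e', mul_assoc, ← mul_assoc (T.D_Ys g), hD g h x' hx', mul_assoc,
          T.D_mul_Ys, ← mul_assoc, ← exp_st (hU1 ha) (hU1 hb), hYm]
        congr 2
        abel
      inv_mem' := by
        rintro g ⟨x, hx, e⟩
        refine ⟨_, T.diag_conj_mem g⁻¹ (neg_mem hx), ?_⟩
        have a := hD g⁻¹ g⁻¹ _ (neg_mem hx)
        have b : T.ϱ g * (T.D_Ys g⁻¹ * exp (-x + Y g⁻¹)) = 1 := by
          rw [hYi, ← neg_add, e]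
          exact Tri.inv_Ys (hU1 (add_mem (hWU hx) (hYU g)))
        have c : T.ϱ g⁻¹ * T.ϱ g = 1 := by rw [← map_mul, inv_mul_cancel, map_one]
        exact (left_inv_eq_right_inv c b).trans a }
  refine top_of_gen T.π T.gen T.π_gen S hker (fun l => ?_) γ
  obtain ⟨x, hx, e⟩ := h5 l
  have ha := hWU (neg_mem hx)
  refine ⟨_, add_mem (hst _ ha _ (hyU l)) (neg_mem hx), ?_⟩
  have e1 : st (-x) (y l) - -x - y l + -x + Y (T.gen l) = st (-x) (y l) := by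
    rw [hYg]
    abel
  rw [e1, exp_st (hU1 ha) (h1 l), mul_assoc, Tri.D_Ys, e, ← mul_assoc,
    (exp_mul_neg (nl_le _ hx)).2, one_mul]

end Vale.Agent.P188.PM
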